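import Crest.Agent.R34.Conc

/-! Typical properties of the random lines: free points on lines, concurrent quintuples, valid
points. -/

set_option autoImplicit false

namespace Crest.Agent.R34

open Finset

section Surv

variable {ι α β : Type} [Fintype ι] [DecidableEq ι] [Fintype α] [DecidableEq α]

/-- the items of `Y` that are not killed by any coordinate -/
def patSurv (Y : Finset β) (B : ι → β → Finset α) (ω : ι → α) : Finset β :=
  Y.filter (fun y => ∀ i, ω i ∉ B i y)

theorem pat_ex_surv [Nonempty α] (Y : Finset β) (B : ι → β → Finset α) :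
    ex (fun ω : ι → α => ((patSurv Y B ω).card : ℝ)) =
      ∑ y ∈ Y, ∏ i, (1 - ((B i y).card : ℝ) / Fintype.card α) := by
  have hq : (0 : ℝ) < Fintype.card α := by exact_mod_cast Fintype.card_pos
  have h1 : ∀ ω : ι → α, ((patSurv Y B ω).card : ℝ) =
      ∑ y ∈ Y, if ∀ i, ω i ∉ B i y then (1 : ℝ) else 0 := by
    intro ω
    rw [patSurv, card_filter]
    push_cast
    rfl
  simp only [h1]
  rw [ex_sum]
  refine sum_congr rfl fun y _ => ?_
  rw [← pr_eq_ex (fun ω : ι → α => ∀ i, ω i ∉ B i y),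
    pr_congr (E' := fun ω : ι → α => ∀ i ∈ univ, ω i ∈ (B i y)ᶜ) (by simp), pr_forall_mem]
  refine prod_congr rfl fun i _ => ?_
  rw [card_compl, Nat.cast_sub (card_le_univ _)]
  field_simp

omit [Fintype α] in
theorem pat_surv_le (Y : Finset β) (B : ι → β → Finset α) (ω ω' : ι → α) (i : ι)
    (h : ∀ j, j ≠ i → ω j = ω' j) :
    (patSurv Y B ω').card ≤ (patSurv Y B ω).card + (Y.filter (fun y => ω i ∈ B i y)).card := by
  classical
  refine le_trans (card_le_card ?_) (card_union_le _ _)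
  intro y hy
  obtain ⟨h1, h2⟩ := mem_filter.1 hy
  by_cases h3 : ω i ∈ B i y
  · exact mem_union_right _ (mem_filter.2 ⟨h1, h3⟩)
  · refine mem_union_left _ (mem_filter.2 ⟨h1, fun j => ?_⟩)
    by_cases hj : j = i
    · rw [hj]; exact h3
    · rw [h j hj]; exact h2 j

omit [Fintype α] in
theorem pat_surv_lip (Y : Finset β) (B : ι → β → Finset α) (m : ℕ)
    (hm : ∀ i a, (Y.filter (fun y => a ∈ B i y)).card ≤ m) (ω : ι → α) (i : ι) (a : α) :
    |((patSurv Y B (Function.update ω i a)).card : ℝ) - (patSurv Y B ω).card| ≤ m := by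
  have h1 := pat_surv_le Y B ω (Function.update ω i a) i
    (fun j hj => by rw [Function.update_of_ne hj])
  have h2 := pat_surv_le Y B (Function.update ω i a) ω i
    (fun j hj => by rw [Function.update_of_ne hj])
  have h3 : ((patSurv Y B (Function.update ω i a)).card : ℝ) ≤ (patSurv Y B ω).card + m := by
    exact_mod_cast h1.trans (Nat.add_le_add_left (hm _ _) _)
  have h4 : ((patSurv Y B ω).card : ℝ) ≤ (patSurv Y B (Function.update ω i a)).card + m := by
    exact_mod_cast h2.trans (Nat.add_le_add_left (hm _ _) _)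
  rw [abs_le]
  constructor <;> linarith

theorem pat_exp_le {x : ℝ} (h0 : 0 ≤ x) (h1 : x ≤ 1 / 2) : Real.exp (-(2 * x)) ≤ 1 - x := by
  have h2 : 2 * x + 1 ≤ Real.exp (2 * x) := Real.add_one_le_exp _
  rw [Real.exp_neg, inv_le_iff_one_le_mul₀ (Real.exp_pos _)]
  have h3 : 0 ≤ 1 - x := by linarith
  nlinarith [mul_le_mul_of_nonneg_left h2 h3]

theorem pat_surv_tail [Nonempty α] (Y : Finset β) (B : ι → β → Finset α) (m : ℕ) (T : ℝ)
    (hY : Y.card = Fintype.card α) (hm0 : 0 < m) (hT : 0 < T) (hmq : 2 * m ≤ Fintype.card α)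
    (hι : (Fintype.card ι : ℝ) ≤ T * Fintype.card α)
    (hB : ∀ i y, (B i y).card ≤ m) (hm : ∀ i a, (Y.filter (fun y => a ∈ B i y)).card ≤ m) :
    pr (fun ω : ι → α => ((patSurv Y B ω).card : ℝ) <
        Real.exp (-(2 * m * T)) / 2 * Fintype.card α) ≤
      2 * Real.exp (-((Real.exp (-(2 * m * T)) / 2) ^ 2 / (4 * T * m ^ 2)) * Fintype.card α) := by
  have hq : (0 : ℝ) < Fintype.card α := by exact_mod_cast Fintype.card_pos
  have hm' : (0 : ℝ) < m := by exact_mod_cast hm0
  set q : ℝ := (Fintype.card α : ℝ) with hqd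
  set c : ℝ := Real.exp (-(2 * m * T)) / 2 with hc
  have hc0 : 0 < c := by positivity
  have hx : (m : ℝ) / q ≤ 1 / 2 := by
    rw [div_le_iff₀ hq]
    have : ((2 * m : ℕ) : ℝ) ≤ q := by rw [hqd]; exact_mod_cast hmq
    push_cast at this
    linarith
  have hmean : 2 * c * q ≤ ex (fun ω : ι → α => ((patSurv Y B ω).card : ℝ)) := by
    rw [pat_ex_surv]
    have h1 : ∀ y ∈ Y, 2 * c ≤ ∏ i, (1 - ((B i y).card : ℝ) / q) := by
      intro y _
      have h2 : ∀ i, Real.exp (-(2 * (m / q))) ≤ 1 - ((B i y).card : ℝ) / q := by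
        intro i
        refine (pat_exp_le (by positivity) hx).trans ?_
        have : ((B i y).card : ℝ) ≤ m := by exact_mod_cast hB i y
        have := div_le_div_of_nonneg_right this hq.le
        linarith
      refine le_trans ?_ (prod_le_prod (fun i _ => (Real.exp_pos _).le) fun i _ => h2 i)
      rw [prod_const, card_univ, ← Real.exp_nat_mul, hc, mul_div_cancel₀ _ two_ne_zero]
      refine Real.exp_le_exp.2 ?_
      have h3 : (Fintype.card ι : ℝ) * (2 * (m / q)) ≤ T * q * (2 * (m / q)) :=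
        mul_le_mul_of_nonneg_right hι (by positivity)
      have h4 : T * q * (2 * (m / q)) = 2 * m * T := by field_simp
      linarith
    have h5 := card_nsmul_le_sum Y _ _ h1
    rw [hY, nsmul_eq_mul] at h5
    linarith
  have h := mcdiarmid (fun ω : ι → α => ((patSurv Y B ω).card : ℝ)) m (c * q) (T * q) hm'
    (by positivity) (by positivity) hι (pat_surv_lip Y B m hm)
  refine le_trans (pr_mono fun ω hω => ?_) (h.trans (le_of_eq ?_))
  · refine le_trans ?_ (neg_le_abs _)
    linarith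
  · congr 2
    field_simp

theorem pat_tail (K : ℕ) {b ε : ℝ} (hb : 0 < b) (hε : 0 < ε) :
    ∃ q₀ : ℕ, ∀ q : ℕ, q₀ ≤ q → (q : ℝ) ^ K * Real.exp (-b * q) ≤ ε := by
  have h := (tendsto_rpow_mul_exp_neg_mul_atTop_nhds_zero (K : ℝ) b hb).comp
    tendsto_natCast_atTop_atTop
  obtain ⟨q₀, h0⟩ := Filter.eventually_atTop.1 (h.eventually (ge_mem_nhds hε))
  refine ⟨q₀, fun q hq => ?_⟩
  have := h0 q hq
  simpa [Real.rpow_natCast] using this

end Surv

theorem pat_card_Idx (F : Type) [Field F] [Fintype F] :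
    (Fintype.card (Idx F) : ℝ) ≤ 20002 * Fintype.card F := by
  have hq : (1 : ℝ) ≤ Fintype.card F := by exact_mod_cast Fintype.card_pos
  have : Fintype.card (Idx F) = (Fintype.card F + 1) * 10001 := by
    simp [Idx, Lab]
  rw [this]
  push_cast
  linarith

theorem pat_free_card {F : Type} [Field F] [Fintype F] [DecidableEq F] (l : Ln F) (d : Dir F)
    (P : Prop) [Decidable P] (hP : P → d ≠ l.1) (a : F) :
    ((pts l).filter (fun p => a ∈ (if P then {lin d p} else ∅ : Finset F))).card ≤ 1 := by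
  rw [card_le_one]
  intro p hp p' hp'
  obtain ⟨h1, h2⟩ := mem_filter.1 hp
  obtain ⟨h1', h2'⟩ := mem_filter.1 hp'
  by_cases h : P
  · rw [if_pos h, mem_singleton] at h2 h2'
    exact eq_of_lin_eq (hP h) (h2.symm.trans h2') ((mem_pts.1 h1).trans (mem_pts.1 h1').symm)
  · rw [if_neg h] at h2
    exact absurd h2 (notMem_empty _)

theorem pat_freeOn_eq {F ι : Type} [Field F] [Fintype F] [DecidableEq F] [Fintype ι]
    [DecidableEq ι] (dir : ι → Dir F) (A : Finset ι) (l : Ln F) (ω : ι → F) :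
    freeOn dir A ω l = patSurv (pts l)
      (fun i p => if i ∈ A ∧ dir i ≠ l.1 then {lin (dir i) p} else ∅) ω := by
  ext p
  simp only [mem_freeOn, patSurv, mem_filter, mem_pts]
  refine and_congr_right fun _ => forall_congr' fun i => ?_
  by_cases h : i ∈ A ∧ dir i ≠ l.1
  · rw [if_pos h, mem_singleton, on_mk]
    exact ⟨fun h1 h2 => h1 h.1 h.2 h2.symm, fun h1 _ _ h2 => h1 h2.symm⟩
  · rw [if_neg h]
    exact ⟨fun _ => notMem_empty _, fun _ h1 h2 => absurd ⟨h1, h2⟩ h⟩

/-- two-sided concentration of the number of free points on a line -/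
theorem freeOn_conc {F ι : Type} [Field F] [Fintype F] [DecidableEq F] [Fintype ι] [DecidableEq ι]
    (dir : ι → Dir F) (A : Finset ι) (l : Ln F) (s n : ℝ) (hs : 0 ≤ s) (hn0 : 0 < n)
    (hn : (Fintype.card ι : ℝ) ≤ n) :
    pr (fun ω : ι → F => s ≤ |((freeOn dir A ω l).card : ℝ) - Fintype.card F *
      (1 - 1 / (Fintype.card F : ℝ)) ^ (A.filter (fun i => dir i ≠ l.1)).card|) ≤
        2 * Real.exp (-(s ^ 2 / (4 * n))) := by
  have h := mcdiarmid (fun ω : ι → F => ((patSurv (pts l)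
      (fun i p => if i ∈ A ∧ dir i ≠ l.1 then {lin (dir i) p} else ∅) ω).card : ℝ)) (1 : ℕ) s n
    (by norm_num) hs hn0 hn (pat_surv_lip _ _ 1 fun i a => pat_free_card l (dir i) _ And.right a)
  rw [pat_ex_surv] at h
  have e : ∑ p ∈ pts l, ∏ i, (1 - (((if i ∈ A ∧ dir i ≠ l.1 then {lin (dir i) p} else ∅ :
      Finset F).card : ℝ)) / Fintype.card F) = Fintype.card F *
      (1 - 1 / (Fintype.card F : ℝ)) ^ (A.filter (fun i => dir i ≠ l.1)).card := by
    have e1 : ∀ p ∈ pts l, ∏ i, (1 - (((if i ∈ A ∧ dir i ≠ l.1 then {lin (dir i) p} else ∅ :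
        Finset F).card : ℝ)) / Fintype.card F) =
        (1 - 1 / (Fintype.card F : ℝ)) ^ (A.filter (fun i => dir i ≠ l.1)).card := by
      intro p _
      rw [← prod_const, ← Fintype.prod_ite_mem (A.filter (fun i => dir i ≠ l.1))]
      refine prod_congr rfl fun i _ => ?_
      by_cases hi : i ∈ A ∧ dir i ≠ l.1
      · rw [if_pos hi, if_pos (mem_filter.2 hi)]
        simp
      · rw [if_neg hi, if_neg (fun h => hi (mem_filter.1 h))]
        simp
    rw [sum_congr rfl e1, sum_const, card_pts, nsmul_eq_mul]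
  rw [e] at h
  simp only [pat_freeOn_eq]
  simpa using h

theorem free_prob : ∃ c : ℝ, 0 < c ∧ ∃ q₀ : ℕ, ∀ (F : Type) [Field F] [Fintype F] [DecidableEq F],
    q₀ ≤ Fintype.card F →
      pr (fun ω : Idx F → F => ¬ FreeProp Prod.fst ω (c * Fintype.card F)) ≤ 1 / 10 := by
  set c : ℝ := Real.exp (-(2 * (1 : ℕ) * 20002)) / 2 with hc
  have hc0 : 0 < c := by positivity
  obtain ⟨q₀, hq₀⟩ := pat_tail 2 (b := c ^ 2 / (4 * 20002 * (1 : ℕ) ^ 2)) (ε := 1 / 40)
    (by positivity) (by norm_num)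
  refine ⟨c, hc0, max q₀ 2, fun F _ _ _ hq => ?_⟩
  have hq1 : (1 : ℝ) ≤ Fintype.card F := by exact_mod_cast Fintype.card_pos
  have h1 : ∀ l : Ln F, pr (fun ω : Idx F → F =>
      ((freeOn Prod.fst univ ω l).card : ℝ) < c * Fintype.card F) ≤
      2 * Real.exp (-(c ^ 2 / (4 * 20002 * (1 : ℕ) ^ 2)) * Fintype.card F) := by
    intro l
    simp only [pat_freeOn_eq]
    refine pat_surv_tail _ _ 1 20002 (card_pts l) one_pos (by norm_num)
      (le_of_max_le_right hq) (pat_card_Idx F) (fun i p => ?_)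
      (fun i a => pat_free_card l _ _ And.right a)
    split_ifs <;> simp
  have h2 := pr_exists_le_mul _ _ h1
  refine le_trans (pr_mono fun ω hω => ?_) (h2.trans ?_)
  · unfold FreeProp at hω
    push Not at hω
    exact hω
  · have h3 := hq₀ _ (le_of_max_le_left hq)
    have h4 : (Fintype.card (Ln F) : ℝ) ≤ 2 * (Fintype.card F : ℝ) ^ 2 := by
      rw [card_Ln]
      push_cast
      nlinarith
    have h5 := mul_le_mul_of_nonneg_right h4 (show 0 ≤ 2 * Real.exp
      (-(c ^ 2 / (4 * 20002 * (1 : ℕ) ^ 2)) * Fintype.card F) by positivity)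
    linarith

theorem moment_prob : ∃ C : ℝ, ∀ (F : Type) [Field F] [Fintype F] [DecidableEq F],
    pr (fun ω : Idx F → F => ¬ MomentProp ω C) ≤ 1 / 10 := by
  refine ⟨10 * 20002 ^ 5, fun F _ _ _ => ?_⟩
  classical
  have hq : (0 : ℝ) < Fintype.card F := by exact_mod_cast Fintype.card_pos
  set X : (Idx F → F) → ℝ := fun ω => ∑ u : Pt F × (Fin 5 → Idx F),
    if Function.Injective u.2 ∧ ∀ a, On u.1 (rl ω (u.2 a)) then (1 : ℝ) else 0 with hX
  have h1 : ex X ≤ 20002 ^ 5 * (Fintype.card F : ℝ) ^ 2 := by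
    rw [hX, ex_sum]
    have h2 : ∀ u : Pt F × (Fin 5 → Idx F), ex (fun ω : Idx F → F =>
        if Function.Injective u.2 ∧ ∀ a, On u.1 (rl ω (u.2 a)) then (1 : ℝ) else 0) ≤
        (1 / (Fintype.card F : ℝ)) ^ 5 := by
      intro u
      rw [← pr_eq_ex (fun ω : Idx F → F => Function.Injective u.2 ∧ ∀ a, On u.1 (rl ω (u.2 a)))]
      by_cases hi : Function.Injective u.2
      · refine le_trans (pr_mono (E' := fun ω : Idx F → F =>
          ∀ i ∈ univ.image u.2, ω i ∈ ({lin i.1 u.1} : Finset F)) ?_) (le_of_eq ?_)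
        · rintro ω ⟨-, h⟩ i hi
          obtain ⟨a, -, rfl⟩ := mem_image.1 hi
          exact mem_singleton.2 (h a).symm
        · rw [pr_forall_mem]
          simp only [card_singleton, Nat.cast_one, prod_const]
          rw [card_image_of_injective _ hi]
          simp
      · rw [pr_false fun ω h => hi h.1]
        positivity
    refine (sum_le_sum fun u _ => h2 u).trans ?_
    rw [sum_const, card_univ, nsmul_eq_mul, Fintype.card_prod, card_Pt, Fintype.card_fun,
      Fintype.card_fin]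
    push_cast
    have h3 : (Fintype.card (Idx F) : ℝ) ^ 5 ≤ (20002 * Fintype.card F) ^ 5 :=
      pow_le_pow_left₀ (Nat.cast_nonneg _) (pat_card_Idx F) 5
    calc (Fintype.card F : ℝ) ^ 2 * (Fintype.card (Idx F) : ℝ) ^ 5 * (1 / (Fintype.card F : ℝ)) ^ 5
        ≤ (Fintype.card F : ℝ) ^ 2 * (20002 * Fintype.card F) ^ 5 *
          (1 / (Fintype.card F : ℝ)) ^ 5 := by gcongr
      _ = _ := by field_simp
  have h4 := markov X (fun ω => sum_nonneg fun u _ => by split_ifs <;> norm_num)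
    (a := 10 * 20002 ^ 5 * (Fintype.card F : ℝ) ^ 2) (by positivity)
  refine le_trans (pr_mono fun ω hω => ?_) (h4.trans ?_)
  · unfold MomentProp at hω
    rw [not_le, card_filter] at hω
    push_cast at hω
    refine hω.le.trans (le_of_eq ?_)
    exact sum_congr rfl fun u _ => by congr
  · rw [div_le_iff₀ (by positivity)]
    linarith

section Valid

variable {F : Type} [Field F] [Fintype F] [DecidableEq F]

/-- the line `l` kills the point `y` -/
def patKill (r : Ln F) (e : Fin 2 → Dir F) (g : Fin 2 → Fin 10 → Ln F) (l : Ln F) (y : Pt F) :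
    Prop :=
  (On y l ∧ l ≠ r) ∨ ∃ i j, (g i j).1 ≠ e i ∧ On (meet (g i j) (e i, lin (e i) y)) l ∧ l ≠ g i j

open Classical in
theorem pat_kill_card (r : Ln F) (e : Fin 2 → Dir F) (g : Fin 2 → Fin 10 → Ln F)
    (he : ∀ i, e i ≠ r.1) (l : Ln F) : ((pts r).filter (patKill r e g l)).card ≤ 21 := by
  have h1 : ((pts r).filter (fun y => On y l ∧ l ≠ r)).card ≤ 1 := by
    rw [card_le_one]
    intro y hy y' hy'
    obtain ⟨a1, a2, a3⟩ := mem_filter.1 hy
    obtain ⟨b1, b2, -⟩ := mem_filter.1 hy'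
    exact pt_eq_of_on a3 a2 (mem_pts.1 a1) b2 (mem_pts.1 b1)
  have h2 : ∀ ij : Fin 2 × Fin 10, ((pts r).filter (fun y => (g ij.1 ij.2).1 ≠ e ij.1 ∧
      On (meet (g ij.1 ij.2) (e ij.1, lin (e ij.1) y)) l ∧ l ≠ g ij.1 ij.2)).card ≤ 1 := by
    rintro ⟨i, j⟩
    rw [card_le_one]
    intro y hy y' hy'
    obtain ⟨a1, a2, a3, a4⟩ := mem_filter.1 hy
    obtain ⟨b1, -, b3, -⟩ := mem_filter.1 hy'
    dsimp only at a2 a3 a4 b3
    have e1 := pt_eq_of_on a4 a3 (meet_on_left (l' := (e i, lin (e i) y)) a2) b3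
      (meet_on_left (l' := (e i, lin (e i) y')) a2)
    have e2 := meet_on_right (l := g i j) (l' := (e i, lin (e i) y)) a2
    have e3 := meet_on_right (l := g i j) (l' := (e i, lin (e i) y')) a2
    rw [on_mk] at e2 e3
    rw [e1] at e2
    exact eq_of_lin_eq (he i) (e2.symm.trans e3) ((mem_pts.1 a1).trans (mem_pts.1 b1).symm)
  have h3 := card_biUnion_le_card_mul (univ : Finset (Fin 2 × Fin 10)) _ 1 (fun ij _ => h2 ij)
  have h4 : (pts r).filter (patKill r e g l) ⊆ (pts r).filter (fun y => On y l ∧ l ≠ r) ∪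
      (univ : Finset (Fin 2 × Fin 10)).biUnion (fun ij => (pts r).filter (fun y =>
        (g ij.1 ij.2).1 ≠ e ij.1 ∧
        On (meet (g ij.1 ij.2) (e ij.1, lin (e ij.1) y)) l ∧ l ≠ g ij.1 ij.2)) := by
    intro y hy
    obtain ⟨a1, a2 | ⟨i, j, a2⟩⟩ := mem_filter.1 hy
    · exact mem_union_left _ (mem_filter.2 ⟨a1, a2⟩)
    · exact mem_union_right _ (mem_biUnion.2 ⟨(i, j), mem_univ _, mem_filter.2 ⟨a1, a2⟩⟩)
  have h5 := (card_le_card h4).trans (card_union_le _ _)
  simp only [card_univ, Fintype.card_prod, Fintype.card_fin] at h3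
  omega

open Classical in
theorem pat_kill_card' (r : Ln F) (e : Fin 2 → Dir F) (g : Fin 2 → Fin 10 → Ln F) (d : Dir F)
    (y : Pt F) : (univ.filter (fun a : F => patKill r e g (d, a) y)).card ≤ 21 := by
  have h4 : univ.filter (fun a : F => patKill r e g (d, a) y) ⊆ insert (lin d y)
      ((univ : Finset (Fin 2 × Fin 10)).image
        (fun ij => lin d (meet (g ij.1 ij.2) (e ij.1, lin (e ij.1) y)))) := by
    intro a ha
    obtain ⟨-, a2 | ⟨i, j, -, a2, -⟩⟩ := mem_filter.1 ha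
    · rw [← on_mk.1 a2.1]
      exact mem_insert_self _ _
    · exact mem_insert_of_mem (mem_image.2 ⟨(i, j), mem_univ _, on_mk.1 a2⟩)
  refine (card_le_card h4).trans ((card_insert_le _ _).trans ?_)
  have := card_image_le (s := (univ : Finset (Fin 2 × Fin 10)))
    (f := fun ij => lin d (meet (g ij.1 ij.2) (e ij.1, lin (e ij.1) y)))
  simp only [card_univ, Fintype.card_prod, Fintype.card_fin] at this
  omega

end Valid

theorem valid_prob : ∃ c : ℝ, 0 < c ∧ ∃ q₀ : ℕ, ∀ (F : Type) [Field F] [Fintype F] [DecidableEq F],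
    q₀ ≤ Fintype.card F →
      pr (fun ω : Idx F → F => ¬ ValidProp ω (c * Fintype.card F)) ≤ 1 / 10 := by
  set c : ℝ := Real.exp (-(2 * (21 : ℕ) * 20002)) / 2 with hc
  have hc0 : 0 < c := by positivity
  obtain ⟨q₀, hq₀⟩ := pat_tail 44 (b := c ^ 2 / (4 * 20002 * (21 : ℕ) ^ 2)) (ε := 1 / (20 * 2 ^ 23))
    (by positivity) (by norm_num)
  refine ⟨c, hc0, max q₀ 42, fun F _ _ _ hq => ?_⟩
  classical
  have hq1 : (1 : ℝ) ≤ Fintype.card F := by exact_mod_cast Fintype.card_pos
  have h1 : ∀ t : Ln F × (Fin 2 → Dir F) × (Fin 2 → Fin 10 → Ln F), pr (fun ω : Idx F → F =>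
      (∀ i, t.2.1 i ≠ t.1.1) ∧ ((patSurv (pts t.1) (fun (k : Idx F) y =>
        univ.filter (fun a : F => patKill t.1 t.2.1 t.2.2 (k.1, a) y)) ω).card : ℝ) <
          c * Fintype.card F) ≤
      2 * Real.exp (-(c ^ 2 / (4 * 20002 * (21 : ℕ) ^ 2)) * Fintype.card F) := by
    rintro ⟨r, e, g⟩
    by_cases he : ∀ i, e i ≠ r.1
    · refine le_trans (pr_mono fun ω h => h.2) ?_
      refine pat_surv_tail _ _ 21 20002 (card_pts r) (by norm_num) (by norm_num)
        (le_of_max_le_right hq) (pat_card_Idx F) (fun k y => ?_) (fun k a => ?_)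
      · convert pat_kill_card' r e g k.1 y
      · refine le_trans (le_of_eq ?_) (pat_kill_card r e g he (k.1, a))
        congr 1
        ext y
        simp only [mem_filter, mem_univ, true_and]
    · rw [pr_false fun ω h => he h.1]
      positivity
  have h2 := pr_exists_le_mul _ _ h1
  refine le_trans (pr_mono fun ω hω => ?_) (h2.trans ?_)
  · unfold ValidProp at hω
    push Not at hω
    obtain ⟨r, e, g, he, -, hlt⟩ := hω
    refine ⟨(r, e, g), he, lt_of_le_of_lt ?_ hlt⟩
    refine Nat.cast_le.2 (card_le_card fun y hy => ?_)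
    obtain ⟨a1, a2⟩ := mem_filter.1 hy
    simp only [mem_filter, mem_univ, true_and] at a2 ⊢
    refine ⟨mem_pts.1 a1, fun k hk => ?_, fun i j hij k hk => ?_⟩
    · by_contra hne
      exact a2 k (Or.inl ⟨hk, hne⟩)
    · by_contra hne
      exact a2 k (Or.inr ⟨i, j, hij, hk, hne⟩)
  · have h3 := hq₀ _ (le_of_max_le_left hq)
    have h4 : (Fintype.card (Ln F) : ℝ) ≤ 2 * (Fintype.card F : ℝ) ^ 2 := by
      rw [card_Ln]
      push_cast
      nlinarith
    have h4' : (Fintype.card (Dir F) : ℝ) ≤ 2 * (Fintype.card F : ℝ) := by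
      rw [card_Dir]
      push_cast
      linarith
    have h6 : (Fintype.card (Ln F × (Fin 2 → Dir F) × (Fin 2 → Fin 10 → Ln F)) : ℝ) ≤
        2 ^ 23 * (Fintype.card F : ℝ) ^ 44 := by
      rw [Fintype.card_prod (Ln F), Fintype.card_prod (Fin 2 → Dir F), Fintype.card_fun, Fintype.card_fun,
        Fintype.card_fun, Fintype.card_fin, Fintype.card_fin]
      push_cast
      calc (Fintype.card (Ln F) : ℝ) * ((Fintype.card (Dir F) : ℝ) ^ 2 *
            ((Fintype.card (Ln F) : ℝ) ^ 10) ^ 2)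
          ≤ (2 * (Fintype.card F : ℝ) ^ 2) * ((2 * (Fintype.card F : ℝ)) ^ 2 *
            ((2 * (Fintype.card F : ℝ) ^ 2) ^ 10) ^ 2) := by gcongr
        _ = _ := by ring
    have h5 := mul_le_mul_of_nonneg_right h6 (show 0 ≤ 2 * Real.exp
      (-(c ^ 2 / (4 * 20002 * (21 : ℕ) ^ 2)) * Fintype.card F) by positivity)
    refine h5.trans ?_
    have h7 := mul_le_mul_of_nonneg_left h3 (show (0 : ℝ) ≤ 2 ^ 24 by positivity)
    calc _ = 2 ^ 24 * ((Fintype.card F : ℝ) ^ 44 *
          Real.exp (-(c ^ 2 / (4 * 20002 * (21 : ℕ) ^ 2)) * Fintype.card F)) := by ring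
      _ ≤ _ := h7
      _ = 1 / 10 := by norm_num

end Crest.Agent.R34
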