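import Crest.Agent.R34.CaseB
import Crest.Agent.R34.Pattern

/-! The covering theorem when many points are uncovered. -/

set_option autoImplicit false

namespace Crest.Agent.R34

open Finset

variable {F ι : Type} [Field F] [Fintype F] [DecidableEq F] [Fintype ι] [DecidableEq ι]

/-- regularity of the free set -/
def Reg (dir : ι → Dir F) (A : Finset ι) (ω : ι → F) (δ ε : ℝ) : Prop :=
  ∀ l : Ln F, (∀ i ∈ A, (dir i, ω i) ≠ l) →
    δ * Fintype.card F ≤ ((free dir A ω ∩ pts l).card : ℝ) ∧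
      (Fintype.card F : ℝ) * (free dir A ω ∩ pts l).card ≤
        (free dir A ω).card + ε * (Fintype.card F : ℝ) ^ 2

omit [Fintype ι] [DecidableEq ι] in
theorem free_inter_pts {dir : ι → Dir F} {A : Finset ι} {ω : ι → F} {l : Ln F}
    (h : ∀ i ∈ A, (dir i, ω i) ≠ l) : free dir A ω ∩ pts l = freeOn dir A ω l := by
  ext p
  simp only [mem_inter, mem_free, mem_pts, mem_freeOn]
  constructor
  · rintro ⟨h1, h2⟩
    exact ⟨h2, fun i hi _ => h1 i hi⟩
  · rintro ⟨h1, h2⟩
    refine ⟨fun i hi hp => ?_, h1⟩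
    by_cases hd : dir i = l.1
    · exact h i hi (line_eq_of_dir hp h1 hd)
    · exact h2 i hi hd hp

theorem pow_sub_pow_le (p : ℝ) (hp0 : 0 ≤ p) (hp1 : p ≤ 1) (a b : ℕ) :
    (1 - p) ^ a ≤ (1 - p) ^ (a + b) + b * p := by
  have h1 : 1 + (b : ℝ) * (-p) ≤ (1 + -p) ^ b := one_add_mul_le_pow (by linarith) b
  have h2 : (1 - p) ^ a ≤ 1 := pow_le_one₀ (by linarith) (by linarith)
  have h3 : 0 ≤ (1 - p) ^ a := pow_nonneg (by linarith) a
  rw [pow_add]
  have h4 : (1 - p) ^ a * (1 - b * p) ≤ (1 - p) ^ a * (1 - p) ^ b :=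
    mul_le_mul_of_nonneg_left (by rw [show 1 - p = 1 + -p by ring]; linarith) h3
  have h5 : (1 - p) ^ a * (b * p) ≤ 1 * (b * p) :=
    mul_le_mul_of_nonneg_right h2 (by positivity)
  nlinarith

theorem reg_of_conc (dir : ι → Dir F) (M : ℕ)
    (hM : ∀ d, (univ.filter (fun i => dir i = d)).card ≤ M) (A : Finset ι) (ω : ι → F)
    (δ ε : ℝ) (hε : 0 < ε) (hεδ : ε ≤ 4 * δ)
    (hδ : 2 * δ ≤ (1 - 1 / (Fintype.card F : ℝ)) ^ Fintype.card ι)
    (hMq : 4 * (M : ℝ) ≤ ε * Fintype.card F) (hMq' : (M : ℝ) ≤ Fintype.card F)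
    (h : ∀ l : Ln F, |((freeOn dir A ω l).card : ℝ) - Fintype.card F *
      (1 - 1 / (Fintype.card F : ℝ)) ^ (A.filter (fun i => dir i ≠ l.1)).card| <
        ε / 4 * Fintype.card F) : Reg dir A ω δ ε := by
  have hq1 : (1 : ℝ) ≤ Fintype.card F := by exact_mod_cast Fintype.card_pos
  set q : ℝ := (Fintype.card F : ℝ) with hqd
  have hq0 : 0 < q := by linarith
  have hp0 : 0 ≤ 1 / q := by positivity
  have hp1 : 1 / q ≤ 1 := by rw [div_le_one hq0]; exact hq1
  set ρ := (1 - 1 / q) ^ A.card with hρ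
  have hρ1 : ρ ≤ 1 := pow_le_one₀ (by linarith) (by linarith)
  have hρδ : 2 * δ ≤ ρ :=
    hδ.trans (pow_le_pow_of_le_one (by linarith) (by linarith) (card_le_univ A))
  have hlo : ∀ l : Ln F, q * ρ - ε / 4 * q ≤ (freeOn dir A ω l).card := by
    intro l
    have h1 : ρ ≤ (1 - 1 / q) ^ (A.filter (fun i => dir i ≠ l.1)).card :=
      pow_le_pow_of_le_one (by linarith) (by linarith) (card_filter_le _ _)
    have h2 := (abs_lt.1 (h l)).1
    nlinarith
  have hhi : ∀ l : Ln F, ((freeOn dir A ω l).card : ℝ) ≤ q * ρ + M + ε / 4 * q := by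
    intro l
    have h0 : A.card = (A.filter (fun i => dir i ≠ l.1)).card +
        (A.filter (fun i => ¬ dir i ≠ l.1)).card := (card_filter_add_card_filter_not _).symm
    have h1 := pow_sub_pow_le (1 / q) hp0 hp1 (A.filter (fun i => dir i ≠ l.1)).card
      (A.filter (fun i => ¬ dir i ≠ l.1)).card
    rw [← h0, ← hρ] at h1
    have h3 : (A.filter (fun i => ¬ dir i ≠ l.1)).card ≤ M := by
      refine le_trans (card_le_card fun i hi => ?_) (hM l.1)
      exact mem_filter.2 ⟨mem_univ _, not_not.1 (mem_filter.1 hi).2⟩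
    have h4 : ((A.filter (fun i => ¬ dir i ≠ l.1)).card : ℝ) * (1 / q) ≤ M * (1 / q) :=
      mul_le_mul_of_nonneg_right (by exact_mod_cast h3) hp0
    have h5 : q * (1 - 1 / q) ^ (A.filter (fun i => dir i ≠ l.1)).card ≤ q * (ρ + M * (1 / q)) :=
      mul_le_mul_of_nonneg_left (by linarith) hq0.le
    have h6 : q * (ρ + M * (1 / q)) = q * ρ + M := by field_simp
    have h2 := (abs_lt.1 (h l)).2
    linarith
  have htot : (q - M) * (q * ρ - ε / 4 * q) ≤ (free dir A ω).card := by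
    let C : Finset F := univ.filter (fun c => ∀ i ∈ A, (dir i, ω i) ≠ ((none, c) : Ln F))
    have hC : q - M ≤ C.card := by
      have h1 : (univ : Finset F) ⊆ C ∪ (univ.filter (fun i => dir i = none)).image ω := by
        intro c _
        by_cases hc : c ∈ C
        · exact mem_union_left _ hc
        · simp only [C, mem_filter, mem_univ, true_and, not_forall, not_not] at hc
          obtain ⟨i, -, hi⟩ := hc
          exact mem_union_right _ (mem_image.2 ⟨i, mem_filter.2 ⟨mem_univ _,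
            congrArg Prod.fst hi⟩, congrArg Prod.snd hi⟩)
      have h2 := (card_le_card h1).trans ((card_union_le _ _).trans
        (Nat.add_le_add_left (card_image_le.trans (hM none)) _))
      rw [card_univ] at h2
      have h3 : q ≤ C.card + M := by rw [hqd]; exact_mod_cast h2
      linarith
    have hsum : ∑ c : F, ((free dir A ω ∩ pts (none, c)).card : ℝ) = (free dir A ω).card := by
      generalize free dir A ω = W
      have h1 := sum_dir (fun p : Pt F => if p ∈ W then (1 : ℝ) else 0) none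
      have h2 : ∀ c : F, ∑ p ∈ pts ((none, c) : Ln F), (if p ∈ W then (1 : ℝ) else 0) =
          (W ∩ pts (none, c)).card := by
        intro c; simp [inter_comm]
      simp only [h2] at h1
      rw [h1]; simp
    have hpos : 0 ≤ q * ρ - ε / 4 * q := by nlinarith
    calc (q - M) * (q * ρ - ε / 4 * q) ≤ C.card * (q * ρ - ε / 4 * q) :=
          mul_le_mul_of_nonneg_right hC hpos
      _ = ∑ _c ∈ C, (q * ρ - ε / 4 * q) := by rw [sum_const, nsmul_eq_mul]
      _ ≤ ∑ c ∈ C, ((free dir A ω ∩ pts (none, c)).card : ℝ) := by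
          refine sum_le_sum fun c hc => ?_
          rw [free_inter_pts (mem_filter.1 hc).2]
          exact hlo _
      _ ≤ ∑ c : F, ((free dir A ω ∩ pts (none, c)).card : ℝ) :=
          sum_le_sum_of_subset_of_nonneg (subset_univ _) (fun _ _ _ => Nat.cast_nonneg _)
      _ = _ := hsum
  intro l hl
  rw [free_inter_pts hl, ← hqd]
  have hM0 : (0 : ℝ) ≤ M := Nat.cast_nonneg _
  refine ⟨by have := hlo l; nlinarith, ?_⟩
  have h1 := mul_le_mul_of_nonneg_left (hhi l) hq0.le
  have h2 : M * (q * ρ) ≤ M * (q * 1) :=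
    mul_le_mul_of_nonneg_left (mul_le_mul_of_nonneg_left hρ1 hq0.le) hM0
  have h3 : 0 ≤ M * (ε / 4 * q) := by positivity
  have h4 : 4 * M * q ≤ ε * q * q := mul_le_mul_of_nonneg_right hMq hq0.le
  nlinarith

theorem reg_prob (dir : ι → Dir F) (M : ℕ)
    (hM : ∀ d, (univ.filter (fun i => dir i = d)).card ≤ M) (A : Finset ι)
    (δ ε n : ℝ) (hε : 0 < ε) (hεδ : ε ≤ 4 * δ) (hn0 : 0 < n) (hn : (Fintype.card ι : ℝ) ≤ n)
    (hδ : 2 * δ ≤ (1 - 1 / (Fintype.card F : ℝ)) ^ Fintype.card ι)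
    (hMq : 4 * (M : ℝ) ≤ ε * Fintype.card F) (hMq' : (M : ℝ) ≤ Fintype.card F) :
    pr (fun ω : ι → F => ¬ Reg dir A ω δ ε) ≤ Fintype.card (Ln F) *
      (2 * Real.exp (-((ε / 4 * Fintype.card F) ^ 2 / (4 * n)))) := by
  refine le_trans (pr_mono fun ω hω => ?_) (pr_exists_le_mul _ _ fun l =>
    freeOn_conc dir A l (ε / 4 * Fintype.card F) n (by positivity) hn0 hn)
  by_contra hc
  push Not at hc
  exact hω (reg_of_conc dir M hM A ω δ ε hε hεδ hδ hMq hMq' hc)

omit [Fintype ι] in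
theorem free_insert_card (dir : ι → Dir F) (A : Finset ι) (i : ι) (ω : ι → F) (U : Finset (Pt F)) :
    (free dir A ω ∩ U).card ≤ (free dir (insert i A) ω ∩ U).card + Fintype.card F := by
  have : free dir A ω ∩ U ⊆ (free dir (insert i A) ω ∩ U) ∪ pts (dir i, ω i) := by
    intro p hp
    obtain ⟨h1, h2⟩ := mem_inter.1 hp
    by_cases h : On p (dir i, ω i)
    · exact mem_union_right _ (mem_pts.2 h)
    · refine mem_union_left _ (mem_inter.2 ⟨mem_free.2 fun j hj => ?_, h2⟩)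
      rcases mem_insert.1 hj with rfl | hj
      · exact h
      · exact mem_free.1 h1 j hj
  refine (card_le_card this).trans ((card_union_le _ _).trans ?_)
  rw [card_pts]

/-- the first `κ` indices -/
noncomputable def pre (ι : Type) [Fintype ι] (κ : ℕ) : Finset ι :=
  univ.filter (fun i => (Fintype.equivFin ι i : ℕ) < κ)

theorem exists_stage (dir : ι → Dir F) (ω : ι → F) (U : Finset (Pt F)) (t : ℝ) (ht : 0 ≤ t)
    (h1 : t < U.card) (h2 : Disjoint U (free dir univ ω)) :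
    ∃ κ ∈ range (Fintype.card ι + 1), t - Fintype.card F ≤ (free dir (pre ι κ) ω ∩ U).card ∧
      ((free dir (pre ι κ) ω ∩ U).card : ℝ) ≤ t := by
  classical
  have hex : ∃ κ, ((free dir (pre ι κ) ω ∩ U).card : ℝ) ≤ t := by
    refine ⟨Fintype.card ι, ?_⟩
    have : pre ι (Fintype.card ι) = univ := by
      ext i; simp [pre]
    rw [this, disjoint_iff_inter_eq_empty.1 h2.symm]
    simpa using ht
  have hle : Nat.find hex ≤ Fintype.card ι := by
    refine Nat.find_min' hex ?_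
    have : pre ι (Fintype.card ι) = univ := by
      ext i; simp [pre]
    rw [this, disjoint_iff_inter_eq_empty.1 h2.symm]
    simpa using ht
  refine ⟨Nat.find hex, mem_range.2 (by omega), ?_, Nat.find_spec hex⟩
  rcases hκ : Nat.find hex with _ | κ
  · exfalso
    have := Nat.find_spec hex
    rw [hκ] at this
    have h3 : free dir (pre ι 0) ω ∩ U = U := by
      ext p; simp [pre]
    rw [h3] at this
    linarith
  · have h3 := Nat.find_min hex (show κ < Nat.find hex by omega)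
    push Not at h3
    have hκn : κ < Fintype.card ι := by omega
    have h4 : pre ι (κ + 1) = insert ((Fintype.equivFin ι).symm ⟨κ, hκn⟩) (pre ι κ) := by
      ext i
      simp only [pre, mem_filter, mem_univ, true_and, mem_insert, Equiv.eq_symm_apply, Fin.ext_iff]
      omega
    have h5 := free_insert_card dir (pre ι κ) ((Fintype.equivFin ι).symm ⟨κ, hκn⟩) ω U
    rw [← h4] at h5
    have h6 : ((free dir (pre ι κ) ω ∩ U).card : ℝ) ≤
        (free dir (pre ι (κ + 1)) ω ∩ U).card + Fintype.card F := by exact_mod_cast h5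
    linarith

theorem caseA_stage (dir : ι → Dir F) (M : ℕ)
    (hM : ∀ d, (univ.filter (fun i => dir i = d)).card ≤ M) (J : ℕ)
    (hJ : Fintype.card ι ≤ J * (Fintype.card F / 4)) (A : Finset ι)
    (δ γ φ ε : ℝ) (f k N : ℕ) (hδ : 0 < δ) (hγ : 0 < γ)
    (hφ : 0 < φ) (hε : 0 < ε) (a1 : 4 * φ ≤ δ) (a3 : 4 * γ ≤ δ) (a4 : 2 ^ J * 16 * γ < δ)
    (a5 : 16 * ε ≤ φ) (a6 : 16 * ε ≤ φ ^ 2) (a7 : 4 * ε ≤ γ) (a8 : 16 * ε ≤ γ ^ 2)
    (hk : 0 < k) (hq4 : 4 ≤ δ * Fintype.card F)
    (h1 : 4 * (Fintype.card (Ln F) : ℝ) * Real.exp (-(φ ^ 2 * k / 64)) < 1)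
    (h2 : 2048 * φ * ε * Fintype.card F ≤ γ ^ 2 * δ ^ 2 * f)
    (h3 : γ * δ ≤ 64 * φ * ε * Fintype.card F) (h4 : (f : ℝ) ≤ φ * Fintype.card F / 4)
    (hN : (2 + 64 / φ ^ 2) * Fintype.card F ≤ N)
    (s : ℝ) (hs : 0 ≤ s) (hsD : 8 * s * Real.exp s * M ≤ Fintype.card F) :
    pr (fun ω : ι → F => Reg dir A ω δ ε ∧ ∃ L : Finset (Ln F), L.card = Fintype.card F ∧
        (∀ i, (dir i, ω i) ∉ L) ∧ Disjoint (unc L) (free dir univ ω) ∧
        ε * (Fintype.card F : ℝ) ^ 2 / 2 ≤ (free dir A ω ∩ unc L).card ∧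
        ((free dir A ω ∩ unc L).card : ℝ) ≤ ε * (Fintype.card F : ℝ) ^ 2) ≤
      ((Fintype.card (Ln F) : ℝ) ^ (f + k) * 2 ^ N * 2 ^ (2 * Fintype.card F)) *
        (J * Real.exp (-(s * ε * Fintype.card F / (16 * 2 ^ J)))) := by
  classical
  have hq0 : (0 : ℝ) < Fintype.card F := by exact_mod_cast Fintype.card_pos
  set q : ℝ := (Fintype.card F : ℝ) with hqd
  choose 𝓦 h𝓦1 h𝓦2 h𝓦3 using fun B : Finset (Pt F) =>
    famA B J δ γ φ ε f k N hδ hγ hφ hε a1 a3 a4 a5 a6 a7 a8 hk hq4 h1 h2 h3 h4 hN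
  refine le_trans (pr_mono (E' := fun ω => ∃ W ∈ 𝓦 (free dir A ω),
    2 ^ J * (W ∩ free dir Aᶜ ω).card < W.card) ?_) ?_
  · rintro ω ⟨hreg, L, hL, hLΛ, hdisj, hu1, hu2⟩
    have hl : ∀ l ∈ L, ∀ i ∈ A, (dir i, ω i) ≠ l := fun l hl i _ e => hLΛ i (e ▸ hl)
    have hex : (excess (free dir A ω) L : ℝ) ≤ 2 * ε * q ^ 2 := by
      have h5 : (excess (free dir A ω) L : ℝ) + (free dir A ω).card =
          ∑ l ∈ L, ((free dir A ω ∩ pts l).card : ℝ) + (free dir A ω ∩ unc L).card := by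
        exact_mod_cast excess_add (free dir A ω) L
      have h6 : q * ∑ l ∈ L, ((free dir A ω ∩ pts l).card : ℝ) ≤
          q * ((free dir A ω).card + ε * q ^ 2) := by
        rw [mul_sum]
        calc ∑ l ∈ L, q * ((free dir A ω ∩ pts l).card : ℝ)
            ≤ ∑ _l ∈ L, ((free dir A ω).card + ε * q ^ 2) :=
              sum_le_sum fun l h => (hreg l (hl l h)).2
          _ = _ := by rw [sum_const, hL, nsmul_eq_mul]
      have h7 := le_of_mul_le_mul_left h6 hq0
      linarith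
    obtain ⟨W, hW, hW'⟩ := h𝓦3 (free dir A ω) L hL (fun l h => (hreg l (hl l h)).1) hex hu1 hu2
    refine ⟨W, hW, lt_of_le_of_lt (Nat.mul_le_mul_left _ (card_le_card fun p hp => ?_)) hW'⟩
    obtain ⟨hp1, hp2⟩ := mem_inter.1 hp
    refine inter_free_subset hdisj W (mem_inter.2 ⟨hp1, mem_free.2 fun i _ => ?_⟩)
    by_cases hi : i ∈ A
    · exact mem_free.1 ((h𝓦2 _ W hW).1 hp1) i hi
    · exact mem_free.1 hp2 i (mem_compl.2 hi)
  refine cond_union Aᶜ (fun ω => 𝓦 (free dir A ω)) (fun ω ω' h => ?_)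
    (fun W ω => 2 ^ J * (W ∩ free dir Aᶜ ω).card < W.card) (fun W ω ω' h hb => ?_) _ _
    (by positivity) (fun ω => by exact_mod_cast h𝓦1 _) (fun ω W hW => ?_)
  · have : free dir A ω = free dir A ω' := by
      ext p
      simp only [mem_free]
      exact forall₂_congr fun i hi => by rw [h i (by simpa using hi)]
    simp only [this]
  · have : free dir Aᶜ ω = free dir Aᶜ ω' := by
      ext p
      simp only [mem_free]
      exact forall₂_congr fun i hi => by rw [h i hi]
    rwa [← this]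
  · have h5 := lemmaA dir M hM q s hq0 hs hsD ∅ J Aᶜ ((card_le_univ _).trans hJ) W
      (by
        have : W.card ≤ Fintype.card F ^ 2 := by rw [← card_Pt]; exact card_le_univ _
        rw [← hqd, ← sq, hqd]; exact_mod_cast this)
      (fun l _ => by
        have : (W ∩ pts l).card ≤ Fintype.card F :=
          (card_le_card inter_subset_right).trans (card_pts l).le
        rw [hqd]; exact_mod_cast this)
    refine le_trans (pr_mono fun ω h => ⟨fun i _ => notMem_empty _, h⟩) (h5.trans ?_)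
    refine mul_le_mul_of_nonneg_left (Real.exp_le_exp.2 (neg_le_neg ?_)) (Nat.cast_nonneg _)
    have h6 : s * ε * q / (16 * 2 ^ J) = s * (ε * q ^ 2 / 2) / (8 * q * 2 ^ J) := by
      field_simp; ring
    rw [h6]
    exact div_le_div_of_nonneg_right (mul_le_mul_of_nonneg_left (h𝓦2 _ W hW).2 hs) (by positivity)

end Crest.Agent.R34
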