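import Crest.Agent.R34.Defs

/-! Uniform probability on finite types and finite products. -/

set_option autoImplicit false

namespace Crest.Agent.R34

open Finset

section

variable {Ω : Type} [Fintype Ω]

theorem pr_nonneg (E : Ω → Prop) : 0 ≤ pr E := by
  unfold pr; positivity

theorem pr_eq_ex (E : Ω → Prop) [DecidablePred E] :
    pr E = ex (fun ω => if E ω then (1 : ℝ) else 0) := by
  unfold pr ex
  congr 1
  rw [← sum_filter, sum_const, nsmul_eq_mul, mul_one]
  congr

theorem pr_eq_card (E : Ω → Prop) [DecidablePred E] :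
    pr E = ((univ.filter E).card : ℝ) / Fintype.card Ω := by
  unfold pr
  congr

theorem ex_mono {f g : Ω → ℝ} (h : ∀ ω, f ω ≤ g ω) : ex f ≤ ex g :=
  div_le_div_of_nonneg_right (sum_le_sum fun ω _ => h ω) (Nat.cast_nonneg _)

theorem ex_nonneg {f : Ω → ℝ} (h : ∀ ω, 0 ≤ f ω) : 0 ≤ ex f :=
  div_nonneg (sum_nonneg fun ω _ => h ω) (Nat.cast_nonneg _)

theorem ex_add (f g : Ω → ℝ) : ex (fun ω => f ω + g ω) = ex f + ex g := by
  simp only [ex, sum_add_distrib, add_div]

theorem ex_sub (f g : Ω → ℝ) : ex (fun ω => f ω - g ω) = ex f - ex g := by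
  simp only [ex, sum_sub_distrib, sub_div]

theorem ex_mul_left (c : ℝ) (f : Ω → ℝ) : ex (fun ω => c * f ω) = c * ex f := by
  simp only [ex, ← mul_sum, mul_div_assoc]

theorem ex_mul_right (c : ℝ) (f : Ω → ℝ) : ex (fun ω => f ω * c) = ex f * c := by
  simp only [ex, ← sum_mul]; ring

theorem ex_sum {β : Type} (s : Finset β) (f : β → Ω → ℝ) :
    ex (fun ω => ∑ b ∈ s, f b ω) = ∑ b ∈ s, ex (f b) := by
  simp only [ex]
  rw [sum_comm, sum_div]

theorem ex_const [Nonempty Ω] (c : ℝ) : ex (fun _ : Ω => c) = c := by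
  have : (0 : ℝ) < Fintype.card Ω := by exact_mod_cast Fintype.card_pos
  simp only [ex, sum_const, card_univ, nsmul_eq_mul]
  field_simp

theorem ex_comm {Ω' : Type} [Fintype Ω'] (f : Ω → Ω' → ℝ) :
    ex (fun ω => ex (fun ω' => f ω ω')) = ex (fun ω' => ex (fun ω => f ω ω')) := by
  simp only [ex, ← sum_div]
  rw [sum_comm]; ring

theorem pr_mono {E E' : Ω → Prop} (h : ∀ ω, E ω → E' ω) : pr E ≤ pr E' := by
  classical
  rw [pr_eq_ex, pr_eq_ex]
  refine ex_mono fun ω => ?_
  by_cases h1 : E ω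
  · simp [h1, h ω h1]
  · simp only [h1, if_false]; split_ifs <;> norm_num

theorem pr_congr {E E' : Ω → Prop} (h : ∀ ω, E ω ↔ E' ω) : pr E = pr E' :=
  le_antisymm (pr_mono fun ω => (h ω).1) (pr_mono fun ω => (h ω).2)

theorem pr_le_one (E : Ω → Prop) : pr E ≤ 1 := by
  classical
  rw [pr_eq_card]
  exact div_le_one_of_le₀ (by exact_mod_cast card_le_univ _) (Nat.cast_nonneg _)

theorem pr_false {E : Ω → Prop} (h : ∀ ω, ¬ E ω) : pr E = 0 := by
  classical
  rw [pr_eq_ex]; simp [h, ex]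

theorem pr_or_le (E E' : Ω → Prop) : pr (fun ω => E ω ∨ E' ω) ≤ pr E + pr E' := by
  classical
  rw [pr_eq_ex, pr_eq_ex, pr_eq_ex, ← ex_add]
  refine ex_mono fun ω => ?_
  by_cases h1 : E ω <;> by_cases h2 : E' ω <;> simp [h1, h2]

theorem pr_exists_mem_le {β : Type} (s : Finset β) (E : β → Ω → Prop) :
    pr (fun ω => ∃ b ∈ s, E b ω) ≤ ∑ b ∈ s, pr (E b) := by
  classical
  induction s using Finset.induction_on with
  | empty => simp [pr_false]
  | insert a s ha ih =>
    rw [sum_insert ha]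
    refine le_trans (pr_mono (E' := fun ω => E a ω ∨ ∃ b ∈ s, E b ω) ?_)
      ((pr_or_le _ _).trans (by linarith))
    rintro ω ⟨b, hb, h⟩
    rcases mem_insert.1 hb with rfl | hb
    · exact Or.inl h
    · exact Or.inr ⟨b, hb, h⟩

theorem pr_exists_mem_le_mul {β : Type} (s : Finset β) (E : β → Ω → Prop) (η : ℝ)
    (h : ∀ b ∈ s, pr (E b) ≤ η) : pr (fun ω => ∃ b ∈ s, E b ω) ≤ s.card * η := by
  refine (pr_exists_mem_le s E).trans ?_
  calc ∑ b ∈ s, pr (E b) ≤ ∑ _b ∈ s, η := sum_le_sum h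
    _ = s.card * η := by simp

theorem pr_exists_le_mul {β : Type} [Fintype β] (E : β → Ω → Prop) (η : ℝ)
    (h : ∀ b, pr (E b) ≤ η) : pr (fun ω => ∃ b, E b ω) ≤ Fintype.card β * η := by
  have := pr_exists_mem_le_mul (univ : Finset β) E η (fun b _ => h b)
  simpa using this

theorem exists_not_of_pr_lt_one [Nonempty Ω] {E : Ω → Prop} (h : pr E < 1) : ∃ ω, ¬ E ω := by
  classical
  by_contra hc
  push Not at hc
  rw [pr_eq_ex] at h
  simp only [hc, if_true, ex_const] at h
  exact lt_irrefl _ h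

theorem markov (f : Ω → ℝ) (hf : ∀ ω, 0 ≤ f ω) {a : ℝ} (ha : 0 < a) :
    pr (fun ω => a ≤ f ω) ≤ ex f / a := by
  classical
  rw [pr_eq_ex, le_div_iff₀ ha, ← ex_mul_right]
  refine ex_mono fun ω => ?_
  split_ifs with h
  · linarith
  · simpa using hf ω

end

section

variable {ι α : Type} [Fintype ι] [DecidableEq ι] [Fintype α]

/-- resampling the coordinates in `A` preserves the uniform distribution -/
theorem ex_resample [Nonempty α] (A : Finset ι) (f : (ι → α) → ℝ) :
    ex f = ex (fun ω : ι → α => ex (fun ω' : ι → α => f (A.piecewise ω' ω))) := by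
  have hN : (0 : ℝ) < Fintype.card (ι → α) := by exact_mod_cast Fintype.card_pos
  let e : (ι → α) × (ι → α) ≃ (ι → α) × (ι → α) :=
    { toFun := fun u => (A.piecewise u.2 u.1, A.piecewise u.1 u.2)
      invFun := fun u => (A.piecewise u.2 u.1, A.piecewise u.1 u.2)
      left_inv := fun u => by
        ext i <;> by_cases h : i ∈ A <;> simp [Finset.piecewise, h]
      right_inv := fun u => by
        ext i <;> by_cases h : i ∈ A <;> simp [Finset.piecewise, h] }
  have h1 : ∑ ω : ι → α, ∑ ω' : ι → α, f (A.piecewise ω' ω) =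
      ∑ u : (ι → α) × (ι → α), f (e u).1 := by
    rw [Fintype.sum_prod_type]; rfl
  have h2 : ∑ u : (ι → α) × (ι → α), f (e u).1 = ∑ u : (ι → α) × (ι → α), f u.1 :=
    Equiv.sum_comp e (fun u => f u.1)
  have h3 : ∑ u : (ι → α) × (ι → α), f u.1 = Fintype.card (ι → α) * ∑ ω, f ω := by
    rw [Fintype.sum_prod_type]
    simp only [sum_const, card_univ, nsmul_eq_mul, ← mul_sum]
  simp only [ex, ← sum_div]
  rw [h1, h2, h3]
  field_simp

/-- union bound over a family that depends only on the coordinates outside `A`, for events that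
depend only on the coordinates in `A` -/
theorem cond_union [Nonempty α] {β : Type} (A : Finset ι) (W : (ι → α) → Finset β)
    (hW : ∀ ω ω', (∀ i, i ∉ A → ω i = ω' i) → W ω = W ω')
    (bad : β → (ι → α) → Prop)
    (hbad : ∀ b ω ω', (∀ i ∈ A, ω i = ω' i) → bad b ω → bad b ω')
    (N η : ℝ) (hη : 0 ≤ η) (hN : ∀ ω, ((W ω).card : ℝ) ≤ N)
    (h : ∀ ω, ∀ b ∈ W ω, pr (bad b) ≤ η) :
    pr (fun ω => ∃ b ∈ W ω, bad b ω) ≤ N * η := by
  classical
  rw [pr_eq_ex, ex_resample A]
  refine le_trans (ex_mono (g := fun _ => N * η) fun ω => ?_) (ex_const _).le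
  rw [← pr_eq_ex (fun ω' : ι → α => ∃ b ∈ W (A.piecewise ω' ω), bad b (A.piecewise ω' ω))]
  refine le_trans (pr_mono (E' := fun ω' => ∃ b ∈ W ω, bad b ω') ?_) ?_
  · rintro ω' ⟨b, hb, hb'⟩
    rw [hW (A.piecewise ω' ω) ω (fun i hi => by simp [Finset.piecewise, hi])] at hb
    exact ⟨b, hb, hbad b _ _ (fun i hi => by simp [Finset.piecewise, hi]) hb'⟩
  · exact (pr_exists_mem_le_mul _ _ η (h ω)).trans (mul_le_mul_of_nonneg_right (hN ω) hη)

theorem ex_prod [Nonempty α] (A : Finset ι) (g : ι → α → ℝ) :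
    ex (fun ω : ι → α => ∏ i ∈ A, g i (ω i)) = ∏ i ∈ A, ex (g i) := by
  have hN : (0 : ℝ) < Fintype.card α := by exact_mod_cast Fintype.card_pos
  have h1 : ∀ ω : ι → α, ∏ i ∈ A, g i (ω i) = ∏ i, (if i ∈ A then g i (ω i) else 1) := by
    intro ω; rw [Fintype.prod_ite_mem]
  have h2 : ∏ i ∈ A, ex (g i) = ∏ i, ex (fun a => if i ∈ A then g i a else 1) := by
    rw [← Fintype.prod_ite_mem]
    refine prod_congr rfl fun i _ => ?_
    split_ifs
    · rfl
    · exact (ex_const 1).symm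
  rw [h2]
  simp only [h1, ex]
  rw [prod_div_distrib, prod_const, card_univ, Fintype.card_fun, Finset.prod_univ_sum,
    Fintype.piFinset_univ]
  push_cast
  rfl

theorem pr_forall_mem [Nonempty α] (A : Finset ι) (S : ι → Finset α) :
    pr (fun ω : ι → α => ∀ i ∈ A, ω i ∈ S i) =
      ∏ i ∈ A, (((S i).card : ℝ) / Fintype.card α) := by
  classical
  rw [pr_eq_ex]
  have : ∀ ω : ι → α, (if ∀ i ∈ A, ω i ∈ S i then (1 : ℝ) else 0) =
      ∏ i ∈ A, (if ω i ∈ S i then (1 : ℝ) else 0) := by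
    intro ω; rw [Finset.prod_ite_zero]; simp
  simp only [this]
  rw [ex_prod A (fun i a => if a ∈ S i then (1 : ℝ) else 0)]
  refine prod_congr rfl fun i _ => ?_
  simp [ex]

end

end Crest.Agent.R34
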