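import Crest.Agent.R34.Plane
import Crest.Agent.R34.Prob

/-! Random lines rarely cover almost all of a fixed point set. -/

set_option autoImplicit false

namespace Crest.Agent.R34

open Finset

variable {F ι : Type} [Field F] [Fintype F] [DecidableEq F] [Fintype ι] [DecidableEq ι]

theorem exp_le_quad {a s : ℝ} (hs : 0 ≤ s) (ha : a ≤ s) :
    Real.exp a ≤ 1 + a + a ^ 2 * Real.exp s := by
  have h1 : 1 ≤ Real.exp s := Real.one_le_exp hs
  have h2 : Real.exp a * (1 - a) ≤ 1 := by
    have := Real.add_one_le_exp (-a)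
    have h3 : Real.exp a * Real.exp (-a) = 1 := by rw [← Real.exp_add]; simp
    nlinarith [Real.exp_pos a]
  rcases le_total 0 a with h | h
  · have h3 : Real.exp a ≤ Real.exp s := Real.exp_le_exp.2 ha
    have h4 : a * Real.exp a ≤ a * (1 + a * Real.exp a) :=
      mul_le_mul_of_nonneg_left (by linarith) h
    nlinarith [mul_le_mul_of_nonneg_left h3 (sq_nonneg a)]
  · have h3 : Real.exp a ≤ 1 + a + a ^ 2 := by
      refine le_of_mul_le_mul_right (h2.trans ?_) (by linarith : 0 < 1 - a)
      nlinarith [mul_nonneg (sq_nonneg a) (neg_nonneg.2 h)]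
    nlinarith [sq_nonneg a]

/-- one block of at most `q/4` random lines rarely covers half of `W` -/
theorem block (dir : ι → Dir F) (M : ℕ) (hM : ∀ d, (univ.filter (fun i => dir i = d)).card ≤ M)
    (A : Finset ι) (hA : 4 * A.card ≤ Fintype.card F) (W : Finset (Pt F)) (D s : ℝ) (hD : 0 < D)
    (hs : 0 ≤ s) (hWD : (W.card : ℝ) ≤ D * Fintype.card F) (hsD : 8 * s * Real.exp s * M ≤ D) :
    pr (fun ω : ι → F => (W.card : ℝ) / 2 ≤
      ∑ i ∈ A, min (((W ∩ pts (dir i, ω i)).card : ℝ)) D) ≤
        Real.exp (-(s * W.card / (8 * D))) := by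
  have hq : (0 : ℝ) < Fintype.card F := by exact_mod_cast Fintype.card_pos
  set q : ℝ := (Fintype.card F : ℝ) with hqd
  set θ := s / D with hθ
  have hθ0 : 0 ≤ θ := div_nonneg hs hD.le
  have hθD : θ * D = s := div_mul_cancel₀ _ hD.ne'
  set μ := (W.card : ℝ) / q with hμ
  have hμ0 : 0 ≤ μ := by positivity
  have hμD : μ ≤ D := (div_le_iff₀ hq).2 hWD
  have hμq : μ * q = W.card := div_mul_cancel₀ _ hq.ne'
  let Y : Dir F → F → ℝ := fun d c => ((W ∩ pts (d, c)).card : ℝ)
  let V : Dir F → ℝ := fun d => ex (fun c => (Y d c - μ) ^ 2)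
  have h3 : ∀ l : Ln F, ∑ p ∈ pts l, (if p ∈ W then (1 : ℝ) else 0) = (W ∩ pts l).card := by
    intro l; simp [inter_comm]
  have h1 : ∑ p : Pt F, (if p ∈ W then (1 : ℝ) else 0) = W.card := by simp
  have hY : ∀ d, ex (Y d) = μ := fun d => by
    have := sum_dir (fun p => if p ∈ W then (1 : ℝ) else 0) d
    simp only [h3, h1] at this
    simp only [ex, Y, this, hμ, hqd]
  have hV0 : ∀ d, 0 ≤ V d := fun d => ex_nonneg fun c => sq_nonneg _
  have hV : ∑ d, V d ≤ W.card := by
    have := variance (fun p => if p ∈ W then (1 : ℝ) else 0)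
    have h2 : ∑ p : Pt F, (if p ∈ W then (1 : ℝ) else 0) ^ 2 = W.card := by simp
    simp only [h3, h1, h2, Fintype.sum_prod_type] at this
    simp only [V, ex, ← sum_div]
    rw [div_le_iff₀ hq, mul_comm]
    exact this
  have hVA : ∑ i ∈ A, V (dir i) ≤ M * W.card := by
    calc ∑ i ∈ A, V (dir i) ≤ ∑ i, V (dir i) :=
          sum_le_sum_of_subset_of_nonneg (subset_univ _) fun _ _ _ => hV0 _
      _ = ∑ d, ∑ i ∈ univ.filter (fun i => dir i = d), V (dir i) :=
          (sum_fiberwise univ dir _).symm
      _ ≤ ∑ d, M * V d := by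
          refine sum_le_sum fun d _ => ?_
          rw [sum_congr rfl (g := fun _ => V d) (fun i hi => by rw [(mem_filter.1 hi).2]),
            sum_const, nsmul_eq_mul]
          exact mul_le_mul_of_nonneg_right (by exact_mod_cast hM d) (hV0 d)
      _ ≤ _ := by
          rw [← mul_sum]; exact mul_le_mul_of_nonneg_left hV (Nat.cast_nonneg _)
  let g : ι → F → ℝ := fun i c => Real.exp (θ * (min (Y (dir i) c) D - μ))
  have hg : ∀ i, ex (g i) ≤ Real.exp (θ ^ 2 * Real.exp s * V (dir i)) := by
    intro i
    have e1 : ∀ c, g i c ≤ 1 + θ * (Y (dir i) c - μ) +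
        θ ^ 2 * Real.exp s * (Y (dir i) c - μ) ^ 2 := by
      intro c
      have a1 : min (Y (dir i) c) D ≤ D := min_le_right _ _
      have a2 : min (Y (dir i) c) D ≤ Y (dir i) c := min_le_left _ _
      have a3 : (min (Y (dir i) c) D - μ) ^ 2 ≤ (Y (dir i) c - μ) ^ 2 := by
        rcases le_total (Y (dir i) c) D with h | h
        · rw [min_eq_left h]
        · rw [min_eq_right h]; nlinarith
      refine (exp_le_quad hs (by nlinarith)).trans ?_
      have a4 : 0 ≤ θ ^ 2 * Real.exp s := by positivity
      nlinarith [mul_le_mul_of_nonneg_left a3 a4, mul_le_mul_of_nonneg_left a2 hθ0]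
    refine (ex_mono e1).trans ?_
    rw [ex_add, ex_add, ex_const, ex_mul_left, ex_mul_left, ex_sub, ex_const, hY, sub_self,
      mul_zero, add_zero, add_comm]
    exact Real.add_one_le_exp _
  have hA' : 4 * (A.card : ℝ) ≤ q := by rw [hqd]; exact_mod_cast hA
  refine (pr_mono (E' := fun ω : ι → F =>
    Real.exp (θ * W.card / 4) ≤ ∏ i ∈ A, g i (ω i)) fun ω h => ?_).trans
    ((markov _ (fun ω => prod_nonneg fun i _ => (Real.exp_pos _).le) (Real.exp_pos _)).trans ?_)
  · simp only [g]
    rw [← Real.exp_sum, Real.exp_le_exp, ← mul_sum, sum_sub_distrib, sum_const, nsmul_eq_mul,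
      mul_div_assoc]
    refine mul_le_mul_of_nonneg_left ?_ hθ0
    have : (A.card : ℝ) * μ ≤ W.card / 4 := by nlinarith
    change (W.card : ℝ) / 2 ≤ ∑ i ∈ A, min (Y (dir i) (ω i)) D at h
    linarith
  · rw [div_le_iff₀ (Real.exp_pos _), ← Real.exp_add]
    refine (ex_prod A g).trans_le ?_
    refine (prod_le_prod (fun i _ => ex_nonneg fun c => (Real.exp_pos _).le)
      (fun i _ => hg i)).trans ?_
    rw [← Real.exp_sum, Real.exp_le_exp, ← mul_sum]
    have a1 : s * W.card / (8 * D) = θ * W.card / 8 := by rw [hθ]; field_simp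
    have a2 : θ * Real.exp s * M ≤ 1 / 8 := by
      rw [hθ, div_mul_eq_mul_div, div_mul_eq_mul_div, div_le_iff₀ hD]; linarith
    have a4 : 0 ≤ θ ^ 2 * Real.exp s := by positivity
    have a5 : 0 ≤ θ * W.card := by positivity
    rw [a1]
    nlinarith [mul_le_mul_of_nonneg_left hVA a4, mul_le_mul_of_nonneg_left a2 a5]

/-- the random lines with index in `A`, all outside `S`, rarely cover all but a `2^{-J}` fraction
of `W`, if lines outside `S` meet `W` in at most `D` points -/
theorem lemmaA (dir : ι → Dir F) (M : ℕ) (hM : ∀ d, (univ.filter (fun i => dir i = d)).card ≤ M)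
    (D s : ℝ) (hD : 0 < D) (hs : 0 ≤ s) (hsD : 8 * s * Real.exp s * M ≤ D)
    (S : Finset (Ln F)) (J : ℕ) (A : Finset ι) (hA : A.card ≤ J * (Fintype.card F / 4))
    (W : Finset (Pt F)) (hWD : (W.card : ℝ) ≤ D * Fintype.card F)
    (hS : ∀ l, l ∉ S → ((W ∩ pts l).card : ℝ) ≤ D) :
    pr (fun ω : ι → F => (∀ i ∈ A, (dir i, ω i) ∉ S) ∧
      2 ^ J * (W ∩ free dir A ω).card < W.card) ≤
        J * Real.exp (-(s * W.card / (8 * D * 2 ^ J))) := by
  induction J generalizing A W with
  | zero =>
    have : A = ∅ := by simpa using hA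
    subst this
    rw [pr_false]
    · simp
    · rintro ω ⟨-, h⟩
      simp [free] at h
  | succ J ih =>
    obtain ⟨A1, hA1, hc⟩ := exists_subset_card_eq
      (show min (Fintype.card F / 4) A.card ≤ A.card from min_le_right _ _)
    have hA2 : (A \ A1).card ≤ J * (Fintype.card F / 4) := by
      rw [card_sdiff_of_subset hA1, hc]
      rw [add_mul, one_mul] at hA
      omega
    have hfree : ∀ (B : Finset ι) (ω ω' : ι → F), (∀ i ∈ B, ω i = ω' i) →
        free dir B ω = free dir B ω' := by
      intro B ω ω' h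
      ext p
      simp only [mem_free]
      exact forall₂_congr fun i hi => by rw [h i hi]
    let Wf : (ι → F) → Finset (Finset (Pt F)) := fun ω =>
      if W.card ≤ 2 * (W ∩ free dir A1 ω).card then {W ∩ free dir A1 ω} else ∅
    let bad : Finset (Pt F) → (ι → F) → Prop := fun b ω =>
      (∀ i ∈ A \ A1, (dir i, ω i) ∉ S) ∧ 2 ^ J * (b ∩ free dir (A \ A1) ω).card < b.card
    set η := Real.exp (-(s * W.card / (8 * D * 2 ^ (J + 1)))) with hη
    have h1 := block dir M hM A1 (by omega) W D s hD hs hWD hsD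
    have h2 := cond_union (A \ A1) Wf
      (fun ω ω' h => by
        simp only [Wf, hfree A1 ω ω' (fun i hi => h i (by simp [hi]))])
      bad (fun b ω ω' h hb => ⟨fun i hi => h i hi ▸ hb.1 i hi, hfree _ ω ω' h ▸ hb.2⟩)
      1 (J * η) (by positivity) (fun ω => by simp only [Wf]; split_ifs <;> simp)
      (fun ω b hb => by
        simp only [Wf] at hb
        split_ifs at hb with h
        · rw [mem_singleton] at hb
          have hbW : b ⊆ W := hb ▸ inter_subset_left
          rw [← hb] at h
          refine (ih (A \ A1) hA2 b ((Nat.cast_le.2 (card_le_card hbW)).trans hWD)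
            (fun l hl => (Nat.cast_le.2 (card_le_card
              (inter_subset_inter_right hbW))).trans (hS l hl))).trans ?_
          refine mul_le_mul_of_nonneg_left ?_ (Nat.cast_nonneg _)
          rw [hη, Real.exp_le_exp, neg_le_neg_iff, div_le_div_iff₀ (by positivity) (by positivity)]
          have h' : (W.card : ℝ) ≤ 2 * b.card := by exact_mod_cast h
          have a1 : 0 ≤ s * (8 * D * 2 ^ J) := by positivity
          rw [pow_succ]
          nlinarith [mul_le_mul_of_nonneg_left h' a1]
        · simp at hb)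
    have h3 : Real.exp (-(s * W.card / (8 * D))) ≤ η := by
      rw [hη, Real.exp_le_exp, neg_le_neg_iff]
      refine div_le_div_of_nonneg_left (by positivity) (by positivity) ?_
      have : (1 : ℝ) ≤ 2 ^ (J + 1) := one_le_pow₀ one_le_two
      nlinarith
    refine (pr_mono (fun ω h => ?_)).trans ((pr_or_le _ _).trans ((add_le_add h1 h2).trans ?_))
    · by_cases hw : W.card ≤ 2 * (W ∩ free dir A1 ω).card
      · right
        refine ⟨W ∩ free dir A1 ω, by simp [Wf, hw], fun i hi => h.1 i (mem_sdiff.1 hi).1, ?_⟩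
        have e : W ∩ free dir A1 ω ∩ free dir (A \ A1) ω = W ∩ free dir A ω := by
          ext p
          simp only [mem_inter, mem_free, mem_sdiff]
          constructor
          · rintro ⟨⟨a, b⟩, c⟩
            exact ⟨a, fun i hi => by
              by_cases h' : i ∈ A1
              · exact b i h'
              · exact c i ⟨hi, h'⟩⟩
          · rintro ⟨a, b⟩
            exact ⟨⟨a, fun i hi => b i (hA1 hi)⟩, fun i hi => b i hi.1⟩
        have := h.2
        rw [e]
        rw [pow_succ] at this
        nlinarith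
      · left
        have e1 : ∑ i ∈ A1, min (((W ∩ pts (dir i, ω i)).card : ℝ)) D =
            ((∑ i ∈ A1, (W ∩ pts (dir i, ω i)).card : ℕ) : ℝ) := by
          push_cast
          exact sum_congr rfl fun i hi => min_eq_left (hS _ (h.1 i (hA1 hi)))
        have e2 : W.card ≤ (W ∩ free dir A1 ω).card + ∑ i ∈ A1, (W ∩ pts (dir i, ω i)).card := by
          refine le_trans (card_le_card (t := (W ∩ free dir A1 ω) ∪
            A1.biUnion fun i => W ∩ pts (dir i, ω i)) fun p hp => ?_)
            ((card_union_le _ _).trans (Nat.add_le_add_left card_biUnion_le _))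
          simp only [mem_union, mem_inter, mem_free, mem_biUnion, mem_pts, hp, true_and]
          by_contra hc'
          push Not at hc'
          obtain ⟨⟨i, hi, hi'⟩, h'⟩ := hc'
          exact h' i hi hi'
        rw [e1, div_le_iff₀ two_pos]
        exact_mod_cast (by omega)
    · push_cast
      linarith

end Crest.Agent.R34
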