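import Crest.Agent.R34.Fam
import Crest.Agent.R34.LemmaA

/-! The covering theorem when few points are uncovered. -/

set_option autoImplicit false

namespace Crest.Agent.R34

open Finset

variable {F ι : Type} [Field F] [Fintype F] [DecidableEq F] [Fintype ι] [DecidableEq ι]

omit [DecidableEq ι] in
theorem inter_free_subset {dir : ι → Dir F} {ω : ι → F} {L : Finset (Ln F)}
    (h : Disjoint (unc L) (free dir univ ω)) (W : Finset (Pt F)) :
    W ∩ free dir univ ω ⊆ W \ unc L := by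
  intro p hp
  obtain ⟨h1, h2⟩ := mem_inter.1 hp
  exact mem_sdiff.2 ⟨h1, fun h3 => disjoint_left.1 h h3 h2⟩

theorem caseB_raw (dir : ι → Dir F) (M : ℕ)
    (hM : ∀ d, (univ.filter (fun i => dir i = d)).card ≤ M) (J : ℕ)
    (hJ : Fintype.card ι ≤ J * (Fintype.card F / 4))
    (γ φ c ε : ℝ) (f k : ℕ) (hγ : 0 < γ) (hφ : 0 < φ) (hc : 0 < c) (hε : 0 < ε)
    (hc1 : c ≤ 1) (a1 : 4 * φ ≤ 1) (a2 : φ ≤ 2 * γ) (a3 : 4 * γ ≤ 1) (a4 : 2 ^ J * 8 * γ < 1)
    (a5 : 8 * ε ≤ φ) (a6 : 64 * ε ≤ γ * φ ^ 2) (a7 : 512 * ε ≤ φ ^ 3) (a8 : 2 ^ J * 32 * ε < φ)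
    (hf : 32 ≤ γ * f) (hk : 0 < k) (hq4 : 4 ≤ Fintype.card F)
    (h1 : 4 * (Fintype.card (Ln F) : ℝ) * Real.exp (-(φ ^ 2 * k / 64)) < 1)
    (s₁ s₂ : ℝ) (hs₁ : 0 ≤ s₁) (hs₂ : 0 ≤ s₂)
    (hs₁D : 8 * s₁ * Real.exp s₁ * M ≤ Fintype.card F) (hs₂D : 8 * s₂ * Real.exp s₂ * M ≤ k)
    (r : ℕ) (hr : (r : ℝ) + k ≤ f / (2 * c)) :
    pr (fun ω : ι → F => ∃ L : Finset (Ln F), L.card = Fintype.card F ∧
        1024 * φ * (unc L).card ≤ γ ^ 2 * Fintype.card F * f ∧
        ((unc L).card : ℝ) ≤ ε * (Fintype.card F : ℝ) ^ 2 ∧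
        (f : ℝ) * Fintype.card F ≤ c * (unc L).card ∧ Disjoint (unc L) (free dir univ ω)) ≤
      (Fintype.card (Ln F) : ℝ) ^ (f + k) *
        (J * Real.exp (-(s₁ * f / (16 * c * 2 ^ J))) + (2 * M : ℝ) ^ r / r.factorial +
          (Fintype.card (Ln F) : ℝ) ^ k *
            (J * Real.exp (-(s₂ * φ * Fintype.card F / (64 * 2 ^ J))))) := by
  classical
  obtain ⟨𝓛, h𝓛, hfam⟩ := famB (F := F) J γ φ c ε f k hγ hφ hc hε hc1 a1 a2 a3 a4 a5 a6 a7 a8
    hf hk hq4 h1
  have hq : (4 : ℝ) ≤ Fintype.card F := by exact_mod_cast hq4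
  set q : ℝ := (Fintype.card F : ℝ) with hqd
  have hq0 : 0 < q := by linarith
  have hk0 : (0 : ℝ) < k := by exact_mod_cast hk
  have hJ' : (univ : Finset ι).card ≤ J * (Fintype.card F / 4) := by rwa [card_univ]
  let E₁ : Finset (Ln F) → (ι → F) → Prop := fun T ω =>
    (f : ℝ) * q / (2 * c) ≤ (unc T).card ∧ 2 ^ J * (unc T ∩ free dir univ ω).card < (unc T).card
  let E₂ : Finset (Ln F) → (ι → F) → Prop := fun T ω =>
    T.card ≤ 2 * Fintype.card F ∧ r ≤ (univ.filter (fun i => (dir i, ω i) ∈ T)).card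
  let E₃ : Finset (Ln F) → Finset (Ln F) → (ι → F) → Prop := fun T S ω =>
    (k : ℝ) * (φ * q / 8) ≤ (priv T S).card ∧ (∀ i ∈ (univ : Finset ι), (dir i, ω i) ∉ S) ∧
      2 ^ J * (priv T S ∩ free dir univ ω).card < (priv T S).card
  refine le_trans (pr_mono (E' := fun ω => ∃ T ∈ 𝓛,
    (E₁ T ω ∨ E₂ T ω) ∨ ∃ S ∈ powersetCard k (univ : Finset (Ln F)), E₃ T S ω) ?_) ?_
  · rintro ω ⟨L, hL, hu1, hu2, hu3, hdisj⟩
    obtain ⟨T, hT, hTc, h | ⟨E, hET, hE, hS⟩⟩ := hfam L hL hu1 hu2 hu3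
    · refine ⟨T, hT, Or.inl (Or.inl ⟨h.1, lt_of_le_of_lt ?_ h.2⟩)⟩
      exact Nat.mul_le_mul_left _ (card_le_card (inter_free_subset hdisj _))
    · refine ⟨T, hT, ?_⟩
      by_cases hcase : k ≤ (E.filter (fun l => ¬ ∃ i, (dir i, ω i) = l)).card
      · right
        obtain ⟨S, hS1, hS2⟩ := exists_subset_card_eq hcase
        have hSne : S.Nonempty := card_pos.1 (by omega)
        obtain ⟨h2, h3⟩ := hS S (hS1.trans (filter_subset _ _)) hSne
        refine ⟨S, mem_powersetCard.2 ⟨subset_univ _, hS2⟩, by rw [← hS2]; exact h2,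
          fun i _ hi => (mem_filter.1 (hS1 hi)).2 ⟨i, rfl⟩, lt_of_le_of_lt ?_ h3⟩
        exact Nat.mul_le_mul_left _ (card_le_card (inter_free_subset hdisj _))
      · left; right
        refine ⟨hTc, ?_⟩
        have h2 : (E.filter (fun l => ∃ i, (dir i, ω i) = l)).card +
            (E.filter (fun l => ¬ ∃ i, (dir i, ω i) = l)).card = E.card := by
          convert card_filter_add_card_filter_not (s := E) (fun l => ∃ i, (dir i, ω i) = l)
        have h3 : (E.filter (fun l => ∃ i, (dir i, ω i) = l)).card ≤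
            (univ.filter (fun i => (dir i, ω i) ∈ T)).card := by
          refine le_trans (card_le_card ?_) (card_image_le (f := fun i => (dir i, ω i)))
          intro l hl
          obtain ⟨h4, i, rfl⟩ := mem_filter.1 hl
          exact mem_image.2 ⟨i, mem_filter.2 ⟨mem_univ _, hET h4⟩, rfl⟩
        have h4 : r + k ≤ E.card := by
          have : (r : ℝ) + k ≤ E.card := hr.trans hE
          exact_mod_cast this
        omega
  refine (pr_exists_mem_le_mul 𝓛 _ _ fun T _ => ?_).trans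
    (mul_le_mul_of_nonneg_right (by exact_mod_cast h𝓛) (by positivity))
  refine (pr_or_le _ _).trans (add_le_add ((pr_or_le _ _).trans (add_le_add ?_ ?_)) ?_)
  · by_cases hW : (f : ℝ) * q / (2 * c) ≤ (unc T).card
    · have h2 := lemmaA dir M hM q s₁ hq0 hs₁ hs₁D ∅ J univ hJ' (unc T)
        (by
          have : (unc T).card ≤ Fintype.card F ^ 2 := by rw [← card_Pt]; exact card_le_univ _
          rw [← hqd, ← sq, hqd]; exact_mod_cast this)
        (fun l _ => by
          have : (unc T ∩ pts l).card ≤ Fintype.card F :=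
            (card_le_card inter_subset_right).trans (card_pts l).le
          rw [hqd]; exact_mod_cast this)
      refine le_trans (pr_mono fun ω h => ⟨fun i _ => notMem_empty _, h.2⟩) (h2.trans ?_)
      refine mul_le_mul_of_nonneg_left (Real.exp_le_exp.2 (neg_le_neg ?_)) (Nat.cast_nonneg _)
      have h3 : s₁ * f / (16 * c * 2 ^ J) = s₁ * (f * q / (2 * c)) / (8 * q * 2 ^ J) := by
        field_simp; ring
      rw [h3]
      exact div_le_div_of_nonneg_right (mul_le_mul_of_nonneg_left hW hs₁) (by positivity)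
    · rw [pr_false (fun ω h => hW h.1)]; positivity
  · by_cases hT : T.card ≤ 2 * Fintype.card F
    · refine le_trans (pr_mono fun ω h => h.2) ((many_in dir M hM T r).trans ?_)
      refine div_le_div_of_nonneg_right (pow_le_pow_left₀ (by positivity) ?_ r) (by positivity)
      rw [div_le_iff₀ hq0]
      have : (T.card : ℝ) ≤ 2 * q := by rw [hqd]; exact_mod_cast hT
      have hM0 : (0 : ℝ) ≤ M := Nat.cast_nonneg _
      nlinarith
    · rw [pr_false (fun ω h => hT h.1)]; positivity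
  · refine (pr_exists_mem_le_mul _ _ _ fun S hS => ?_).trans
      (mul_le_mul_of_nonneg_right ?_ (by positivity))
    · have hSk : S.card = k := (mem_powersetCard.1 hS).2
      by_cases hW : (k : ℝ) * (φ * q / 8) ≤ (priv T S).card
      · have h2 := lemmaA dir M hM k s₂ hk0 hs₂ hs₂D S J univ hJ' (priv T S)
          (by have := card_priv_le T S; rw [hSk] at this; exact_mod_cast this)
          (fun l hl => by
            have := card_priv_inter_le T S l hl
            rw [hSk] at this; exact_mod_cast this)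
        refine le_trans (pr_mono fun ω h => h.2) (h2.trans ?_)
        refine mul_le_mul_of_nonneg_left (Real.exp_le_exp.2 (neg_le_neg ?_)) (Nat.cast_nonneg _)
        have h3 : s₂ * φ * q / (64 * 2 ^ J) = s₂ * (k * (φ * q / 8)) / (8 * k * 2 ^ J) := by
          field_simp; ring
        rw [h3]
        exact div_le_div_of_nonneg_right (mul_le_mul_of_nonneg_left hW hs₂) (by positivity)
      · rw [pr_false (fun ω h => hW h.1)]; positivity
    · rw [card_powersetCard, card_univ]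
      exact_mod_cast Nat.choose_le_pow _ _

omit [Field F] [DecidableEq F] in
theorem card_Ln_le_exp (hq : 2 ≤ Fintype.card F) :
    (Fintype.card (Ln F) : ℝ) ≤ Real.exp (3 * Real.log (Fintype.card F)) := by
  have hq' : (2 : ℝ) ≤ Fintype.card F := by exact_mod_cast hq
  have : Real.exp (3 * Real.log (Fintype.card F)) = (Fintype.card F : ℝ) ^ 3 := by
    rw [show (3 : ℝ) = ((3 : ℕ) : ℝ) by norm_num, Real.exp_nat_mul, Real.exp_log (by linarith)]
  rw [this, card_Ln]
  push_cast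
  nlinarith [sq_nonneg ((Fintype.card F : ℝ))]

theorem pow_div_factorial_le (a b : ℝ) (r : ℕ) (ha : 0 ≤ a) (hr : 0 < r)
    (h : 3 * a ≤ b * r) : a ^ r / r.factorial ≤ b ^ r := by
  have hr0 : (0 : ℝ) < r := by exact_mod_cast hr
  have h1 : (r : ℝ) ^ r / r.factorial ≤ Real.exp r := Real.pow_div_factorial_le_exp _ hr0.le r
  have h2 : Real.exp r ≤ 3 ^ r := by
    rw [show (r : ℝ) = r * 1 by ring, Real.exp_nat_mul]
    exact pow_le_pow_left₀ (Real.exp_pos 1).le (Real.exp_one_lt_d9.le.trans (by norm_num)) r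
  have h3 : a ^ r / r.factorial = (a / r) ^ r * ((r : ℝ) ^ r / r.factorial) := by
    rw [div_pow]; field_simp
  rw [h3]
  calc (a / r) ^ r * ((r : ℝ) ^ r / r.factorial) ≤ (a / r) ^ r * 3 ^ r :=
        mul_le_mul_of_nonneg_left (h1.trans h2) (by positivity)
    _ = (3 * a / r) ^ r := by rw [← mul_pow]; congr 1; ring
    _ ≤ b ^ r := pow_le_pow_left₀ (by positivity) (by rw [div_le_iff₀ hr0]; exact h) r

theorem caseB (dir : ι → Dir F) (M : ℕ)
    (hM : ∀ d, (univ.filter (fun i => dir i = d)).card ≤ M) (J : ℕ)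
    (hJ : Fintype.card ι ≤ J * (Fintype.card F / 4))
    (γ φ c ε : ℝ) (k : ℕ) (hγ : 0 < γ) (hφ : 0 < φ) (hc : c = 1 / (400 * 2 ^ J)) (hε : 0 < ε)
    (a1 : 4 * φ ≤ 1) (a2 : φ ≤ 2 * γ) (a3 : 4 * γ ≤ 1) (a4 : 2 ^ J * 8 * γ < 1)
    (a5 : 16 * ε ≤ φ) (a6 : 64 * ε ≤ γ * φ ^ 2) (a7 : 512 * ε ≤ φ ^ 3) (a8 : 2 ^ J * 32 * ε < φ)
    (a9 : 2048 * φ ≤ c * γ ^ 2)
    (y : ℝ) (hy : y ^ 12 = Fintype.card F) (hy2 : 2 ≤ y) (hyM : 48 * (M : ℝ) ≤ y)
    (hky : y ^ 4 ≤ k) (hkγ : 32 ≤ γ * k)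
    (h1 : 4 * (Fintype.card (Ln F) : ℝ) * Real.exp (-(φ ^ 2 * k / 64)) < 1)
    (u₀ : ℝ) (hu₀ : γ ^ 2 * Fintype.card F * k ≤ 1024 * φ * u₀)
    (hu₁ : 2 * (Fintype.card F : ℝ) ≤ c * u₀) :
    pr (fun ω : ι → F => ∃ L : Finset (Ln F), L.card = Fintype.card F ∧ u₀ ≤ (unc L).card ∧
        ((unc L).card : ℝ) ≤ ε * (Fintype.card F : ℝ) ^ 2 ∧ Disjoint (unc L) (free dir univ ω)) ≤
      (Fintype.card F + 1) * ((2 * J + 1) / (Fintype.card F : ℝ) ^ 6) := by
  classical
  set q : ℝ := (Fintype.card F : ℝ) with hqd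
  have hy0 : 0 < y := by linarith
  have hy1 : 1 ≤ y := by linarith
  have hq4 : (4 : ℝ) ≤ q := by
    rw [← hy]
    calc (4 : ℝ) ≤ 2 ^ 12 := by norm_num
      _ ≤ y ^ 12 := pow_le_pow_left₀ (by norm_num) hy2 12
  have hq0 : 0 < q := by linarith
  have hq4' : 4 ≤ Fintype.card F := by rw [hqd] at hq4; exact_mod_cast hq4
  have h2J : (1 : ℝ) ≤ 2 ^ J := one_le_pow₀ (by norm_num)
  have hc0 : 0 < c := by rw [hc]; positivity
  have hc1 : c ≤ 1 := by rw [hc, div_le_one (by positivity)]; linarith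
  have hk0 : (0 : ℝ) < k := lt_of_lt_of_le (by positivity) hky
  have hk : 0 < k := by exact_mod_cast hk0
  set x := Real.log q with hx
  have hxy : x = 12 * Real.log y := by rw [hx, ← hy, Real.log_pow]; norm_num
  have hly0 : 0 ≤ Real.log y := Real.log_nonneg hy1
  have hly : Real.log y ≤ y := (Real.log_le_sub_one_of_pos hy0).trans (by linarith)
  have hx0 : 0 ≤ x := by rw [hxy]; positivity
  have hexp : ∀ n : ℕ, Real.exp (n * Real.log y) = y ^ n := fun n => by
    rw [Real.exp_nat_mul, Real.exp_log hy0]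
  have hM0 : (0 : ℝ) ≤ M := Nat.cast_nonneg _
  have hLn : (Fintype.card (Ln F) : ℝ) ≤ Real.exp (3 * x) := card_Ln_le_exp (by omega)
  have hq6 : Real.exp (-(6 * x)) = 1 / q ^ 6 := by
    rw [Real.exp_neg, show (6 : ℝ) * x = ((6 : ℕ) : ℝ) * x by norm_num, Real.exp_nat_mul, hx,
      Real.exp_log hq0, one_div]
  let fs := (range (Fintype.card F + 1)).filter (fun f => k ≤ f ∧ (f : ℝ) ≤ c * ε * q)
  refine le_trans (pr_mono (E' := fun ω => ∃ f ∈ fs, ∃ L : Finset (Ln F),
    L.card = Fintype.card F ∧ 1024 * φ * (unc L).card ≤ γ ^ 2 * q * f ∧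
      ((unc L).card : ℝ) ≤ ε * q ^ 2 ∧ (f : ℝ) * q ≤ c * (unc L).card ∧
        Disjoint (unc L) (free dir univ ω)) ?_) ?_
  · rintro ω ⟨L, hL, hu1, hu2, hdisj⟩
    set u : ℝ := ((unc L).card : ℝ) with hud
    have hγq : 0 < γ ^ 2 * q := by positivity
    have hv0 : 0 ≤ 1024 * φ * u / (γ ^ 2 * q) := by positivity
    have hf1 : 1024 * φ * u / (γ ^ 2 * q) ≤ ⌈1024 * φ * u / (γ ^ 2 * q)⌉₊ := Nat.le_ceil _
    have hf2 : (⌈1024 * φ * u / (γ ^ 2 * q)⌉₊ : ℝ) < 1024 * φ * u / (γ ^ 2 * q) + 1 :=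
      Nat.ceil_lt_add_one hv0
    set f := ⌈1024 * φ * u / (γ ^ 2 * q)⌉₊ with hfd
    have hf3 : (f : ℝ) * q ≤ c * u := by
      have h2 : 1024 * φ * u / (γ ^ 2 * q) * q ≤ c * u / 2 := by
        have : 1024 * φ * u / (γ ^ 2 * q) * q = 1024 * φ * u / γ ^ 2 := by field_simp
        rw [this, div_le_iff₀ (by positivity)]
        have hu0 : 0 ≤ u := Nat.cast_nonneg _
        nlinarith
      have h3 : c * u₀ ≤ c * u := mul_le_mul_of_nonneg_left hu1 hc0.le
      nlinarith
    have hf4 : (f : ℝ) ≤ c * ε * q := by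
      have : (f : ℝ) * q ≤ c * ε * q * q := by nlinarith
      exact le_of_mul_le_mul_right this hq0
    have hf5 : (k : ℝ) ≤ f := by
      refine le_trans ?_ hf1
      rw [le_div_iff₀ hγq]
      nlinarith
    refine ⟨f, mem_filter.2 ⟨mem_range.2 ?_, by exact_mod_cast hf5, hf4⟩, L, hL, ?_, hu2, hf3,
      hdisj⟩
    · have : (f : ℝ) ≤ q := by
        have : c * ε ≤ 1 := by nlinarith
        nlinarith
      rw [hqd] at this
      exact Nat.lt_succ_of_le (by exact_mod_cast this)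
    · rw [div_le_iff₀ hγq] at hf1; linarith
  refine (pr_exists_mem_le_mul fs _ ((2 * J + 1) / q ^ 6) fun f hf => ?_).trans
    (mul_le_mul_of_nonneg_right ?_ (by positivity))
  swap
  · have : fs.card ≤ Fintype.card F + 1 := (card_filter_le _ _).trans (card_range _).le
    rw [hqd]; exact_mod_cast this
  obtain ⟨-, hkf, hfq⟩ := mem_filter.1 hf
  have hkf' : (k : ℝ) ≤ f := by exact_mod_cast hkf
  have hf1 : (1 : ℝ) ≤ f := by exact_mod_cast (show 1 ≤ f by omega)
  have hraw := caseB_raw dir M hM J hJ γ φ c ε f k hγ hφ hc0 hε hc1 a1 a2 a3 a4 (by linarith) a6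
    a7 a8 (hkγ.trans (mul_le_mul_of_nonneg_left hkf' hγ.le)) hk hq4' h1
    (6 * Real.log y) (2 * Real.log y) (by positivity) (by positivity)
    (by
      have := hexp 6
      push_cast at this
      rw [this, ← hqd, ← hy]
      have h2 : 8 * (6 * Real.log y) * M ≤ y ^ 6 := by
        have h3 : y * y ≤ y ^ 6 := by
          rw [← sq]; exact pow_le_pow_right₀ hy1 (by norm_num)
        nlinarith
      have : y ^ 12 = y ^ 6 * y ^ 6 := by ring
      nlinarith [pow_pos hy0 6])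
    (by
      have := hexp 2
      push_cast at this
      rw [this]
      have h2 : 8 * (2 * Real.log y) * M ≤ y ^ 2 := by nlinarith
      have : y ^ 4 = y ^ 2 * y ^ 2 := by ring
      nlinarith [pow_pos hy0 2])
    (100 * 2 ^ J * f)
    (by
      rw [hc]
      have : (f : ℝ) / (2 * (1 / (400 * 2 ^ J))) = 200 * 2 ^ J * f := by field_simp; ring
      rw [this]
      push_cast
      nlinarith)
  refine hraw.trans ?_
  rw [← hqd]
  have hN : (Fintype.card (Ln F) : ℝ) ^ (f + k) ≤ Real.exp (6 * x * f) := by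
    calc (Fintype.card (Ln F) : ℝ) ^ (f + k) ≤ Real.exp (3 * x) ^ (f + k) :=
          pow_le_pow_left₀ (Nat.cast_nonneg _) hLn _
      _ = Real.exp ((f + k : ℕ) * (3 * x)) := (Real.exp_nat_mul _ _).symm
      _ ≤ _ := Real.exp_le_exp.2 (by push_cast; nlinarith)
  have hN' : (Fintype.card (Ln F) : ℝ) ^ k ≤ Real.exp (3 * x * f) := by
    calc (Fintype.card (Ln F) : ℝ) ^ k ≤ Real.exp (3 * x) ^ k :=
          pow_le_pow_left₀ (Nat.cast_nonneg _) hLn _
      _ = Real.exp (k * (3 * x)) := (Real.exp_nat_mul _ _).symm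
      _ ≤ _ := Real.exp_le_exp.2 (by nlinarith)
  have hxf : x ≤ x * f := by nlinarith
  have t1 : Real.exp (-(6 * Real.log y * f / (16 * c * 2 ^ J))) ≤ Real.exp (-(12 * x * f)) := by
    refine Real.exp_le_exp.2 (neg_le_neg ?_)
    have : 6 * Real.log y * f / (16 * c * 2 ^ J) = 25 / 2 * x * f := by
      rw [hc, hxy]; field_simp; ring
    rw [this]; nlinarith
  have t2 : (2 * M : ℝ) ^ (100 * 2 ^ J * f) / (100 * 2 ^ J * f).factorial ≤
      Real.exp (-(12 * x * f)) := by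
    have h2 := pow_div_factorial_le (2 * M) (Real.exp (-(3 * Real.log y))) (100 * 2 ^ J * f)
      (by positivity) (Nat.mul_pos (by positivity) (by omega)) (by
        have := hexp 3
        push_cast at this ⊢
        rw [Real.exp_neg, this, inv_mul_eq_div, le_div_iff₀ (by positivity)]
        have h3 : y ^ 4 = y * y ^ 3 := by ring
        have h4 : (f : ℝ) ≤ 100 * 2 ^ J * f := by nlinarith
        nlinarith [pow_pos hy0 3])
    refine h2.trans ?_
    rw [← Real.exp_nat_mul]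
    refine Real.exp_le_exp.2 ?_
    push_cast
    rw [hxy]
    have : Real.log y * f ≤ 2 ^ J * (Real.log y * f) := by
      have : 0 ≤ Real.log y * f := by positivity
      nlinarith
    nlinarith
  have t3 : Real.exp (-(2 * Real.log y * φ * q / (64 * 2 ^ J))) ≤ Real.exp (-(15 * x * f)) := by
    refine Real.exp_le_exp.2 (neg_le_neg ?_)
    rw [le_div_iff₀ (by positivity), hxy]
    have h2 : (f : ℝ) * (400 * 2 ^ J) ≤ ε * q := by
      rw [hc] at hfq
      have : 1 / (400 * 2 ^ J) * ε * q = ε * q / (400 * 2 ^ J) := by ring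
      rwa [this, le_div_iff₀ (by positivity)] at hfq
    have h3 : 16 * (ε * q) ≤ φ * q := by nlinarith
    have h4 : 5760 * ((f : ℝ) * 2 ^ J) ≤ φ * q := by nlinarith
    nlinarith
  have hJ0 : (0 : ℝ) ≤ J := Nat.cast_nonneg _
  have e1 : Real.exp (6 * x * f) * Real.exp (-(12 * x * f)) ≤ Real.exp (-(6 * x)) := by
    rw [← Real.exp_add]; exact Real.exp_le_exp.2 (by nlinarith)
  have e2 : Real.exp (3 * x * f) * Real.exp (-(15 * x * f)) = Real.exp (-(12 * x * f)) := by
    rw [← Real.exp_add]; congr 1; ring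
  have t4 : (Fintype.card (Ln F) : ℝ) ^ k *
      (J * Real.exp (-(2 * Real.log y * φ * q / (64 * 2 ^ J)))) ≤ J * Real.exp (-(12 * x * f)) := by
    calc _ ≤ Real.exp (3 * x * f) * (J * Real.exp (-(15 * x * f))) :=
          mul_le_mul hN' (mul_le_mul_of_nonneg_left t3 hJ0) (by positivity) (by positivity)
      _ = J * Real.exp (-(12 * x * f)) := by rw [← e2]; ring
  calc _ ≤ Real.exp (6 * x * f) * ((2 * J + 1) * Real.exp (-(12 * x * f))) := by
        refine mul_le_mul hN ?_ (by positivity) (by positivity)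
        have := mul_le_mul_of_nonneg_left t1 hJ0
        linarith
    _ = (2 * J + 1) * (Real.exp (6 * x * f) * Real.exp (-(12 * x * f))) := by ring
    _ ≤ (2 * J + 1) * Real.exp (-(6 * x)) := mul_le_mul_of_nonneg_left e1 (by positivity)
    _ = _ := by rw [hq6]; ring

end Crest.Agent.R34
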