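import Crest.Agent.R34.Conc

/-! Many centres on every primary line, few on every pool line. -/

set_option autoImplicit false

namespace Crest.Agent.R34

open Finset

namespace Centre

theorem pr_exists_disj {Ω β : Type} [Fintype Ω] [Fintype β] (E : β → Ω → Prop)
    (h : ∀ ω b b', E b ω → E b' ω → b = b') : ∑ b, pr (E b) ≤ pr (fun ω => ∃ b, E b ω) := by
  classical
  simp only [pr_eq_ex]
  rw [← ex_sum]
  refine ex_mono fun ω => ?_
  split_ifs with h1
  · obtain ⟨b, hb⟩ := h1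
    rw [sum_eq_single b]
    · simp [hb]
    · intro b' _ hb'
      rw [if_neg fun hh => hb' (h ω _ _ hh hb)]
    · simp
  · exact (sum_eq_zero fun b _ => if_neg fun hh => h1 ⟨b, hh⟩).le

open Classical in
/-- the number of members of `s` with a random property -/
noncomputable def cnt {Ω β : Type} (s : Finset β) (E : Ω → β → Prop) (ω : Ω) : ℝ :=
  ((s.filter (E ω)).card : ℝ)

theorem ex_cnt {Ω β : Type} [Fintype Ω] (s : Finset β) (E : Ω → β → Prop) :
    ex (cnt s E) = ∑ b ∈ s, pr (fun ω => E ω b) := by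
  classical
  simp only [pr_eq_ex]
  rw [← ex_sum]
  congr 1
  ext ω
  simp [cnt]

theorem cnt_le {Ω β : Type} {s t : Finset β} {E : Ω → β → Prop} {ω : Ω}
    (h : ∀ x ∈ s, E ω x → x ∈ t) : cnt s E ω ≤ t.card := by
  classical
  exact Nat.cast_le.2 (card_le_card fun x hx => h x (mem_filter.1 hx).1 (mem_filter.1 hx).2)

theorem le_cnt {Ω β : Type} {s t : Finset β} {E : Ω → β → Prop} {ω : Ω}
    (h : ∀ x ∈ t, x ∈ s ∧ E ω x) : t.card ≤ cnt s E ω := by
  classical
  exact Nat.cast_le.2 (card_le_card fun x hx => mem_filter.2 (h x hx))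

variable {F : Type} [Field F] [Fintype F] [DecidableEq F]

theorem pr_pattern (x : Pt F) (A S : Finset (Idx F)) (hS : S ⊆ A) :
    pr (fun ω : Idx F → F => ∀ j ∈ A, (lin j.1 x = ω j ↔ j ∈ S)) =
      (1 / (Fintype.card F : ℝ)) ^ S.card * (1 - 1 / (Fintype.card F : ℝ)) ^ (A.card - S.card) := by
  have hq : (0 : ℝ) < Fintype.card F := by exact_mod_cast Fintype.card_pos
  rw [pr_congr (E' := fun ω : Idx F → F => ∀ j ∈ A,
    ω j ∈ (if j ∈ S then {lin j.1 x} else {lin j.1 x}ᶜ : Finset F)), pr_forall_mem]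
  · rw [prod_congr rfl (g := fun j => if j ∈ S then 1 / (Fintype.card F : ℝ)
      else 1 - 1 / (Fintype.card F : ℝ)), prod_ite, prod_const, prod_const, filter_mem_eq_inter,
      inter_eq_right.2 hS, ← sdiff_eq_filter, card_sdiff_of_subset hS]
    intro j _
    split_ifs
    · simp
    · rw [card_compl, card_singleton, Nat.cast_sub Fintype.card_pos]
      field_simp
      simp
  · intro ω
    refine forall₂_congr fun j _ => ?_
    split_ifs with h <;> simp [h, eq_comm]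

open Classical in
theorem card_le_add_two (l : Ln F) (Φ : (Idx F → F) → Pt F → Prop)
    (hΦ : ∀ ω ω' x, (∀ j : Idx F, j.1 ≠ l.1 → (lin j.1 x = ω j ↔ lin j.1 x = ω' j)) →
      Φ ω x → Φ ω' x) (ω ω' : Idx F → F) (i : Idx F) (h : ∀ j, j ≠ i → ω j = ω' j) :
    ((pts l).filter (Φ ω)).card ≤ ((pts l).filter (Φ ω')).card + 2 := by
  by_cases hi : i.1 = l.1
  · refine (card_le_card fun x hx => ?_).trans (Nat.le_add_right _ _)
    rw [mem_filter] at hx ⊢
    refine ⟨hx.1, hΦ ω ω' x (fun j hj => ?_) hx.2⟩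
    rw [h j fun hh => hj (hh ▸ hi)]
  · have h1 : (pts l).filter (Φ ω) ⊆ (pts l).filter (Φ ω') ∪
        (pts l ∩ pts (i.1, ω i) ∪ pts l ∩ pts (i.1, ω' i)) := by
      intro x hx
      rw [mem_filter] at hx
      by_contra hc
      simp only [mem_union, mem_filter, mem_inter, hx.1, true_and, not_or, mem_pts, on_mk] at hc
      refine hc.1 (hΦ ω ω' x (fun j _ => ?_) hx.2)
      by_cases hj : j = i
      · subst hj
        exact iff_of_false hc.2.1 hc.2.2
      · rw [h j hj]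
    have h2 := card_inter_pts_le_one (l := l) (l' := (i.1, ω i)) fun hh => hi (by rw [hh])
    have h3 := card_inter_pts_le_one (l := l) (l' := (i.1, ω' i)) fun hh => hi (by rw [hh])
    have h4 := (card_le_card h1).trans ((card_union_le _ _).trans
      (Nat.add_le_add_left (card_union_le _ _) _))
    omega

open Classical in
theorem conc (l : Ln F) (Φ : (Idx F → F) → Pt F → Prop)
    (hΦ : ∀ ω ω' x, (∀ j : Idx F, j.1 ≠ l.1 → (lin j.1 x = ω j ↔ lin j.1 x = ω' j)) →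
      Φ ω x → Φ ω' x) (s : ℝ) (hs : 0 ≤ s) :
    pr (fun ω : Idx F → F => s ≤ |cnt (pts l) Φ ω - ex (cnt (pts l) Φ)|) ≤
      2 * Real.exp (-(s ^ 2 / (4 * (20002 * Fintype.card F) * 2 ^ 2))) := by
  have hq : (1 : ℝ) ≤ Fintype.card F := by exact_mod_cast Fintype.card_pos
  refine mcdiarmid _ 2 s _ (by norm_num) hs (by positivity) ?_ fun ω i a => ?_
  · simp only [Fintype.card_prod, Fintype.card_option, Fintype.card_fin]
    push_cast
    linarith
  · have h1 := card_le_add_two l Φ hΦ ω (Function.update ω i a) i fun j hj => by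
      rw [Function.update_of_ne hj]
    have h2 := card_le_add_two l Φ hΦ (Function.update ω i a) ω i fun j hj => by
      rw [Function.update_of_ne hj]
    have h3 : (((pts l).filter (Φ ω)).card : ℝ) ≤
      ((pts l).filter (Φ (Function.update ω i a))).card + 2 := by exact_mod_cast h1
    have h4 : (((pts l).filter (Φ (Function.update ω i a))).card : ℝ) ≤
      ((pts l).filter (Φ ω)).card + 2 := by exact_mod_cast h2
    unfold cnt
    rw [abs_le]
    constructor <;> linarith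

/-- the pattern of a centre, seen from the primary direction -/
def EvX (d : Dir F) (x : Pt F) (b : (Fin 10 ↪ {d' : Dir F // d' ≠ d}) × (Fin 10 → Fin 1000))
    (ω : Idx F → F) : Prop :=
  ∀ j ∈ ({d}ᶜ : Finset (Dir F)) ×ˢ (univ : Finset Lab), (lin j.1 x = ω j ↔
    j ∈ (univ.image fun c => (((b.1 c).1, some (c, b.2 c)) : Idx F)))

/-- the pattern of a centre, seen from a pool direction -/
def EvY (e : Dir F) (c0 : Fin 10) (x : Pt F) (b : Dir F × (Fin 9 → Dir F) × (Fin 9 → Fin 1000))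
    (ω : Idx F → F) : Prop :=
  b.1 ≠ e ∧ (∀ c, b.2.1 c ≠ b.1 ∧ b.2.1 c ≠ e) ∧
    ∀ j ∈ insert ((b.1, none) : Idx F) (({b.1, e}ᶜ : Finset (Dir F)) ×ˢ (univ : Finset Lab)),
      (lin j.1 x = ω j ↔ j ∈ insert ((b.1, none) : Idx F)
        (univ.image fun c => ((b.2.1 c, some (c0.succAbove c, b.2.2 c)) : Idx F)))

theorem card_Lab : (univ : Finset Lab).card = 10001 := by
  simp only [card_univ, Fintype.card_prod, Fintype.card_option, Fintype.card_fin]

theorem pr_EvX (d : Dir F) (x : Pt F)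
    (b : (Fin 10 ↪ {d' : Dir F // d' ≠ d}) × (Fin 10 → Fin 1000)) :
    pr (EvX d x b) = (1 / (Fintype.card F : ℝ)) ^ 10 *
      (1 - 1 / (Fintype.card F : ℝ)) ^ (Fintype.card F * 10001 - 10) := by
  unfold EvX
  rw [pr_pattern, card_image_of_injective, card_product, card_Lab, card_compl, card_Dir]
  · simp
  · intro c c' h
    simpa using congrArg (fun j : Idx F => j.2.map Prod.fst) h
  · intro j hj
    obtain ⟨c, _, rfl⟩ := mem_image.1 hj
    simpa using (b.1 c).2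

theorem pr_EvY (e : Dir F) (c0 : Fin 10) (x : Pt F)
    (b : Dir F × (Fin 9 → Dir F) × (Fin 9 → Fin 1000)) :
    pr (EvY e c0 x b) ≤ (1 / (Fintype.card F : ℝ)) ^ 10 *
      (1 - 1 / (Fintype.card F : ℝ)) ^ ((Fintype.card F - 1) * 10001 - 9) := by
  have hq : (1 : ℝ) ≤ Fintype.card F := by exact_mod_cast Fintype.card_pos
  have hp : 0 ≤ 1 - 1 / (Fintype.card F : ℝ) := sub_nonneg.2 ((div_le_one (by linarith)).2 hq)
  by_cases h : b.1 ≠ e ∧ ∀ c, b.2.1 c ≠ b.1 ∧ b.2.1 c ≠ e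
  · refine (pr_mono fun ω hω => hω.2.2).trans (le_of_eq ?_)
    rw [pr_pattern, card_insert_of_notMem, card_insert_of_notMem, card_image_of_injective,
      card_product, card_Lab, card_compl, card_Dir, card_pair h.1]
    · simp only [card_univ, Fintype.card_fin]
      rw [show (Fintype.card F + 1 - 2) * 10001 + 1 - (9 + 1) = (Fintype.card F - 1) * 10001 - 9 by
        omega]
    · intro c c' h
      simpa using congrArg (fun j : Idx F => j.2.map Prod.fst) h
    · simp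
    · simp
    · refine insert_subset_insert _ fun j hj => ?_
      obtain ⟨c, _, rfl⟩ := mem_image.1 hj
      simpa using h.2 c
  · rw [pr_false fun ω hω => h ⟨hω.1, hω.2.1⟩]
    positivity

theorem EvX_unique {d : Dir F} {x : Pt F} (ω : Idx F → F)
    (b b' : (Fin 10 ↪ {d' : Dir F // d' ≠ d}) × (Fin 10 → Fin 1000)) (h : EvX d x b ω)
    (h' : EvX d x b' ω) : b = b' := by
  have key : ∀ c, (b.1 c).1 = (b'.1 c).1 ∧ b.2 c = b'.2 c := by
    intro c
    have hm : (((b.1 c).1, some (c, b.2 c)) : Idx F) ∈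
        ({d}ᶜ : Finset (Dir F)) ×ˢ (univ : Finset Lab) := by simpa using (b.1 c).2
    obtain ⟨c', _, hc'⟩ := mem_image.1 ((h' _ hm).1 ((h _ hm).2 (mem_image_of_mem _ (mem_univ c))))
    simp only [Prod.mk.injEq, Option.some.injEq] at hc'
    obtain ⟨h1, rfl, h2⟩ := hc'
    exact ⟨h1.symm, h2.symm⟩
  refine Prod.ext ?_ (funext fun c => (key c).2)
  ext c
  rw [(key c).1]

theorem ex_X (l : Ln F) : (Fintype.card F : ℝ) * (((Fintype.card F).descFactorial 10 * 1000 ^ 10) *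
      ((1 / (Fintype.card F : ℝ)) ^ 10 *
      (1 - 1 / (Fintype.card F : ℝ)) ^ (Fintype.card F * 10001 - 10))) ≤
    ex (cnt (pts l) fun (ω : Idx F → F) x => ∃ b, EvX l.1 x b ω) := by
  rw [ex_cnt, ← card_pts l, ← nsmul_eq_mul]
  refine card_nsmul_le_sum _ _ _ fun x _ => le_trans (le_of_eq ?_)
    (pr_exists_disj (EvX l.1 x) EvX_unique)
  simp only [pr_EvX, sum_const, card_univ, nsmul_eq_mul, Fintype.card_prod,
    Fintype.card_embedding_eq, Fintype.card_fin, Fintype.card_pi, prod_const, card_pts,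
    Fintype.card_subtype_compl, Fintype.card_subtype_eq, card_Dir, Nat.add_sub_cancel]
  push_cast
  ring

theorem ex_Y (l : Ln F) (c0 : Fin 10) :
    ex (cnt (pts l) fun (ω : Idx F → F) x => ∃ b, EvY l.1 c0 x b ω) ≤
      (Fintype.card F : ℝ) * (((Fintype.card F + 1) ^ 10 * 1000 ^ 9) *
      ((1 / (Fintype.card F : ℝ)) ^ 10 *
      (1 - 1 / (Fintype.card F : ℝ)) ^ ((Fintype.card F - 1) * 10001 - 9))) := by
  rw [ex_cnt]
  refine (sum_le_card_nsmul _ _ _ fun x _ =>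
    pr_exists_le_mul (EvY l.1 c0 x) _ (pr_EvY l.1 c0 x)).trans (le_of_eq ?_)
  simp only [card_univ, nsmul_eq_mul, Fintype.card_prod, Fintype.card_fin, Fintype.card_pi,
    prod_const, card_pts, card_Dir]
  push_cast
  ring

theorem EvX_dep (l : Ln F) (ω ω' : Idx F → F) (x : Pt F)
    (h : ∀ j : Idx F, j.1 ≠ l.1 → (lin j.1 x = ω j ↔ lin j.1 x = ω' j)) :
    (∃ b, EvX l.1 x b ω) → ∃ b, EvX l.1 x b ω' := by
  rintro ⟨b, hb⟩
  exact ⟨b, fun j hj => (h j (by simpa using hj)).symm.trans (hb j hj)⟩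

theorem EvY_dep (l : Ln F) (c0 : Fin 10) (ω ω' : Idx F → F) (x : Pt F)
    (h : ∀ j : Idx F, j.1 ≠ l.1 → (lin j.1 x = ω j ↔ lin j.1 x = ω' j)) :
    (∃ b, EvY l.1 c0 x b ω) → ∃ b, EvY l.1 c0 x b ω' := by
  rintro ⟨b, h1, h2, hb⟩
  refine ⟨b, h1, h2, fun j hj => (h j ?_).symm.trans (hb j hj)⟩
  rcases mem_insert.1 hj with rfl | hj
  · exact h1
  · simp only [mem_product, mem_compl, mem_insert, mem_singleton, not_or] at hj
    exact hj.1.2

theorem centre_of_EvX {ω : Idx F → F} {d : Dir F} {x : Pt F} (hx : On x (rl ω (d, none)))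
    (h : ∃ b, EvX d x b ω) : IsCentre ω d x := by
  obtain ⟨b, hb⟩ := h
  refine ⟨hx, fun c => (b.1 c).1, b.2, fun c c' hh => b.1.injective (Subtype.ext hh),
    fun c => (b.1 c).2, fun i hi => (hb i (by simpa using hi)).trans ?_⟩
  simp [eq_comm]

theorem EvY_of_centre {ω : Idx F → F} {d e0 : Dir F} {c0 : Fin 10} {m0 : Fin 1000} {x : Pt F}
    (hx : On x (rl ω (e0, some (c0, m0)))) (hd : d ≠ e0) (h : IsCentre ω d x) :
    ∃ b, EvY e0 c0 x b ω := by
  obtain ⟨h0, e, m, he, hed, h⟩ := h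
  obtain ⟨c1, hc1⟩ := (h (e0, some (c0, m0)) hd.symm).1 hx
  simp only [Prod.mk.injEq, Option.some.injEq] at hc1
  obtain ⟨rfl, rfl, -⟩ := hc1
  refine ⟨(d, fun c => e (c0.succAbove c), fun c => m (c0.succAbove c)), hd,
    fun c => ⟨hed _, fun hh => Fin.succAbove_ne _ _ (he hh)⟩, fun j hj => ?_⟩
  rcases mem_insert.1 hj with rfl | hj
  · exact iff_of_true h0 (mem_insert_self _ _)
  · simp only [mem_product, mem_compl, mem_insert, mem_singleton, not_or] at hj
    refine (h j hj.1.1).trans ⟨?_, fun hh => ?_⟩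
    · rintro ⟨c, rfl⟩
      obtain ⟨c', rfl⟩ := Fin.exists_succAbove_eq (x := c) (y := c0) fun hh => hj.1.2 (by rw [hh])
      exact mem_insert_of_mem (mem_image_of_mem _ (mem_univ c'))
    · rcases mem_insert.1 hh with rfl | hh
      · exact absurd rfl hj.1.1
      · obtain ⟨c, _, rfl⟩ := mem_image.1 hh
        exact ⟨_, rfl⟩

theorem num_X (q : ℕ) (hq : 100000 ≤ q) :
    500 * (q * 1000 ^ 9 * (1 - 1 / (q : ℝ)) ^ ((q - 1) * 10001 - 9)) ≤
      (q : ℝ) * ((q.descFactorial 10 * 1000 ^ 10) *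
        ((1 / (q : ℝ)) ^ 10 * (1 - 1 / (q : ℝ)) ^ (q * 10001 - 10))) := by
  have hq' : (100000 : ℝ) ≤ q := by exact_mod_cast hq
  have hp : 1 / (q : ℝ) ≤ 1 / 100000 := one_div_le_one_div_of_le (by norm_num) hq'
  have hp0 : 0 < 1 / (q : ℝ) := by positivity
  have h1 : ((q : ℝ) - 9) ^ 10 ≤ q.descFactorial 10 := by
    have h := Nat.pow_sub_le_descFactorial q 10
    rw [show q + 1 - 10 = q - 9 by omega] at h
    have h' : (((q - 9 : ℕ) : ℝ)) ^ 10 ≤ q.descFactorial 10 := by exact_mod_cast h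
    rwa [Nat.cast_sub (by omega)] at h'
  have h2 : 9 / 10 ≤ ((q : ℝ) - 9) ^ 10 * (1 / (q : ℝ)) ^ 10 := by
    rw [← mul_pow, show ((q : ℝ) - 9) * (1 / q) = 1 + -9 * (1 / q) by field_simp; ring]
    refine le_trans ?_ (one_add_mul_le_pow (by linarith) 10)
    push_cast
    linarith
  rw [show q * 10001 - 10 = (q - 1) * 10001 - 9 + 10000 by omega, pow_add _ _ 10000]
  have h4 : 0 ≤ (1 - 1 / (q : ℝ)) ^ ((q - 1) * 10001 - 9) := pow_nonneg (by linarith) _
  have h5 : 9 / 10 ≤ (q.descFactorial 10 : ℝ) * (1 / (q : ℝ)) ^ 10 :=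
    h2.trans (mul_le_mul_of_nonneg_right h1 (by positivity))
  have h3 : 9 / 10 ≤ (1 - 1 / (q : ℝ)) ^ 10000 := by
    rw [sub_eq_add_neg]
    refine le_trans ?_ (one_add_mul_le_pow (by linarith) 10000)
    push_cast
    linarith
  generalize (1 - 1 / (q : ℝ)) ^ 10000 = u at h3 ⊢
  generalize (1 - 1 / (q : ℝ)) ^ ((q - 1) * 10001 - 9) = t at h4 ⊢
  have h6 : 1 / 2 ≤ (q.descFactorial 10 : ℝ) * (1 / (q : ℝ)) ^ 10 * u := by nlinarith
  have h7 := mul_le_mul_of_nonneg_left h6 (show 0 ≤ (q : ℝ) * 1000 ^ 10 * t by positivity)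
  calc _ = (q : ℝ) * 1000 ^ 10 * t * (1 / 2) := by ring
    _ ≤ _ := h7
    _ = _ := by ring

theorem num_Y (q : ℕ) (hq : 100000 ≤ q) (t : ℝ) (ht : 0 ≤ t) :
    (q : ℝ) * ((((q : ℝ) + 1) ^ 10 * 1000 ^ 9) * ((1 / (q : ℝ)) ^ 10 * t)) ≤
      2 * (q * 1000 ^ 9 * t) := by
  have hq' : (100000 : ℝ) ≤ q := by exact_mod_cast hq
  have hp : 1 / (q : ℝ) ≤ 1 / 100000 := one_div_le_one_div_of_le (by norm_num) hq'
  have h1 : ((q : ℝ) + 1) ^ 10 * (1 / (q : ℝ)) ^ 10 ≤ 2 := by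
    rw [← mul_pow, show ((q : ℝ) + 1) * (1 / q) = 1 + 1 / q by field_simp]
    exact (pow_le_pow_left₀ (by positivity) (show 1 + 1 / (q : ℝ) ≤ 1 + 1 / 100000 by linarith) 10).trans
      (by norm_num)
  have h2 := mul_le_mul_of_nonneg_left h1 (show 0 ≤ (q : ℝ) * 1000 ^ 9 * t by positivity)
  calc _ = (q : ℝ) * 1000 ^ 9 * t * (((q : ℝ) + 1) ^ 10 * (1 / (q : ℝ)) ^ 10) := by ring
    _ ≤ _ := h2
    _ = _ := by ring

theorem num_tau (q : ℕ) (hq : 2 ≤ q) :
    Real.exp (-20002) ≤ (1 - 1 / (q : ℝ)) ^ ((q - 1) * 10001 - 9) := by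
  have hq' : (2 : ℝ) ≤ q := by exact_mod_cast hq
  have hp : 1 / (q : ℝ) ≤ 1 / 2 := one_div_le_one_div_of_le (by norm_num) hq'
  have hp0 : 0 < 1 / (q : ℝ) := by positivity
  have h1 : Real.exp (-(2 * (1 / (q : ℝ)))) ≤ 1 - 1 / (q : ℝ) := by
    have h := Real.add_one_le_exp (2 * (1 / (q : ℝ)))
    rw [Real.exp_neg, inv_le_iff_one_le_mul₀ (Real.exp_pos _)]
    nlinarith
  refine le_trans ?_ (pow_le_pow_left₀ (Real.exp_pos _).le h1 _)
  rw [← Real.exp_nat_mul, Real.exp_le_exp]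
  have h2 : (((q - 1) * 10001 - 9 : ℕ) : ℝ) ≤ q * 10001 := by
    exact_mod_cast (by omega : (q - 1) * 10001 - 9 ≤ q * 10001)
  have h3 := mul_le_mul_of_nonneg_right h2 hp0.le
  have h4 : (q : ℝ) * 10001 * (1 / q) = 10001 := by field_simp
  linarith

theorem num_tail (c : ℝ) (hc : 0 < c) :
    ∃ q₀ : ℕ, ∀ q : ℕ, q₀ ≤ q → 44 * (q : ℝ) ^ 2 * Real.exp (-(c * q)) ≤ 1 / 10 := by
  have h := (Real.tendsto_pow_mul_exp_neg_atTop_nhds_zero 2).comp
    (tendsto_natCast_atTop_atTop.const_mul_atTop hc)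
  obtain ⟨q₀, hq₀⟩ := Filter.eventually_atTop.1
    (h.eventually (gt_mem_nhds (show (0 : ℝ) < c ^ 2 / 440 by positivity)))
  refine ⟨q₀, fun q hq => ?_⟩
  have h1 : (c * q) ^ 2 * Real.exp (-(c * q)) < c ^ 2 / 440 := hq₀ q hq
  refine le_of_mul_le_mul_left ?_ (show 0 < c ^ 2 by positivity)
  nlinarith

end Centre

open Centre in
theorem centre_prob : ∃ q₀ : ℕ, ∀ (F : Type) [Field F] [Fintype F] [DecidableEq F],
    q₀ ≤ Fintype.card F → pr (fun ω : Idx F → F => ¬ CentreProp ω) ≤ 1 / 10 := by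
  classical
  obtain ⟨κ, hκ0, hκ⟩ : ∃ κ : ℝ, 0 < κ ∧ ∀ q : ℕ, 2 ≤ q →
      κ ≤ (1 - 1 / (q : ℝ)) ^ ((q - 1) * 10001 - 9) := ⟨_, Real.exp_pos _, num_tau⟩
  obtain ⟨q₁, hq₁⟩ := num_tail (κ ^ 2 / 320032) (by positivity)
  refine ⟨max (max q₁ 100000) ⌈40000 / κ⌉₊, fun F _ _ _ hq => ?_⟩
  have hq1 : q₁ ≤ Fintype.card F := by omega
  have hq2 : 100000 ≤ Fintype.card F := by omega
  have hq2' : (100000 : ℝ) ≤ Fintype.card F := by exact_mod_cast hq2
  have hq3 : 40000 ≤ Fintype.card F * κ := by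
    rw [← div_le_iff₀ hκ0]
    exact Nat.ceil_le.1 (by omega)
  have ht := hκ _ (by omega : 2 ≤ Fintype.card F)
  have hX := fun l : Ln F => (num_X _ hq2).trans (ex_X l)
  have hY := fun (l : Ln F) (c : Fin 10) => (ex_Y l c).trans (num_Y _ hq2 _ (hκ0.le.trans ht))
  have hτ : Fintype.card F * κ ≤ Fintype.card F * 1000 ^ 9 *
      (1 - 1 / (Fintype.card F : ℝ)) ^ ((Fintype.card F - 1) * 10001 - 9) :=
    mul_le_mul (by linarith) ht hκ0.le (by positivity)
  generalize (Fintype.card F : ℝ) * 1000 ^ 9 *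
      (1 - 1 / (Fintype.card F : ℝ)) ^ ((Fintype.card F - 1) * 10001 - 9) = τ at hX hY hτ
  have hη : 2 * Real.exp (-(τ ^ 2 / (4 * (20002 * Fintype.card F) * 2 ^ 2))) ≤
      2 * Real.exp (-(κ ^ 2 / 320032 * Fintype.card F)) := by
    gcongr
    rw [le_div_iff₀ (by positivity)]
    have := pow_le_pow_left₀ (by positivity) hτ 2
    nlinarith
  have h1 := pr_exists_le_mul _ _ fun l : Ln F =>
    (conc l (fun ω x => ∃ b, EvX l.1 x b ω) (EvX_dep l) τ (by linarith)).trans hη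
  have h2 := pr_exists_le_mul _ _ fun u : Ln F × Fin 10 =>
    (conc u.1 (fun ω x => ∃ b, EvY u.1.1 u.2 x b ω) (EvY_dep u.1 u.2) τ (by linarith)).trans hη
  refine (pr_mono fun ω hω => ?_).trans ((pr_or_le _ _).trans ((add_le_add h1 h2).trans ?_))
  · by_contra hc
    simp only [not_or, not_exists, not_le] at hc
    refine hω ⟨⌈3 * τ⌉₊, ?_, fun d => ?_, fun i hi => ?_⟩
    · have : (100001 : ℝ) ≤ ⌈3 * τ⌉₊ := le_trans (by linarith) (Nat.le_ceil _)
      exact_mod_cast this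
    · have a1 := (abs_lt.1 (hc.1 (rl ω (d, none)))).1
      have a2 := hX (rl ω (d, none))
      have a3 : cnt (pts (rl ω (d, none))) (fun ω' x => ∃ b, EvX (rl ω (d, none)).1 x b ω') ω ≤
          (univ.filter (fun x : Pt F => IsCentre ω d x)).card :=
        cnt_le fun x hx h => mem_filter.2 ⟨mem_univ _, centre_of_EvX (mem_pts.1 hx) h⟩
      have a4 := (Nat.ceil_lt_add_one (show 0 ≤ 3 * τ by linarith)).le
      have a5 : 100 * (⌈3 * τ⌉₊ : ℝ) ≤ (univ.filter (fun x : Pt F => IsCentre ω d x)).card := by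
        linarith
      exact_mod_cast a5
    · obtain ⟨e0, _ | ⟨c0, m0⟩⟩ := i
      · exact absurd rfl hi
      have a1 := (abs_lt.1 (hc.2 (rl ω (e0, some (c0, m0)), c0))).2
      have a2 := hY (rl ω (e0, some (c0, m0))) c0
      refine Nat.cast_le (α := ℝ).1 ((le_cnt (s := pts (rl ω (e0, some (c0, m0))))
        (E := fun ω' x => ∃ b, EvY (rl ω (e0, some (c0, m0))).1 c0 x b ω') (ω := ω)
        fun x hx => ?_).trans (le_trans (by linarith) (Nat.le_ceil _)))
      obtain ⟨-, h0, d, hd, h⟩ := mem_filter.1 hx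
      exact ⟨mem_pts.2 h0, EvY_of_centre h0 hd h⟩
  · refine le_trans ?_ (hq₁ _ hq1)
    rw [Fintype.card_prod (Ln F), card_Ln, Fintype.card_fin]
    push_cast
    have a1 := Real.exp_pos (-(κ ^ 2 / 320032 * Fintype.card F))
    have a2 : (Fintype.card F : ℝ) ≤ Fintype.card F ^ 2 := by nlinarith
    nlinarith

end Crest.Agent.R34
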