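import Crest.Agent.R34.Plane
import Crest.Agent.R34.Prob

/-! Concentration: bounded differences, samples that approximate a set system, many random lines
in a fixed small set. -/

set_option autoImplicit false

namespace Crest.Agent.R34

open Finset

theorem ex_exp_le_of_osc {α : Type} [Fintype α] [Nonempty α] (h : α → ℝ) (c θ : ℝ) (hc : 0 < c)
    (hh : ∀ a b, |h a - h b| ≤ c) :
    ex (fun a => Real.exp (θ * h a)) ≤ Real.exp (θ ^ 2 * c ^ 2 / 2) * Real.exp (θ * ex h) := by
  have hZ : ∀ a, |h a - ex h| ≤ c := by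
    intro a
    have e : h a - ex h = ex (fun b => h a - h b) := by rw [ex_sub, ex_const]
    rw [e, abs_le]
    constructor
    · rw [← ex_const (Ω := α) (-c)]
      exact ex_mono fun b => (abs_le.1 (hh a b)).1
    · rw [← ex_const (Ω := α) c]
      exact ex_mono fun b => (abs_le.1 (hh a b)).2
  have key : ∀ a, Real.exp (θ * h a) ≤ Real.exp (θ * ex h) *
      (Real.cosh (θ * c) + Real.sinh (θ * c) / c * (h a - ex h)) := by
    intro a
    obtain ⟨h1, h2⟩ := abs_le.1 (hZ a)
    have e : θ * h a = θ * ex h + θ * (h a - ex h) := by ring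
    rw [e, Real.exp_add]
    refine mul_le_mul_of_nonneg_left ?_ (Real.exp_pos _).le
    generalize h a - ex h = z at h1 h2
    have := convexOn_exp.2 (Set.mem_univ (θ * c)) (Set.mem_univ (-(θ * c)))
      (show 0 ≤ (c + z) / (2 * c) by apply div_nonneg <;> linarith)
      (show 0 ≤ (c - z) / (2 * c) by apply div_nonneg <;> linarith) (by field_simp; ring)
    simp only [smul_eq_mul] at this
    convert this using 1
    · congr 1; field_simp; ring
    · rw [Real.cosh_eq, Real.sinh_eq]; field_simp; ring
  refine (ex_mono key).trans ?_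
  rw [ex_mul_left, ex_add, ex_const, ex_mul_left, ex_sub, ex_const, sub_self, mul_zero, add_zero,
    mul_comm]
  refine mul_le_mul_of_nonneg_right ?_ (Real.exp_pos _).le
  refine (Real.cosh_le_exp_half_sq _).trans (le_of_eq ?_)
  rw [mul_pow]

theorem ex_piecewise_insert {ι α : Type} [Fintype ι] [DecidableEq ι] [Fintype α] [Nonempty α]
    (A : Finset ι) (i : ι) (hi : i ∉ A) (ω : ι → α) (g : (ι → α) → ℝ) :
    ex (fun ω' : ι → α => g ((insert i A).piecewise ω' ω)) =
      ex (fun a : α => ex (fun ω' : ι → α => g (A.piecewise ω' (Function.update ω i a)))) := by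
  rw [ex_resample {i}, ex_comm (Ω := α)]
  congr 1
  funext ω'
  have h1 := ex_prod ({i} : Finset ι)
    (fun _ a => g (A.piecewise ω' (Function.update ω i a)))
  simp only [prod_singleton] at h1
  rw [← h1]
  congr 1
  funext ω''
  congr 1
  funext j
  by_cases hj : j = i
  · subst hj; simp [Finset.piecewise, hi]
  · by_cases hA : j ∈ A <;> simp [Finset.piecewise, hj, hA]

theorem mgf_le {ι α : Type} [Fintype ι] [DecidableEq ι] [Fintype α] [Nonempty α]
    (f : (ι → α) → ℝ) (c θ : ℝ) (hc : 0 < c)
    (hf : ∀ ω i a, |f (Function.update ω i a) - f ω| ≤ c) (A : Finset ι) : ∀ ω : ι → α,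
    ex (fun ω' : ι → α => Real.exp (θ * f (A.piecewise ω' ω))) ≤
      Real.exp (A.card * (θ ^ 2 * c ^ 2 / 2)) *
        Real.exp (θ * ex (fun ω' : ι → α => f (A.piecewise ω' ω))) := by
  induction A using Finset.induction_on with
  | empty => intro ω; simp [ex_const]
  | insert i A hi ih =>
    intro ω
    rw [ex_piecewise_insert A i hi ω (fun w => Real.exp (θ * f w)), ex_piecewise_insert A i hi ω f]
    refine (ex_mono fun a => ih (Function.update ω i a)).trans ?_
    rw [ex_mul_left, card_insert_of_notMem hi, Nat.cast_add, add_mul, Real.exp_add, mul_assoc,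
      Nat.cast_one, one_mul]
    refine mul_le_mul_of_nonneg_left ?_ (Real.exp_pos _).le
    refine ex_exp_le_of_osc _ c θ hc fun a b => ?_
    have hab : ∀ ω' : ι → α, |f (A.piecewise ω' (Function.update ω i a)) -
        f (A.piecewise ω' (Function.update ω i b))| ≤ c := by
      intro ω'
      have : A.piecewise ω' (Function.update ω i a) =
          Function.update (A.piecewise ω' (Function.update ω i b)) i a := by
        funext j
        by_cases hj : j = i
        · subst hj; simp [Finset.piecewise, hi]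
        · by_cases hA : j ∈ A <;> simp [Finset.piecewise, hj, hA]
      rw [this]
      exact hf _ _ _
    rw [← ex_sub, abs_le]
    constructor
    · rw [← ex_const (Ω := ι → α) (-c)]
      exact ex_mono fun b => (abs_le.1 (hab b)).1
    · rw [← ex_const (Ω := ι → α) c]
      exact ex_mono fun b => (abs_le.1 (hab b)).2

theorem mcdiarmid_upper {ι α : Type} [Fintype ι] [DecidableEq ι] [Fintype α] [Nonempty α]
    (f : (ι → α) → ℝ) (c s n : ℝ) (hc : 0 < c) (hs : 0 ≤ s) (hn0 : 0 < n)
    (hn : (Fintype.card ι : ℝ) ≤ n)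
    (hf : ∀ ω i a, |f (Function.update ω i a) - f ω| ≤ c) :
    pr (fun ω => s ≤ f ω - ex f) ≤ Real.exp (-(s ^ 2 / (4 * n * c ^ 2))) := by
  set θ := s / (n * c ^ 2) with hθ
  have hθ0 : 0 ≤ θ := by positivity
  have h1 := mgf_le f c θ hc hf univ (Classical.arbitrary _)
  simp only [Finset.piecewise_univ, card_univ] at h1
  have h2 := markov (fun ω => Real.exp (θ * f ω)) (fun ω => (Real.exp_pos _).le)
    (Real.exp_pos (θ * (s + ex f)))
  refine (pr_mono fun ω hω => ?_).trans (h2.trans ?_)
  · exact Real.exp_le_exp.2 (mul_le_mul_of_nonneg_left (by linarith) hθ0)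
  · rw [div_le_iff₀ (Real.exp_pos _)]
    refine h1.trans ?_
    rw [← Real.exp_add, ← Real.exp_add, Real.exp_le_exp]
    have e1 : (Fintype.card ι : ℝ) * (θ ^ 2 * c ^ 2 / 2) ≤ n * (θ ^ 2 * c ^ 2 / 2) := by gcongr
    have e2 : n * (θ ^ 2 * c ^ 2 / 2) = 2 * (s ^ 2 / (4 * n * c ^ 2)) := by
      rw [hθ]; field_simp; ring
    have e3 : θ * s = 4 * (s ^ 2 / (4 * n * c ^ 2)) := by
      rw [hθ]; field_simp
    have e4 : 0 ≤ s ^ 2 / (4 * n * c ^ 2) := by positivity
    have e5 : ex (fun ω' => f ω') = ex f := rfl
    rw [e5]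
    nlinarith

/-- bounded differences inequality -/
theorem mcdiarmid {ι α : Type} [Fintype ι] [DecidableEq ι] [Fintype α] [Nonempty α]
    (f : (ι → α) → ℝ) (c s n : ℝ) (hc : 0 < c) (hs : 0 ≤ s) (hn0 : 0 < n)
    (hn : (Fintype.card ι : ℝ) ≤ n)
    (hf : ∀ ω i a, |f (Function.update ω i a) - f ω| ≤ c) :
    pr (fun ω => s ≤ |f ω - ex f|) ≤ 2 * Real.exp (-(s ^ 2 / (4 * n * c ^ 2))) := by
  have h1 := mcdiarmid_upper f c s n hc hs hn0 hn hf
  have h2 := mcdiarmid_upper (fun ω => -1 * f ω) c s n hc hs hn0 hn (fun ω i a => by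
    rw [← mul_sub, abs_mul]; simpa using hf ω i a)
  rw [ex_mul_left] at h2
  rw [two_mul]
  refine (pr_mono fun ω hω => ?_).trans ((pr_or_le _ _).trans (add_le_add h1 h2))
  rcases le_abs.1 hω with h | h
  · exact Or.inl h
  · right; linarith

/-- a short sample from `L` that approximates all the densities of a set system on `L` -/
theorem eps_approx {β γ : Type} [DecidableEq β] (L : Finset β) (hL : L.Nonempty) (G : Finset γ)
    (S : γ → Finset β) (k : ℕ) (hk : 0 < k) (η : ℝ) (hη : 0 ≤ η)
    (h : 2 * (G.card : ℝ) * Real.exp (-(η ^ 2 * k / 4)) < 1) :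
    ∃ σ : Fin k → β, (∀ j, σ j ∈ L) ∧ ∀ g ∈ G,
      |((univ.filter (fun j => σ j ∈ S g)).card : ℝ) / k - ((L ∩ S g).card : ℝ) / L.card| < η := by
  classical
  have : Nonempty L := hL.to_subtype
  have hk' : (0 : ℝ) < k := by exact_mod_cast hk
  have hL' : (0 : ℝ) < L.card := by exact_mod_cast hL.card_pos
  set f : γ → (Fin k → L) → ℝ := fun g σ => ∑ j, if (σ j : β) ∈ S g then 1 else 0 with hfdef
  have hex : ∀ g, ex (f g) = k * (((L ∩ S g).card : ℝ) / L.card) := by
    intro g
    rw [hfdef]
    simp only
    rw [ex_sum]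
    have : ∀ j : Fin k, ex (fun σ : Fin k → L => if (σ j : β) ∈ S g then (1 : ℝ) else 0)
        = ((L ∩ S g).card : ℝ) / L.card := by
      intro j
      have h1 := ex_prod ({j} : Finset (Fin k))
        (fun _ (a : L) => if (a : β) ∈ S g then (1 : ℝ) else 0)
      simp only [prod_singleton] at h1
      rw [h1, ex, Fintype.card_coe, Finset.sum_coe_sort L (fun a => if a ∈ S g then (1 : ℝ) else 0),
        sum_boole, filter_mem_eq_inter]
    simp [this]
  have hb : ∀ g ∈ G, pr (fun σ => η * k ≤ |f g σ - ex (f g)|) ≤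
      2 * Real.exp (-(η ^ 2 * k / 4)) := by
    intro g _
    have := mcdiarmid (f g) 1 (η * k) k one_pos (by positivity) hk' (by simp) (fun σ i a => by
      simp only [hfdef]
      rw [← sum_sub_distrib, sum_eq_single i]
      · split_ifs <;> simp
      · intro j _ hj
        rw [Function.update_of_ne hj, sub_self]
      · simp)
    convert this using 4
    field_simp
  obtain ⟨σ, hσ⟩ := exists_not_of_pr_lt_one
    (lt_of_le_of_lt (pr_exists_mem_le_mul G _ _ hb) (by linarith))
  push Not at hσ
  refine ⟨fun j => σ j, fun j => (σ j).2, fun g hg => ?_⟩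
  have h1 := hσ g hg
  rw [hex] at h1
  have h2 : ((univ.filter (fun j => (σ j : β) ∈ S g)).card : ℝ) = f g σ := by
    simp [hfdef]
  rw [h2, show f g σ / k - ((L ∩ S g).card : ℝ) / L.card
    = (f g σ - k * (((L ∩ S g).card : ℝ) / L.card)) / k by field_simp, abs_div, abs_of_pos hk',
    div_lt_iff₀ hk']
  exact h1

/-- the probability that at least `r` of the random lines lie in a fixed set `S` -/
theorem many_in {F ι : Type} [Field F] [Fintype F] [DecidableEq F] [Fintype ι] [DecidableEq ι]
    (dir : ι → Dir F) (M : ℕ) (hM : ∀ d, (univ.filter (fun i => dir i = d)).card ≤ M)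
    (S : Finset (Ln F)) (r : ℕ) :
    pr (fun ω : ι → F => r ≤ (univ.filter (fun i => (dir i, ω i) ∈ S)).card) ≤
      ((M : ℝ) * S.card / Fintype.card F) ^ r / r.factorial := by
  classical
  have hq : (0 : ℝ) < Fintype.card F := by exact_mod_cast Fintype.card_pos
  set T : ι → Finset F := fun i => univ.filter (fun a => (dir i, a) ∈ S) with hT
  have hsum : ∑ i, ((T i).card : ℝ) ≤ M * S.card := by
    have h1 : ∑ i, (T i).card ≤ M * S.card := by
      have h2 : ∀ i, (T i).card = ∑ l ∈ S, if dir i = l.1 then 1 else 0 := by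
        intro i
        rw [← card_filter]
        refine card_bij (fun a _ => (dir i, a)) (fun a ha => by simpa [hT] using ha)
          (fun a _ b _ h => by simpa using h) ?_
        rintro ⟨d, a⟩ hl
        simp only [mem_filter] at hl
        obtain ⟨h1, rfl⟩ := hl
        exact ⟨a, by simpa [hT] using h1, rfl⟩
      simp_rw [h2]
      rw [sum_comm, mul_comm, ← smul_eq_mul]
      refine sum_le_card_nsmul _ _ _ fun l _ => ?_
      rw [← card_filter]
      exact hM _
    exact_mod_cast h1
  refine le_trans (pr_mono (E' := fun ω : ι → F => ∃ A ∈ powersetCard r (univ : Finset ι),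
    ∀ i ∈ A, ω i ∈ T i) fun ω hω => ?_) ((pr_exists_mem_le _ _).trans ?_)
  · obtain ⟨A, hA, hc⟩ := exists_subset_card_eq hω
    refine ⟨A, mem_powersetCard.2 ⟨subset_univ _, hc⟩, fun i hi => ?_⟩
    simpa [hT] using hA hi
  simp_rw [pr_forall_mem]
  set x : ι → ℝ := fun i => ((T i).card : ℝ) / Fintype.card F with hx
  have hx0 : ∀ i, 0 ≤ x i := fun i => by positivity
  have key : ∀ (U : Finset ι) (r : ℕ), (r.factorial : ℝ) * ∑ A ∈ powersetCard r U, ∏ i ∈ A, x i
      ≤ (∑ i ∈ U, x i) ^ r := by
    intro U
    induction U using Finset.induction_on with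
    | empty =>
      intro r
      cases r with
      | zero => simp
      | succ r => rw [powersetCard_eq_empty.2 (by simp)]; simp
    | insert a U ha ih =>
      intro r
      cases r with
      | zero => simp
      | succ r =>
        rw [powersetCard_succ_insert ha, sum_union, sum_image, sum_insert ha]
        · have e : ∑ A ∈ powersetCard r U, ∏ i ∈ insert a A, x i
              = x a * ∑ A ∈ powersetCard r U, ∏ i ∈ A, x i := by
            rw [mul_sum]
            refine sum_congr rfl fun A hA => prod_insert fun h => ha ?_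
            exact (mem_powersetCard.1 hA).1 h
          rw [e, mul_add]
          have h1 := ih (r + 1)
          have h2 := ih r
          have hy : 0 ≤ ∑ i ∈ U, x i := sum_nonneg fun i _ => hx0 i
          have h3 := pow_add_mul_le_add_pow (b := x a) hy (by linarith [hx0 a]) (r + 1)
          rw [add_comm (x a)]
          refine le_trans ?_ h3
          refine add_le_add h1 ?_
          rw [Nat.factorial_succ, Nat.add_sub_cancel, Nat.cast_mul]
          calc _ = ((r + 1 : ℕ) : ℝ) * ((r.factorial : ℝ) *
                ∑ A ∈ powersetCard r U, ∏ i ∈ A, x i) * x a := by ring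
            _ ≤ _ := by have := hx0 a; gcongr
        · intro A hA B hB h
          have hA' : a ∉ A := fun h => ha ((mem_powersetCard.1 hA).1 h)
          have hB' : a ∉ B := fun h => ha ((mem_powersetCard.1 hB).1 h)
          rw [← erase_insert hA', h, erase_insert hB']
        · rw [disjoint_left]
          intro A hA hA'
          obtain ⟨B, _, rfl⟩ := mem_image.1 hA'
          exact ha ((mem_powersetCard.1 hA).1 (mem_insert_self _ _))
  rw [le_div_iff₀ (by positivity), mul_comm]
  refine (key univ r).trans (pow_le_pow_left₀ (sum_nonneg fun i _ => hx0 i) ?_ r)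
  rw [hx, ← sum_div]
  gcongr

end Crest.Agent.R34
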