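import Crest.Agent.R34.Conc

/-! The fingerprint lemma: a short sequence of lines determines most lines of a family with small
excess on `B`. -/

set_option autoImplicit false

namespace Crest.Agent.R34

open Finset

variable {F : Type} [Field F] [Fintype F] [DecidableEq F]

/-- the number of lines of `L` having at least `A` points of `B` on another line of `L` -/
theorem card_many_multi (B : Finset (Pt F)) (L R : Finset (Ln F)) (hR : R ⊆ L) (A : ℝ)
    (h : ∀ l ∈ R, A ≤ (((B ∩ pts l).filter (fun p => 2 ≤ mult L p)).card : ℝ)) :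
    (R.card : ℝ) * A ≤ 2 * excess B L := by
  have h1 : ∀ l : Ln F, (B ∩ pts l).filter (fun p => 2 ≤ mult L p) =
      B.filter (fun p => 2 ≤ mult L p) ∩ pts l := fun l => by
    ext p; simp only [mem_filter, mem_inter]; tauto
  have h2 : ∑ l ∈ R, ((B ∩ pts l).filter (fun p => 2 ≤ mult L p)).card ≤ 2 * excess B L := by
    refine (sum_le_sum_of_subset hR).trans ?_
    simp only [h1]
    rw [sum_card_inter, excess, mul_sum, sum_filter]
    exact sum_le_sum fun p _ => by split_ifs <;> omega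
  calc (R.card : ℝ) * A = ∑ _l ∈ R, A := by simp
    _ ≤ ∑ l ∈ R, (((B ∩ pts l).filter (fun p => 2 ≤ mult L p)).card : ℝ) := sum_le_sum h
    _ ≤ _ := by exact_mod_cast h2

namespace CoreAux

/-- the lines other than `l` through a point of `X` -/
def thr (X : Finset (Pt F)) (l : Ln F) : Finset (Ln F) :=
  univ.filter (fun l' => l' ≠ l ∧ ∃ x ∈ X, On x l')

/-- the points of `B` on `l` marked by a line of `T` -/
def Mk (B : Finset (Pt F)) (T : Finset (Ln F)) (l : Ln F) : Finset (Pt F) :=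
  (B ∩ pts l).filter (fun x => ∃ l' ∈ T, l' ≠ l ∧ On x l')

theorem card_thr (L : Finset (Ln F)) (X : Finset (Pt F)) (l : Ln F) (hX : X ⊆ pts l) :
    (L ∩ thr X l).card = ∑ x ∈ X, mult (L.erase l) x := by
  have : L ∩ thr X l = X.biUnion (fun x => (L.erase l).filter (fun l' => On x l')) := by
    ext l'
    simp only [thr, mem_inter, mem_filter, mem_univ, true_and, mem_biUnion, mem_erase]
    constructor
    · rintro ⟨h1, h2, x, hx, h3⟩; exact ⟨x, hx, ⟨h2, h1⟩, h3⟩
    · rintro ⟨x, hx, ⟨h2, h1⟩, h3⟩; exact ⟨h1, h2, x, hx, h3⟩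
  rw [this, card_biUnion]
  · rfl
  · intro x hx y hy hxy
    rw [Function.onFun, disjoint_left]
    intro l' h1 h2
    simp only [mem_filter, mem_erase] at h1 h2
    exact hxy (pt_eq_of_on h1.1.1 h1.2 (mem_pts.1 (hX hx)) h2.2 (mem_pts.1 (hX hy)))

omit [Fintype F] in
theorem mult_erase {L : Finset (Ln F)} {l : Ln F} (hl : l ∈ L) {x : Pt F} (hx : On x l) :
    mult (L.erase l) x = mult L x - 1 := by
  rw [mult, mult, filter_erase, card_erase_of_mem (by simp [hl, hx])]

theorem Mk_subset (B : Finset (Pt F)) (T : Finset (Ln F)) (l : Ln F) : Mk B T l ⊆ B ∩ pts l :=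
  filter_subset _ _

theorem Mk_mono (B : Finset (Pt F)) {T T' : Finset (Ln F)} (h : T ⊆ T') (l : Ln F) :
    Mk B T l ⊆ Mk B T' l := by
  intro x hx
  simp only [Mk, mem_filter] at hx ⊢
  obtain ⟨h1, l', h2, h3⟩ := hx
  exact ⟨h1, l', h h2, h3⟩

theorem card_Mk_le (B : Finset (Pt F)) (T : Finset (Ln F)) (l : Ln F) :
    (Mk B T l).card ≤ T.card := by
  have h1 := card_thr T (Mk B T l) l ((Mk_subset B T l).trans inter_subset_right)
  refine le_trans ?_ (h1.ge.trans (card_le_card inter_subset_left))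
  rw [card_eq_sum_ones]
  refine sum_le_sum fun x hx => card_pos.2 ?_
  simp only [Mk, mem_filter] at hx
  obtain ⟨-, l', h2, h3, h4⟩ := hx
  exact ⟨l', by simp [h2, h3, h4]⟩

/-- the marked mass -/
def mass (B : Finset (Pt F)) (L T : Finset (Ln F)) (l : Ln F) : ℕ := (L ∩ thr (Mk B T l) l).card

theorem mass_eq (B : Finset (Pt F)) (L T : Finset (Ln F)) (l : Ln F) :
    mass B L T l = ∑ x ∈ Mk B T l, mult (L.erase l) x :=
  card_thr _ _ _ ((Mk_subset B T l).trans inter_subset_right)

theorem mass_mono (B : Finset (Pt F)) (L : Finset (Ln F)) {T T' : Finset (Ln F)} (h : T ⊆ T')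
    (l : Ln F) : mass B L T l ≤ mass B L T' l := by
  rw [mass_eq, mass_eq]
  exact sum_le_sum_of_subset (Mk_mono B h l)

open Classical in
/-- the bad lines -/
noncomputable def Bad (B : Finset (Pt F)) (L T : Finset (Ln F)) (A c : ℝ) : Finset (Ln F) :=
  L.filter (fun l => (((B ∩ pts l).filter (fun p => 2 ≤ mult L p)).card : ℝ) ≤ A ∧
    ((B ∩ pts l).card : ℝ) - c < (L ∩ thr (B ∩ pts l) l).card ∧ (mass B L T l : ℝ) < c)

theorem Bad_anti (B : Finset (Pt F)) (L : Finset (Ln F)) {T T' : Finset (Ln F)} (h : T ⊆ T')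
    (A c : ℝ) : Bad B L T' A c ⊆ Bad B L T A c := by
  intro l hl
  simp only [Bad, mem_filter] at hl ⊢
  exact ⟨hl.1, hl.2.1, hl.2.2.1, lt_of_le_of_lt (by exact_mod_cast mass_mono B L h l) hl.2.2.2⟩

/-- the potential -/
noncomputable def pot (B : Finset (Pt F)) (L T : Finset (Ln F)) (c : ℝ) : ℝ :=
  ∑ l ∈ L, min (mass B L T l : ℝ) (2 * c)

theorem gain_bad (B : Finset (Pt F)) (L T : Finset (Ln F)) (A c d ν : ℝ) (hν : 0 ≤ ν)
    (hνc : ν ≤ c) (hd : ∀ l ∈ L, 2 * c + A * ν + d ≤ ((B ∩ pts l).card : ℝ))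
    {l : Ln F} (hl : l ∈ Bad B L T A c) :
    d * ν ≤ ∑ l' ∈ L, (min (mass B L (insert l' T) l : ℝ) (2 * c) -
      min (mass B L T l : ℝ) (2 * c)) := by
  classical
  simp only [Bad, mem_filter] at hl
  obtain ⟨hlL, h1, h2, h3⟩ := hl
  set U := (B ∩ pts l) \ Mk B T l with hU
  set Hv := U.filter (fun x => ν ≤ (mult (L.erase l) x : ℝ)) with hHv
  have hUs : U ⊆ B ∩ pts l := sdiff_subset
  have hHs : Hv ⊆ pts l := (filter_subset _ _).trans (hUs.trans inter_subset_right)
  have h4 : (∑ x ∈ U, (mult (L.erase l) x : ℝ)) + mass B L T l =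
      (L ∩ thr (B ∩ pts l) l).card := by
    rw [mass_eq, card_thr _ _ _ inter_subset_right, ← sum_sdiff (Mk_subset B T l)]
    push_cast
    rfl
  have h5 : ∑ x ∈ U.filter (fun x => ¬ ν ≤ (mult (L.erase l) x : ℝ)), (mult (L.erase l) x : ℝ) ≤
      A * ν := by
    refine le_trans ?_ (mul_le_mul_of_nonneg_right h1 hν)
    rw [← nsmul_eq_mul, ← sum_const, sum_filter, sum_filter]
    refine le_trans (sum_le_sum fun x hx => ?_) (sum_le_sum_of_subset_of_nonneg hUs
      (f := fun p => if 2 ≤ mult L p then ν else 0) fun x _ _ => by split_ifs <;> simp [hν])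
    have h6 := mult_erase hlL (mem_pts.1 (mem_inter.1 (hUs hx)).2)
    split_ifs with h7 h8 h8
    · exact hν
    · exact le_rfl
    · exact (not_le.1 h7).le
    · rw [h6, show mult L x - 1 = 0 by omega]; simp
  have h6 := sum_filter_add_sum_filter_not U (fun x => ν ≤ (mult (L.erase l) x : ℝ))
    (fun x => (mult (L.erase l) x : ℝ))
  have h7 : d ≤ ((L ∩ thr Hv l).card : ℝ) := by
    rw [card_thr _ _ _ hHs]
    push_cast
    have := hd l hlL
    linarith
  calc d * ν ≤ ∑ _l' ∈ L ∩ thr Hv l, ν := by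
        rw [sum_const, nsmul_eq_mul]; exact mul_le_mul_of_nonneg_right h7 hν
    _ ≤ ∑ l' ∈ L ∩ thr Hv l, (min (mass B L (insert l' T) l : ℝ) (2 * c) -
          min (mass B L T l : ℝ) (2 * c)) := by
        refine sum_le_sum fun l' hl' => ?_
        simp only [thr, mem_inter, mem_filter, mem_univ, true_and] at hl'
        obtain ⟨-, h8, x, hx, h9⟩ := hl'
        obtain ⟨hxU, hxν⟩ := mem_filter.1 hx
        obtain ⟨hx1, hx2⟩ := mem_sdiff.1 hxU
        have h10 : insert x (Mk B T l) ⊆ Mk B (insert l' T) l :=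
          insert_subset (mem_filter.2 ⟨hx1, l', mem_insert_self _ _, h8, h9⟩)
            (Mk_mono B (subset_insert _ _) l)
        have h11 : mult (L.erase l) x + mass B L T l ≤ mass B L (insert l' T) l := by
          rw [mass_eq, mass_eq, ← sum_insert hx2]
          exact sum_le_sum_of_subset h10
        have h12 : (mult (L.erase l) x : ℝ) + mass B L T l ≤ mass B L (insert l' T) l := by
          exact_mod_cast h11
        have h13 : min (mass B L T l : ℝ) (2 * c) ≤ mass B L T l := min_le_left _ _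
        have h14 : ν + mass B L T l ≤ min (mass B L (insert l' T) l : ℝ) (2 * c) :=
          le_min (by linarith) (by linarith)
        linarith
    _ ≤ _ := by
        refine sum_le_sum_of_subset_of_nonneg inter_subset_left fun l' _ _ => sub_nonneg.2 ?_
        exact min_le_min_right _ (by exact_mod_cast mass_mono B L (subset_insert _ _) l)

theorem step (B : Finset (Pt F)) (L T : Finset (Ln F)) (hL : L.Nonempty) (A c d ν b g : ℝ)
    (hν : 0 ≤ ν) (hd0 : 0 ≤ d) (hνc : ν ≤ c)
    (hd : ∀ l ∈ L, 2 * c + A * ν + d ≤ ((B ∩ pts l).card : ℝ))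
    (hb : b ≤ (Bad B L T A c).card) (hg : L.card * g ≤ b * (d * ν)) :
    ∃ l', pot B L T c + g ≤ pot B L (insert l' T) c := by
  have h1 : ∑ _l' ∈ L, g ≤ ∑ l' ∈ L, (pot B L (insert l' T) c - pot B L T c) := by
    simp only [pot, ← sum_sub_distrib]
    rw [sum_comm, sum_const, nsmul_eq_mul]
    refine hg.trans ((mul_le_mul_of_nonneg_right hb (mul_nonneg hd0 hν)).trans ?_)
    rw [← nsmul_eq_mul, ← sum_const]
    refine (sum_le_sum fun l hl => gain_bad B L T A c d ν hν hνc hd hl).trans ?_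
    refine sum_le_sum_of_subset_of_nonneg (filter_subset _ _) fun l _ _ =>
      sum_nonneg fun l' _ => sub_nonneg.2 ?_
    exact min_le_min_right _ (by exact_mod_cast mass_mono B L (subset_insert _ _) l)
  obtain ⟨l', -, h2⟩ := exists_le_of_sum_le hL h1
  exact ⟨l', by linarith⟩

theorem greedy (B : Finset (Pt F)) (L : Finset (Ln F)) (hL : L.Nonempty) (A c d ν b g : ℝ)
    (hν : 0 ≤ ν) (hd0 : 0 ≤ d) (hνc : ν ≤ c) (hc : 0 < c) (hb : 0 ≤ b)
    (hd : ∀ l ∈ L, 2 * c + A * ν + d ≤ ((B ∩ pts l).card : ℝ))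
    (hg : L.card * g ≤ b * (d * ν)) (f : ℕ) (hf : L.card * (2 * c) ≤ f * g) :
    ∃ s : Fin f → Ln F, ((Bad B L (univ.image s) A c).card : ℝ) ≤ b := by
  have himg : ∀ (n : ℕ) (a : Ln F) (s : Fin n → Ln F),
      univ.image (Fin.cons a s : Fin (n + 1) → Ln F) = insert a (univ.image s) := fun n a s => by
    ext l
    simp [Fin.exists_fin_succ, eq_comm]
  have key : ∀ n : ℕ, ∃ s : Fin n → Ln F, ((Bad B L (univ.image s) A c).card : ℝ) ≤ b ∨
      n * g ≤ pot B L (univ.image s) c := by
    intro n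
    induction n with
    | zero =>
      refine ⟨Fin.elim0, Or.inr ?_⟩
      simp only [CharP.cast_eq_zero, zero_mul]
      exact sum_nonneg fun l _ => le_min (Nat.cast_nonneg _) (by linarith)
    | succ n ih =>
      obtain ⟨s, hs⟩ := ih
      by_cases h1 : ((Bad B L (univ.image s) A c).card : ℝ) ≤ b
      · refine ⟨Fin.cons (none, 0) s, Or.inl (le_trans ?_ h1)⟩
        rw [himg]
        exact_mod_cast card_le_card (Bad_anti B L (subset_insert _ _) A c)
      · obtain ⟨l', hl'⟩ := step B L (univ.image s) hL A c d ν b g hν hd0 hνc hd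
          (not_le.1 h1).le hg
        refine ⟨Fin.cons l' s, Or.inr ?_⟩
        rw [himg]
        have := hs.resolve_left h1
        push_cast
        linarith
  obtain ⟨s, hs⟩ := key f
  refine ⟨s, ?_⟩
  by_contra h1
  have h2 := hs.resolve_left h1
  have h3 : 0 < (Bad B L (univ.image s) A c).card := by
    have : (0 : ℝ) < (Bad B L (univ.image s) A c).card := hb.trans_lt (not_le.1 h1)
    exact_mod_cast this
  obtain ⟨l, hl⟩ := card_pos.1 h3
  simp only [Bad, mem_filter] at hl
  have h4 : pot B L (univ.image s) c < ∑ _l ∈ L, 2 * c :=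
    sum_lt_sum (fun l _ => min_le_right _ _)
      ⟨l, hl.1, (min_le_left _ _).trans_lt (by linarith [hl.2.2.2])⟩
  rw [sum_const, nsmul_eq_mul] at h4
  linarith

open Classical in
/-- the container determined by the two samples -/
noncomputable def cont (B : Finset (Pt F)) (φ : ℝ) {f k : ℕ} (s : Fin f → Ln F)
    (σ : Fin k → Ln F) : Finset (Ln F) :=
  univ.filter (fun l =>
    ((univ.filter (fun j => σ j ∈ thr (B ∩ pts l) l)).card : ℝ) / k ≤
      ((B ∩ pts l).card : ℝ) / Fintype.card F - 3 * φ / 4 ∨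
    3 * φ / 4 ≤ ((univ.filter (fun j => σ j ∈ thr (Mk B (univ.image s) l) l)).card : ℝ) / k)

end CoreAux

open CoreAux in
theorem core (B : Finset (Pt F)) (δ φ β Φ : ℝ) (f k : ℕ) (hδ : 0 < δ) (hφ : 0 < φ) (hβ : 0 < β)
    (hφδ : 4 * φ ≤ δ) (hk : 0 < k) (hq : 4 ≤ δ * Fintype.card F)
    (h1 : 4 * (Fintype.card (Ln F) : ℝ) * Real.exp (-(φ ^ 2 * k / 64)) < 1)
    (h2 : 256 * φ * Φ ≤ β ^ 2 * δ ^ 2 * Fintype.card F * f)
    (h3 : β * δ * Fintype.card F ≤ 16 * φ * Φ) :
    ∃ 𝓗 : Finset (Finset (Ln F)), 𝓗.card ≤ (Fintype.card (Ln F)) ^ (f + k) ∧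
      ∀ L : Finset (Ln F), L.card = Fintype.card F →
        (∀ l ∈ L, δ * Fintype.card F ≤ ((B ∩ pts l).card : ℝ)) → (excess B L : ℝ) ≤ Φ →
        ∃ H ∈ 𝓗, ((L \ H).card : ℝ) ≤ β * Fintype.card F ∧
          ∀ l ∈ H, l ∉ L → (φ * Fintype.card F / 2 ≤ ((B ∩ unc L ∩ pts l).card : ℝ) ∨
            φ * Fintype.card F / 2 ≤ (f : ℝ) + ((∑ p ∈ B ∩ pts l, (mult L p - 1) : ℕ) : ℝ)) := by
  classical
  refine ⟨univ.image (fun w : (Fin f → Ln F) × (Fin k → Ln F) => cont B φ w.1 w.2),
    card_image_le.trans (by simp [pow_add]), fun L hL hB hΦ => ?_⟩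
  have hq0 : (0 : ℝ) < Fintype.card F := by exact_mod_cast Fintype.card_pos
  have hLq : (L.card : ℝ) = Fintype.card F := by rw [hL]
  set q : ℝ := (Fintype.card F : ℝ) with hqdef
  have hLne : L.Nonempty := card_pos.1 (by rw [hL]; exact Fintype.card_pos)
  have hΦ0 : 0 < Φ := by
    have : 0 < β * δ * q := by positivity
    by_contra h
    nlinarith [mul_nonneg hφ.le (neg_nonneg.2 (not_lt.1 h))]
  obtain ⟨s, hs⟩ := greedy B L hLne (4 * Φ / (β * q)) (φ * q) (δ * q / 4)
    (β * δ * q ^ 2 / (16 * Φ)) (β * q / 2) (β ^ 2 * δ ^ 2 * q ^ 3 / (128 * Φ))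
    (by positivity) (by positivity)
    (by rw [div_le_iff₀ (by positivity)]; nlinarith [mul_le_mul_of_nonneg_right h3 hq0.le])
    (by positivity) (by positivity)
    (fun l hl => by
      have h4 : 4 * Φ / (β * q) * (β * δ * q ^ 2 / (16 * Φ)) = δ * q / 4 := by
        field_simp; norm_num
      have h5 := hB l hl
      rw [h4]
      nlinarith [mul_le_mul_of_nonneg_right hφδ hq0.le])
    (le_of_eq (by rw [hLq]; field_simp; norm_num)) f
    (by
      rw [hLq, ← mul_div_assoc, le_div_iff₀ (by positivity)]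
      nlinarith [mul_le_mul_of_nonneg_right h2 (sq_nonneg q)])
  obtain ⟨σ, -, hσ⟩ := eps_approx L hLne (univ : Finset (Ln F × Bool))
    (fun g => if g.2 then thr (B ∩ pts g.1) g.1 else thr (Mk B (univ.image s) g.1) g.1) k hk
    (φ / 4) (by positivity) (by
      rw [card_univ, Fintype.card_prod, Fintype.card_bool]
      push_cast
      convert h1 using 2
      · ring
      · congr 2; ring)
  have hN := fun l => abs_lt.1 (hσ (l, true) (mem_univ _))
  have hS := fun l => abs_lt.1 (hσ (l, false) (mem_univ _))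
  simp only [if_true, Bool.false_eq_true, if_false, hLq] at hN hS
  refine ⟨cont B φ s σ, mem_image.2 ⟨(s, σ), mem_univ _, rfl⟩, ?_, fun l hl hlL => ?_⟩
  · set R := L.filter (fun l => 4 * Φ / (β * q) ≤
      (((B ∩ pts l).filter (fun p => 2 ≤ mult L p)).card : ℝ)) with hR
    have h4 := card_many_multi B L R (filter_subset _ _) _ fun l hl => (mem_filter.1 hl).2
    have h5 : (R.card : ℝ) ≤ β * q / 2 := by
      rw [← mul_div_assoc, div_le_iff₀ (by positivity)] at h4
      refine le_of_mul_le_mul_right ?_ (by positivity : 0 < 4 * Φ)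
      nlinarith [mul_le_mul_of_nonneg_right hΦ (by positivity : 0 ≤ β * q)]
    have h6 : L \ cont B φ s σ ⊆ R ∪ Bad B L (univ.image s) (4 * Φ / (β * q)) (φ * q) := by
      intro l hl
      obtain ⟨hl1, hl2⟩ := mem_sdiff.1 hl
      simp only [cont, mem_filter, mem_univ, true_and, not_or, not_le] at hl2
      simp only [hR, Bad, mem_union, mem_filter, hl1, true_and]
      refine (le_total _ _).imp_right fun h7 => ⟨h7, ?_, ?_⟩
      · have h8 : ((B ∩ pts l).card : ℝ) / q - φ < ((L ∩ thr (B ∩ pts l) l).card : ℝ) / q := by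
          linarith [(hN l).2, hl2.1]
        rw [sub_lt_iff_lt_add, div_add' _ _ _ hq0.ne', div_lt_div_iff_of_pos_right hq0] at h8
        linarith
      · have h8 : (mass B L (univ.image s) l : ℝ) / q < φ := by
          rw [mass]; linarith [(hS l).1, hl2.2]
        rwa [div_lt_iff₀ hq0] at h8
    have h7 : ((L \ cont B φ s σ).card : ℝ) ≤
        R.card + (Bad B L (univ.image s) (4 * Φ / (β * q)) (φ * q)).card := by
      exact_mod_cast (card_le_card h6).trans (card_union_le _ _)
    linarith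
  · simp only [cont, mem_filter, mem_univ, true_and] at hl
    rcases hl with hl | hl
    · left
      have h4 : ((L ∩ thr (B ∩ pts l) l).card : ℝ) / q < ((B ∩ pts l).card : ℝ) / q - φ / 2 := by
        linarith [(hN l).1]
      rw [lt_sub_iff_add_lt, div_add' _ _ _ hq0.ne', div_lt_div_iff_of_pos_right hq0] at h4
      have h5 : (B ∩ pts l).card ≤ (L ∩ thr (B ∩ pts l) l).card + (B ∩ unc L ∩ pts l).card := by
        have h6 : B ∩ unc L ∩ pts l = (B ∩ pts l).filter (fun p => p ∈ unc L) := by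
          ext p; simp only [mem_inter, mem_filter]; tauto
        rw [card_thr _ _ _ inter_subset_right, erase_eq_of_notMem hlL, h6, card_filter,
          ← sum_add_distrib, card_eq_sum_ones]
        refine sum_le_sum fun p _ => ?_
        split_ifs with h7
        · omega
        · simp only [mem_unc, not_forall, not_not] at h7
          obtain ⟨l', h8, h9⟩ := h7
          exact card_pos.2 ⟨l', mem_filter.2 ⟨h8, h9⟩⟩
      have h6 : ((B ∩ pts l).card : ℝ) ≤
          (L ∩ thr (B ∩ pts l) l).card + (B ∩ unc L ∩ pts l).card := by exact_mod_cast h5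
      linarith
    · right
      have h4 : φ / 2 < (mass B L (univ.image s) l : ℝ) / q := by
        rw [mass]; linarith [(hS l).2]
      rw [lt_div_iff₀ hq0] at h4
      have h5 : mass B L (univ.image s) l ≤ f + ∑ p ∈ B ∩ pts l, (mult L p - 1) := by
        rw [mass_eq, erase_eq_of_notMem hlL]
        calc ∑ x ∈ Mk B (univ.image s) l, mult L x
            ≤ ∑ x ∈ Mk B (univ.image s) l, (1 + (mult L x - 1)) := sum_le_sum fun x _ => by omega
          _ = (Mk B (univ.image s) l).card + ∑ x ∈ Mk B (univ.image s) l, (mult L x - 1) := by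
              rw [sum_add_distrib, ← card_eq_sum_ones]
          _ ≤ _ := add_le_add ((card_Mk_le _ _ _).trans (card_image_le.trans (by simp)))
              (sum_le_sum_of_subset (Mk_subset _ _ _))
      have h6 : (mass B L (univ.image s) l : ℝ) ≤
          (f : ℝ) + ((∑ p ∈ B ∩ pts l, (mult L p - 1) : ℕ) : ℝ) := by exact_mod_cast h5
      linarith

end Crest.Agent.R34
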