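import Crest.Agent.R34.CaseA

/-! The covering theorem. -/

set_option autoImplicit false

namespace Crest.Agent.R34

open Finset

theorem exists_consts (T δ : ℝ) (hT : 1 ≤ T) (hδ : 0 < δ) (hδ1 : δ ≤ 1) :
    ∃ γ φ ε : ℝ, 0 < γ ∧ 0 < φ ∧ 0 < ε ∧ 4 * γ ≤ δ ∧ T * 16 * γ < δ ∧ 4 * φ ≤ δ ∧ φ ≤ 2 * γ ∧
      4096 * φ = 1 / (400 * T) * γ ^ 2 * δ ^ 2 ∧ 16 * ε ≤ φ ∧ 64 * ε ≤ γ * φ ^ 2 ∧
      512 * ε ≤ φ ^ 3 ∧ T * 32 * ε < φ ∧ 16 * ε ≤ φ ^ 2 ∧ 4 * ε ≤ γ ∧ 16 * ε ≤ γ ^ 2 ∧ ε ≤ δ := by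
  have hT0 : 0 < T := by linarith
  obtain ⟨γ, hγ⟩ : ∃ γ, γ = δ / (32 * T) := ⟨_, rfl⟩
  have hγ0 : 0 < γ := by rw [hγ]; positivity
  have hγ1 : 32 * T * γ = δ := by rw [hγ]; field_simp
  have hγ2 : 32 * γ ≤ δ := by nlinarith
  obtain ⟨φ, hφ⟩ : ∃ φ, φ = 1 / (400 * T) * γ ^ 2 * δ ^ 2 / 4096 := ⟨_, rfl⟩
  have hφ0 : 0 < φ := by rw [hφ]; positivity
  have hc1 : 1 / (400 * T) ≤ 1 := by rw [div_le_one (by positivity)]; linarith
  have hφ1 : 4096 * φ ≤ γ := by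
    have h1 : γ ^ 2 ≤ γ := by nlinarith
    have h2 : δ ^ 2 ≤ 1 := by nlinarith
    have h3 : 1 / (400 * T) * γ ^ 2 * δ ^ 2 ≤ 1 * γ * 1 :=
      mul_le_mul (mul_le_mul hc1 h1 (by positivity) zero_le_one) h2 (by positivity) (by positivity)
    rw [hφ]; linarith
  refine ⟨γ, φ, min (min (min (φ / 16) (γ * φ ^ 2 / 64)) (min (φ ^ 3 / 512) (φ / (64 * T))))
    (min (min (φ ^ 2 / 16) (γ / 4)) (min (γ ^ 2 / 16) δ)), hγ0, hφ0, by positivity, by linarith,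
    by linarith, by linarith, by linarith, by rw [hφ]; ring, ?_⟩
  generalize hε : min (min (min (φ / 16) (γ * φ ^ 2 / 64)) (min (φ ^ 3 / 512) (φ / (64 * T))))
    (min (min (φ ^ 2 / 16) (γ / 4)) (min (γ ^ 2 / 16) δ)) = ε
  have h := hε.ge
  simp only [le_min_iff] at h
  obtain ⟨⟨⟨h1, h2⟩, h3, h4⟩, ⟨h5, h6⟩, h7, h8⟩ := h
  rw [le_div_iff₀ (by positivity)] at h4
  refine ⟨by linarith, by linarith, by linarith, by linarith, by linarith, by linarith,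
    by linarith, h8⟩

theorem cover_reduce {F ι : Type} [Field F] [Fintype F] [DecidableEq F] [Fintype ι]
    [DecidableEq ι] (dir : ι → Dir F) (ω : ι → F) (hι : Fintype.card ι ≤ Fintype.card F ^ 2)
    (η η' y : ℝ) (hη' : 0 < η') (h1 : η' ≤ η) (h2 : η' ≤ 1) (hy : y ^ 12 = Fintype.card F)
    (hy2 : 2 ≤ y) (h : ¬ CoverProp dir ω (η * Fintype.card F)) :
    ∃ L : Finset (Ln F), L.card = Fintype.card F ∧ (∀ i, (dir i, ω i) ∉ L) ∧
      Disjoint (unc L) (free dir univ ω) ∧ η' * y ^ 18 / 2 ≤ (unc L).card := by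
  unfold CoverProp at h
  push Not at h
  obtain ⟨L, hL, hLΛ, hdisj, hz⟩ := h
  let N : Finset (Ln F) := univ \ univ.image (fun i => (dir i, ω i))
  have hLN : L ⊆ N := fun l hl => mem_sdiff.2 ⟨mem_univ _, fun h => by
    obtain ⟨i, -, rfl⟩ := mem_image.1 h
    exact hLΛ i hl⟩
  have hN : Fintype.card F ≤ N.card := by
    have h3 : (univ.image (fun i => (dir i, ω i))).card ≤ Fintype.card ι := card_image_le
    have h4 : N.card = Fintype.card (Ln F) - (univ.image (fun i => (dir i, ω i))).card := by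
      rw [card_sdiff_of_subset (subset_univ _), card_univ]
    rw [card_Ln] at h4
    omega
  obtain ⟨L', hLL', hL'N, hL'⟩ := exists_subsuperset_card_eq hLN hL hN
  refine ⟨L', hL', fun i hi => (mem_sdiff.1 (hL'N hi)).2 (mem_image.2 ⟨i, mem_univ _, rfl⟩),
    disjoint_of_subset_left (fun p hp => mem_unc.2 fun l hl => mem_unc.1 hp l (hLL' hl)) hdisj, ?_⟩
  have hy1 : 1 ≤ y := by linarith
  have h6 : (64 : ℝ) ≤ y ^ 6 := by
    calc (64 : ℝ) = 2 ^ 6 := by norm_num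
      _ ≤ y ^ 6 := pow_le_pow_left₀ (by norm_num) hy2 6
  have hel := erdos_lovasz L' hL' (η * Fintype.card F) (y ^ 6) (by linarith) (fun z =>
    (hz z).trans (by exact_mod_cast card_le_card (filter_subset_filter _ hLL')))
  rw [← hy] at hel
  set u : ℝ := ((unc L').card : ℝ)
  set t := y ^ 6 with ht
  have e12 : y ^ 12 = t ^ 2 := by rw [ht]; ring
  have e18 : y ^ 18 = t ^ 3 := by rw [ht]; ring
  rw [e12] at hel
  rw [e18]
  have ht0 : 0 < t := by linarith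
  rcases hel with h3 | h3
  · have h4 : t * (t * (t ^ 2 - 1)) ≤ t * (u + t ^ 2) := by nlinarith
    have h5 := le_of_mul_le_mul_left h4 ht0
    have h7 : η' * t ^ 3 ≤ 1 * t ^ 3 := mul_le_mul_of_nonneg_right h2 (by positivity)
    nlinarith
  · have h4 : η' * (t ^ 2 * (t - 1)) ≤ η * (t ^ 2 * (t - 1)) :=
      mul_le_mul_of_nonneg_right h1 (by have : 0 ≤ t - 1 := by linarith
                                        positivity)
    have h5 : η' * (t ^ 3 / 2) ≤ η' * (t ^ 2 * (t - 1)) :=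
      mul_le_mul_of_nonneg_left (by nlinarith) hη'.le
    nlinarith

theorem exp_neg_le (a : ℝ) (ha : 0 < a) (n : ℕ) : Real.exp (-a) ≤ n.factorial / a ^ n := by
  have h := Real.pow_div_factorial_le_exp a ha.le n
  rw [Real.exp_neg, inv_le_comm₀ (Real.exp_pos _) (by positivity), inv_div]
  exact h

theorem num_h1 (N φ y q : ℝ) (k : ℕ) (hφ : 0 < φ) (hy : y ^ 12 = q) (hy1 : 1 ≤ y)
    (hN : N ≤ q ^ 3) (hk1 : y ^ 4 ≤ k)
    (y6 : 4 * (Nat.factorial 10 : ℝ) * (64 / φ ^ 2) ^ 10 + 1 ≤ y) :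
    4 * N * Real.exp (-(φ ^ 2 * k / 64)) < 1 := by
  have hy0 : 0 < y := by linarith
  have hy4 : y ≤ y ^ 4 := le_self_pow₀ hy1 (by norm_num)
  have hq : 0 < q := by rw [← hy]; positivity
  have e1 : Real.exp (-(φ ^ 2 * k / 64)) ≤ Real.exp (-(φ ^ 2 * y ^ 4 / 64)) :=
    Real.exp_le_exp.2 (neg_le_neg (div_le_div_of_nonneg_right
      (mul_le_mul_of_nonneg_left hk1 (by positivity)) (by norm_num)))
  have e2 := exp_neg_le (φ ^ 2 * y ^ 4 / 64) (by positivity) 10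
  have e3 : 4 * q ^ 3 * ((Nat.factorial 10 : ℝ) / (φ ^ 2 * y ^ 4 / 64) ^ 10) =
      4 * (Nat.factorial 10 : ℝ) * (64 / φ ^ 2) ^ 10 / y ^ 4 := by
    rw [← hy]; field_simp
  calc _ ≤ 4 * q ^ 3 * ((Nat.factorial 10 : ℝ) / (φ ^ 2 * y ^ 4 / 64) ^ 10) :=
        mul_le_mul (by linarith) (e1.trans e2) (by positivity) (by positivity)
    _ < 1 := by rw [e3, div_lt_one (by positivity)]; linarith

theorem num_u0 (γ φ η y : ℝ) (k : ℕ) (hφ : 0 < φ) (hη : 0 < η) (hy1 : 1 ≤ y)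
    (hk2 : (k : ℝ) ≤ 2 * y ^ 4) (y4 : γ ^ 2 / (256 * φ * η) ≤ y) :
    γ ^ 2 * y ^ 12 * k ≤ 1024 * φ * (η * y ^ 18 / 2) := by
  have hy0 : 0 < y := by linarith
  rw [div_le_iff₀ (by positivity)] at y4
  have e1 : γ ^ 2 * y ^ 12 * k ≤ γ ^ 2 * y ^ 12 * (2 * y ^ 4) :=
    mul_le_mul_of_nonneg_left hk2 (by positivity)
  have e2 : γ ^ 2 * (2 * y ^ 16) ≤ y * (256 * φ * η) * (2 * y ^ 16) :=
    mul_le_mul_of_nonneg_right y4 (by positivity)
  have e3 : y ^ 17 ≤ y ^ 18 := pow_le_pow_right₀ hy1 (by norm_num)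
  have e4 : (512 * φ * η) * y ^ 17 ≤ (512 * φ * η) * y ^ 18 :=
    mul_le_mul_of_nonneg_left e3 (by positivity)
  linarith

theorem num_u1 (c η y : ℝ) (hc : 0 < c) (hη : 0 < η) (hy1 : 1 ≤ y) (y5 : 4 / (c * η) ≤ y) :
    2 * y ^ 12 ≤ c * (η * y ^ 18 / 2) := by
  have hy0 : 0 < y := by linarith
  rw [div_le_iff₀ (by positivity)] at y5
  have e2 : 4 * y ^ 12 ≤ y * (c * η) * y ^ 12 := mul_le_mul_of_nonneg_right y5 (by positivity)
  have e3 : y ^ 13 ≤ y ^ 18 := pow_le_pow_right₀ hy1 (by norm_num)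
  have e4 : (c * η) * y ^ 13 ≤ (c * η) * y ^ 18 := mul_le_mul_of_nonneg_left e3 (by positivity)
  linarith

theorem num_B (J q : ℝ) (hJ : 0 ≤ J) (h : 80 * (2 * J + 1) ≤ q) :
    (q + 1) * ((2 * J + 1) / q ^ 6) ≤ 1 / 40 := by
  have hq : 1 ≤ q := by linarith
  rw [← mul_div_assoc, div_le_iff₀ (by positivity)]
  have e1 : q ^ 2 ≤ q ^ 6 := pow_le_pow_right₀ hq (by norm_num)
  nlinarith

theorem num_delta (M q : ℝ) (n : ℕ) (hq2 : 2 ≤ q) (hn : (n : ℝ) ≤ 2 * M * q) :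
    2 * (Real.exp (-(4 * M)) / 2) ≤ (1 - 1 / q) ^ n := by
  have hqpos : 0 < q := by linarith
  have e1 := pat_exp_le (x := 1 / q) (by positivity) (one_div_le_one_div_of_le (by norm_num) hq2)
  refine le_trans ?_ (pow_le_pow_left₀ (Real.exp_pos _).le e1 _)
  rw [← Real.exp_nat_mul, mul_div_cancel₀ _ (by norm_num)]
  refine Real.exp_le_exp.2 ?_
  have : (n : ℝ) * (1 / q) ≤ 2 * M := by
    rw [mul_one_div, div_le_iff₀ hqpos]; exact hn
  linarith

theorem num_R (M q ε n N : ℝ) (hM : 0 < M) (hq : 0 < q) (hε : 0 < ε) (hn : n ≤ 3 * M * q)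
    (hN : N ≤ q ^ 3) (hN0 : 0 ≤ N) (y7 : 28800 * M / (ε ^ 2 / (128 * M)) ^ 5 ≤ q) :
    n * (N * (2 * Real.exp (-((ε / 4 * q) ^ 2 / (4 * (2 * M * q)))))) ≤ 1 / 40 := by
  set a := ε ^ 2 / (128 * M) with ha
  have ha0 : 0 < a := by positivity
  have e1 : (ε / 4 * q) ^ 2 / (4 * (2 * M * q)) = a * q := by rw [ha]; field_simp; ring
  rw [e1]
  have e2 := exp_neg_le (a * q) (by positivity) 5
  calc _ ≤ (3 * M * q) * (q ^ 3 * (2 * ((Nat.factorial 5 : ℝ) / (a * q) ^ 5))) := by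
        refine mul_le_mul hn (mul_le_mul hN (by linarith)
          (by positivity) (by positivity)) (by positivity) (by positivity)
    _ = 720 * M / a ^ 5 / q := by
        rw [show (Nat.factorial 5 : ℝ) = 120 by norm_num [Nat.factorial]]; field_simp; ring
    _ ≤ 1 / 40 := by
        rw [div_le_iff₀ hq]
        have : 720 * M / a ^ 5 = (28800 * M / a ^ 5) / 40 := by ring
        linarith

theorem num_s (M y : ℝ) (hM : 0 ≤ M) (hy1 : 1 ≤ y) (y2 : 48 * M ≤ y) :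
    8 * (6 * Real.log y) * Real.exp (6 * Real.log y) * M ≤ y ^ 12 := by
  have hy0 : 0 < y := by linarith
  have hly0 : 0 ≤ Real.log y := Real.log_nonneg hy1
  have hly : Real.log y ≤ y := (Real.log_le_sub_one_of_pos hy0).trans (by linarith)
  have e1 : Real.exp (6 * Real.log y) = y ^ 6 := by
    rw [show (6 : ℝ) = ((6 : ℕ) : ℝ) by norm_num, Real.exp_nat_mul, Real.exp_log hy0]
  rw [e1]
  have h2 : 8 * (6 * Real.log y) * M ≤ y ^ 6 := by
    have h3 : y * y ≤ y ^ 6 := by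
      rw [← sq]; exact pow_le_pow_right₀ hy1 (by norm_num)
    nlinarith
  have : y ^ 12 = y ^ 6 * y ^ 6 := by ring
  nlinarith [pow_pos hy0 6]

theorem num_k (c ε y : ℝ) (k : ℕ) (hc : 0 < c * ε) (hy1 : 1 ≤ y) (hk2 : (k : ℝ) ≤ 2 * y ^ 4)
    (hcε : 2 ≤ c * ε * y) : (k : ℝ) ≤ c * ε * y ^ 12 := by
  have e1 : y ^ 5 ≤ y ^ 12 := pow_le_pow_right₀ hy1 (by norm_num)
  have e2 : 2 * y ^ 4 ≤ c * ε * y * y ^ 4 := mul_le_mul_of_nonneg_right hcε (by positivity)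
  have e3 : c * ε * y ^ 5 ≤ c * ε * y ^ 12 := mul_le_mul_of_nonneg_left e1 hc.le
  linarith

theorem num_A (M J T c φ ε y n Ln : ℝ) (qn f k N : ℕ) (hM : 0 < M) (hJ : 0 ≤ J) (hT : 0 < T)
    (hc : c = 1 / (400 * T)) (hε : 0 < ε) (hy1 : 1 ≤ y) (hy : y ^ 12 = qn)
    (hn : n ≤ 3 * M * qn) (hLn0 : 0 ≤ Ln) (hLn : Ln ≤ Real.exp (3 * Real.log qn))
    (hf2 : (f : ℝ) ≤ c * ε * qn) (hk3 : (k : ℝ) ≤ c * ε * qn)
    (hN2 : (N : ℝ) ≤ (3 + 64 / φ ^ 2) * qn)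
    (y8 : Real.exp (64 * T * (6 + 64 / φ ^ 2) / ε) ≤ y) (y9 : 240 * M * J ≤ qn) :
    n * ((Ln ^ (f + k) * 2 ^ N * 2 ^ (2 * qn)) *
      (J * Real.exp (-(6 * Real.log y * ε * qn / (16 * T))))) ≤ 1 / 40 := by
  set q : ℝ := (qn : ℝ) with hqd
  have hy0 : 0 < y := by linarith
  have hqpos : 0 < q := by rw [← hy]; positivity
  have hly0 : 0 ≤ Real.log y := Real.log_nonneg hy1
  have hc0 : 0 < c := by rw [hc]; positivity
  have hxy : Real.log q = 12 * Real.log y := by rw [← hy, Real.log_pow]; norm_num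
  have e1 : Ln ^ (f + k) ≤ Real.exp (72 * Real.log y * (c * ε * q)) := by
    calc Ln ^ (f + k) ≤ Real.exp (3 * Real.log q) ^ (f + k) := pow_le_pow_left₀ hLn0 hLn _
      _ = Real.exp ((f + k : ℕ) * (3 * Real.log q)) := (Real.exp_nat_mul _ _).symm
      _ ≤ _ := Real.exp_le_exp.2 (by
          rw [hxy]; push_cast
          have := mul_le_mul_of_nonneg_left (add_le_add hf2 hk3) hly0
          linarith)
  have h2e : (2 : ℝ) ≤ Real.exp 1 := by
    have := Real.add_one_le_exp (1 : ℝ); linarith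
  have e2 : (2 : ℝ) ^ N ≤ Real.exp ((3 + 64 / φ ^ 2) * q) := by
    calc (2 : ℝ) ^ N ≤ Real.exp 1 ^ N := pow_le_pow_left₀ (by norm_num) h2e _
      _ = Real.exp (N * 1) := (Real.exp_nat_mul _ _).symm
      _ ≤ _ := Real.exp_le_exp.2 (by linarith)
  have e3 : (2 : ℝ) ^ (2 * qn) ≤ Real.exp (2 * q) := by
    calc (2 : ℝ) ^ (2 * qn) ≤ Real.exp 1 ^ (2 * qn) := pow_le_pow_left₀ (by norm_num) h2e _
      _ = Real.exp ((2 * qn : ℕ) * 1) := (Real.exp_nat_mul _ _).symm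
      _ ≤ _ := Real.exp_le_exp.2 (by push_cast; rw [← hqd]; linarith)
  have e4 : 64 * T * (6 + 64 / φ ^ 2) / ε ≤ Real.log y := by
    rw [Real.le_log_iff_exp_le hy0]; exact y8
  have e5 : 72 * Real.log y * (c * ε * q) + (3 + 64 / φ ^ 2) * q + 2 * q +
      -(6 * Real.log y * ε * q / (16 * T)) ≤ -q := by
    rw [div_le_iff₀ hε] at e4
    have e6 : 72 * Real.log y * (c * ε * q) = (72 / 400) * (Real.log y * ε / T * q) := by
      rw [hc]; field_simp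
    have e7 : 6 * Real.log y * ε * q / (16 * T) = (6 / 16) * (Real.log y * ε / T * q) := by
      field_simp
    have e8 : 64 * (6 + 64 / φ ^ 2) ≤ Real.log y * ε / T := by
      rw [le_div_iff₀ hT]; linarith
    have e9 : 0 ≤ 64 / φ ^ 2 * q := by positivity
    rw [e6, e7]
    have e10 : 64 * (6 + 64 / φ ^ 2) * q ≤ Real.log y * ε / T * q :=
      mul_le_mul_of_nonneg_right e8 hqpos.le
    linarith
  have e6 := exp_neg_le q hqpos 2
  calc _ ≤ (3 * M * q) * ((Real.exp (72 * Real.log y * (c * ε * q)) *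
          Real.exp ((3 + 64 / φ ^ 2) * q) * Real.exp (2 * q)) *
        (J * Real.exp (-(6 * Real.log y * ε * q / (16 * T))))) := by
        refine mul_le_mul hn (mul_le_mul_of_nonneg_right
          (mul_le_mul (mul_le_mul e1 e2 (by positivity) (by positivity)) e3 (by positivity)
            (by positivity)) (by positivity)) (by positivity) (by positivity)
    _ = (3 * M * q * J) * Real.exp (72 * Real.log y * (c * ε * q) + (3 + 64 / φ ^ 2) * q +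
          2 * q + -(6 * Real.log y * ε * q / (16 * T))) := by
        rw [Real.exp_add, Real.exp_add, Real.exp_add]; ring
    _ ≤ (3 * M * q * J) * ((Nat.factorial 2 : ℝ) / q ^ 2) :=
        mul_le_mul_of_nonneg_left ((Real.exp_le_exp.2 e5).trans e6) (by positivity)
    _ = 6 * M * J / q := by
        rw [show (Nat.factorial 2 : ℝ) = 2 by norm_num [Nat.factorial]]; field_simp; ring
    _ ≤ 1 / 40 := by rw [div_le_iff₀ hqpos]; linarith

theorem le_mul_of_div_le {a b y q : ℝ} (hb : 0 < b) (h : a / b ≤ y) (hyq : y ≤ q) : a ≤ b * q := by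
  have := h.trans hyq
  rw [div_le_iff₀ hb] at this
  linarith

theorem cover_gen (M : ℕ) (hM1 : 1 ≤ M) (η : ℝ) (hη : 0 < η) :
    ∃ q₀ : ℕ, ∀ (F ι : Type) [Field F] [Fintype F] [DecidableEq F] [Fintype ι] [DecidableEq ι]
      (dir : ι → Dir F), (∀ d, (univ.filter (fun i => dir i = d)).card ≤ M) →
      Fintype.card ι ≤ 2 * M * Fintype.card F → q₀ ≤ Fintype.card F →
      pr (fun ω : ι → F => ¬ CoverProp dir ω (η * Fintype.card F)) ≤ 1 / 10 := by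
  classical
  obtain ⟨J, hJ⟩ : ∃ J : ℕ, J = 16 * M := ⟨_, rfl⟩
  have hT : (1 : ℝ) ≤ 2 ^ J := one_le_pow₀ (by norm_num)
  have hM1' : (1 : ℝ) ≤ M := by exact_mod_cast hM1
  obtain ⟨δ, hδ⟩ : ∃ δ : ℝ, δ = Real.exp (-(4 * M)) / 2 := ⟨_, rfl⟩
  have hδ0 : 0 < δ := by rw [hδ]; positivity
  have hδ1 : δ ≤ 1 := by
    have : Real.exp (-(4 * M)) ≤ 1 := Real.exp_le_one_iff.2 (by linarith)
    rw [hδ]; linarith
  obtain ⟨γ, φ, ε, hγ, hφ, hε, b1, b2, b3, b4, b5, b6, b7, b8, b9, b10, b11, b12, b13⟩ :=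
    exists_consts (2 ^ J) δ hT hδ0 hδ1
  obtain ⟨c, hc⟩ : ∃ c : ℝ, c = 1 / (400 * 2 ^ J) := ⟨_, rfl⟩
  rw [← hc] at b5
  have hc0 : 0 < c := by rw [hc]; positivity
  have hc1 : c ≤ 1 := by rw [hc, div_le_one (by positivity)]; linarith
  have b14 : 2048 * φ ≤ c * γ ^ 2 := by
    have : c * γ ^ 2 * δ ^ 2 ≤ c * γ ^ 2 * 1 :=
      mul_le_mul_of_nonneg_left (pow_le_one₀ hδ0.le hδ1) (by positivity)
    linarith
  have b15 : c * ε ≤ φ / 4 := by
    have : c * ε ≤ 1 * ε := mul_le_mul_of_nonneg_right hc1 hε.le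
    linarith
  have b16 : 2 ^ J * 8 * γ < 1 := by
    have : (0 : ℝ) < 2 ^ J * γ := by positivity
    linarith
  obtain ⟨η', hη'⟩ : ∃ η' : ℝ, η' = min η 1 := ⟨_, rfl⟩
  have hη'0 : 0 < η' := by rw [hη']; positivity
  have hev : ∀ᶠ y : ℝ in Filter.atTop, 2 ≤ y ∧ 48 * (M : ℝ) ≤ y ∧ 32 / γ ≤ y ∧
      γ ^ 2 / (256 * φ * η') ≤ y ∧ 4 / (c * η') ≤ y ∧
      4 * (Nat.factorial 10 : ℝ) * (64 / φ ^ 2) ^ 10 + 1 ≤ y ∧
      28800 * M / (ε ^ 2 / (128 * M)) ^ 5 ≤ y ∧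
      Real.exp (64 * 2 ^ J * (6 + 64 / φ ^ 2) / ε) ≤ y ∧ 240 * (M : ℝ) * J ≤ y ∧
      80 * (2 * (J : ℝ) + 1) ≤ y ∧ 4 * M / ε ≤ y ∧ 2 / (c * ε) ≤ y ∧ 4 / δ ≤ y ∧
      γ * δ / (64 * φ * ε) ≤ y := by
    simp only [Filter.eventually_and, Filter.eventually_ge_atTop, and_self]
  obtain ⟨Y, hY⟩ := Filter.eventually_atTop.1 hev
  refine ⟨⌈(max Y 1) ^ 12⌉₊, fun F ι _ _ _ _ _ dir hM hι hq₀ => ?_⟩
  have hqpos : (0 : ℝ) < Fintype.card F := by exact_mod_cast Fintype.card_pos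
  obtain ⟨y, hy, hyY⟩ : ∃ y : ℝ, y ^ 12 = Fintype.card F ∧ Y ≤ y := by
    refine ⟨(Fintype.card F : ℝ) ^ ((12 : ℕ) : ℝ)⁻¹, Real.rpow_inv_natCast_pow hqpos.le
      (by norm_num), (le_max_left Y 1).trans ?_⟩
    refine le_of_pow_le_pow_left₀ (n := 12) (by norm_num) (by positivity) ?_
    rw [Real.rpow_inv_natCast_pow hqpos.le (by norm_num)]
    exact (Nat.le_ceil _).trans (by exact_mod_cast hq₀)
  obtain ⟨y1, y2, y3, y4, y5, y6, y7, y8, y9, y10, y11, y12, y13, y14⟩ := hY y hyY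
  clear hev hY hyY hq₀
  have hy0 : 0 < y := by linarith
  have hy1 : 1 ≤ y := by linarith
  have hyq : y ≤ Fintype.card F := by rw [← hy]; exact le_self_pow₀ hy1 (by norm_num)
  have hy4 : y ≤ y ^ 4 := le_self_pow₀ hy1 (by norm_num)
  have hq48 : 48 * M ≤ Fintype.card F := by exact_mod_cast y2.trans hyq
  have hJ' : Fintype.card ι ≤ J * (Fintype.card F / 4) := by
    refine hι.trans ?_
    rw [hJ]
    have h8 : Fintype.card F ≤ 8 * (Fintype.card F / 4) := by omega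
    calc 2 * M * Fintype.card F ≤ 2 * M * (8 * (Fintype.card F / 4)) := Nat.mul_le_mul_left _ h8
      _ = _ := by ring
  have hιq : Fintype.card ι ≤ Fintype.card F ^ 2 := by
    refine hι.trans ?_
    rw [sq]
    exact Nat.mul_le_mul_right _ (by omega)
  have hι' : (Fintype.card ι : ℝ) ≤ 2 * M * Fintype.card F := by exact_mod_cast hι
  have hι2 : ((Fintype.card ι + 1 : ℕ) : ℝ) ≤ 3 * M * Fintype.card F := by
    have : (1 : ℝ) * 1 ≤ M * Fintype.card F := mul_le_mul hM1' (by linarith) zero_le_one (by linarith)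
    push_cast; linarith
  obtain ⟨k, hk⟩ : ∃ k : ℕ, k = ⌈y ^ 4⌉₊ := ⟨_, rfl⟩
  have hk1 : y ^ 4 ≤ k := by rw [hk]; exact Nat.le_ceil _
  have hk2 : (k : ℝ) ≤ 2 * y ^ 4 := by
    have : (k : ℝ) < y ^ 4 + 1 := by rw [hk]; exact Nat.ceil_lt_add_one (by positivity)
    linarith
  have hk0 : 0 < k := by
    have : (0 : ℝ) < k := by linarith
    exact_mod_cast this
  have hLn3 : (Fintype.card (Ln F) : ℝ) ≤ (Fintype.card F : ℝ) ^ 3 := by
    have h2 : 2 ≤ Fintype.card F := by omega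
    have : Fintype.card (Ln F) ≤ Fintype.card F ^ 3 := by rw [card_Ln]; nlinarith
    exact_mod_cast this
  have h1 := num_h1 _ φ y _ k hφ hy hy1 hLn3 hk1 y6
  have hB := caseB dir M hM J hJ' γ φ c ε k hγ hφ hc hε (by linarith) b4 (by linarith)
    b16 b6 b7 b8 b9 b14 y hy y1 y2 hk1 (le_mul_of_div_le hγ y3 (hy4.trans hk1)) h1
    (η' * y ^ 18 / 2) (by rw [← hy]; exact num_u0 γ φ η' y k hφ hη'0 hy1 hk2 y4)
    (by rw [← hy]; exact num_u1 c η' y hc0 hη'0 hy1 y5)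
  have hB' := num_B J (Fintype.card F) (Nat.cast_nonneg _) (y10.trans hyq)
  have hδq : 2 * δ ≤ (1 - 1 / (Fintype.card F : ℝ)) ^ Fintype.card ι := by
    rw [hδ]; exact num_delta M _ _ (y1.trans hyq) hι'
  have hεq : 4 * (M : ℝ) ≤ ε * Fintype.card F := le_mul_of_div_le hε y11 hyq
  have hR : pr (fun ω : ι → F => ∃ κ ∈ range (Fintype.card ι + 1),
      ¬ Reg dir (pre ι κ) ω δ ε) ≤ 1 / 40 := by
    refine (pr_exists_mem_le_mul _ _ _ fun κ _ => reg_prob dir M hM (pre ι κ) δ ε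
      (2 * M * Fintype.card F) hε (by linarith) (by positivity) hι' hδq hεq (by linarith)).trans ?_
    rw [card_range]
    exact num_R M _ ε _ _ (by linarith) hqpos hε hι2 hLn3 (Nat.cast_nonneg _) (y7.trans hyq)
  obtain ⟨f, hf⟩ : ∃ f : ℕ, f = ⌈c * ε * Fintype.card F / 2⌉₊ := ⟨_, rfl⟩
  have hcε : 2 ≤ c * ε * y := le_mul_of_div_le (by positivity) y12 le_rfl
  have hcεq : 2 ≤ c * ε * Fintype.card F := le_mul_of_div_le (by positivity) y12 hyq
  have hf1 : c * ε * Fintype.card F / 2 ≤ f := by rw [hf]; exact Nat.le_ceil _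
  have hf2 : (f : ℝ) ≤ c * ε * Fintype.card F := by
    have : (f : ℝ) < c * ε * Fintype.card F / 2 + 1 := by
      rw [hf]; exact Nat.ceil_lt_add_one (by positivity)
    linarith
  have hk3 : (k : ℝ) ≤ c * ε * Fintype.card F := by
    rw [← hy]; exact num_k c ε y k (by positivity) hy1 hk2 hcε
  obtain ⟨N, hN⟩ : ∃ N : ℕ, N = ⌈(2 + 64 / φ ^ 2) * Fintype.card F⌉₊ := ⟨_, rfl⟩
  have hN1 : (2 + 64 / φ ^ 2) * Fintype.card F ≤ N := by rw [hN]; exact Nat.le_ceil _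
  have hN2 : (N : ℝ) ≤ (3 + 64 / φ ^ 2) * Fintype.card F := by
    have : (N : ℝ) < (2 + 64 / φ ^ 2) * Fintype.card F + 1 := by
      rw [hN]; exact Nat.ceil_lt_add_one (by positivity)
    linarith
  have hly0 : 0 ≤ Real.log y := Real.log_nonneg hy1
  have hA1 : 2048 * φ * ε * Fintype.card F ≤ γ ^ 2 * δ ^ 2 * f := by
    have e1 : γ ^ 2 * δ ^ 2 * (c * ε * Fintype.card F / 2) ≤ γ ^ 2 * δ ^ 2 * f :=
      mul_le_mul_of_nonneg_left hf1 (by positivity)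
    have e2 : 2048 * φ * ε * Fintype.card F = γ ^ 2 * δ ^ 2 * (c * ε * Fintype.card F / 2) := by
      have : φ = c * γ ^ 2 * δ ^ 2 / 4096 := by linarith
      rw [this]; ring
    rw [e2]; exact e1
  have hA2 : (f : ℝ) ≤ φ * Fintype.card F / 4 := by
    have := mul_le_mul_of_nonneg_right b15 hqpos.le
    linarith
  have hA : pr (fun ω : ι → F => ∃ κ ∈ range (Fintype.card ι + 1),
      Reg dir (pre ι κ) ω δ ε ∧ ∃ L : Finset (Ln F), L.card = Fintype.card F ∧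
        (∀ i, (dir i, ω i) ∉ L) ∧ Disjoint (unc L) (free dir univ ω) ∧
        ε * (Fintype.card F : ℝ) ^ 2 / 2 ≤ (free dir (pre ι κ) ω ∩ unc L).card ∧
        ((free dir (pre ι κ) ω ∩ unc L).card : ℝ) ≤ ε * (Fintype.card F : ℝ) ^ 2) ≤ 1 / 40 := by
    refine (pr_exists_mem_le_mul _ _ _ fun κ _ => caseA_stage dir M hM J hJ' (pre ι κ) δ γ φ ε
      f k N hδ0 hγ hφ hε b3 b1 b2 b6 b10 b11 b12 hk0 (le_mul_of_div_le hδ0 y13 hyq) h1 hA1
      (le_mul_of_div_le (by positivity) y14 hyq) hA2 hN1 (6 * Real.log y) (by positivity)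
      (by rw [← hy]; exact num_s M y (by linarith) hy1 y2)).trans ?_
    rw [card_range]
    exact num_A M J (2 ^ J) c φ ε y _ _ _ f k N (by linarith) (Nat.cast_nonneg _) (by linarith) hc
      hε hy1 hy hι2 (Nat.cast_nonneg _) (card_Ln_le_exp (by omega)) hf2 hk3 hN2 y8 (y9.trans hyq)
  refine le_trans (pr_mono fun ω hω => ?_) (((pr_or_le _ _).trans (add_le_add (hB.trans hB')
    ((pr_or_le _ _).trans (add_le_add hR hA)))).trans (by norm_num))
  obtain ⟨L, hL, hLΛ, hdisj, hu⟩ := cover_reduce dir ω hιq η η' y hη'0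
    (by rw [hη']; exact min_le_left _ _) (by rw [hη']; exact min_le_right _ _) hy y1 hω
  by_cases hcase : ((unc L).card : ℝ) ≤ ε * (Fintype.card F : ℝ) ^ 2
  · exact Or.inl ⟨L, hL, hu, hcase, hdisj⟩
  · right
    obtain ⟨κ, hκ, h3, h4⟩ := exists_stage dir ω (unc L) (ε * (Fintype.card F : ℝ) ^ 2)
      (by positivity) (not_le.1 hcase) hdisj
    by_cases hreg : Reg dir (pre ι κ) ω δ ε
    · refine Or.inr ⟨κ, hκ, hreg, L, hL, hLΛ, hdisj, le_trans ?_ h3, h4⟩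
      have e1 : 2 * (Fintype.card F : ℝ) ≤ ε * Fintype.card F * Fintype.card F :=
        mul_le_mul_of_nonneg_right (by linarith) hqpos.le
      linarith
    · exact Or.inl ⟨κ, hκ, hreg⟩

theorem cover_lab (K : Type) [Fintype K] [DecidableEq K] [Nonempty K] (η : ℝ) (hη : 0 < η) :
    ∃ q₀ : ℕ, ∀ (F : Type) [Field F] [Fintype F] [DecidableEq F], q₀ ≤ Fintype.card F →
      pr (fun ω : Option F × K → F => ¬ CoverProp Prod.fst ω (η * Fintype.card F)) ≤ 1 / 10 := by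
  obtain ⟨q₀, h⟩ := cover_gen (Fintype.card K) Fintype.card_pos η hη
  refine ⟨q₀, fun F _ _ _ hq => h F (Option F × K) Prod.fst (fun d => ?_) ?_ hq⟩
  · have : univ.filter (fun i : Option F × K => i.1 = d) = univ.image (fun b : K => (d, b)) := by
      ext ⟨e, b⟩
      simp [eq_comm]
    rw [this]
    exact card_image_le
  · have : 1 ≤ Fintype.card F := Fintype.card_pos
    rw [Fintype.card_prod, Fintype.card_option]
    nlinarith

theorem cover_prob (η : ℝ) (hη : 0 < η) :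
    ∃ q₀ : ℕ, ∀ (F : Type) [Field F] [Fintype F] [DecidableEq F], q₀ ≤ Fintype.card F →
      pr (fun ω : Idx F → F => ¬ CoverProp Prod.fst ω (η * Fintype.card F)) ≤ 1 / 10 :=
  cover_lab Lab η hη

end Crest.Agent.R34
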