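import Crest.Agent.R34.Core

/-! Deterministic lemmas for the covering theorem. -/

set_option autoImplicit false

namespace Crest.Agent.R34

open Finset

variable {F : Type} [Field F] [Fintype F] [DecidableEq F]

theorem mult_eq_zero {L : Finset (Ln F)} {p : Pt F} : mult L p = 0 ↔ p ∈ unc L := by
  simp [mult, mem_unc]

/-- lines different from `l` cover at most one point of `l` each -/
theorem card_covered_le (l : Ln F) (T : Finset (Ln F)) (hl : l ∉ T) (X : Finset (Pt F))
    (hX : ∀ p ∈ X, On p l ∧ ∃ l' ∈ T, On p l') : X.card ≤ T.card := by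
  have : X ⊆ T.biUnion (fun l' => pts l ∩ pts l') := by
    intro p hp
    obtain ⟨h1, l', hl', h2⟩ := hX p hp
    exact mem_biUnion.2 ⟨l', hl', by simp [h1, h2]⟩
  refine (card_le_card this).trans (card_biUnion_le.trans ?_)
  calc ∑ l' ∈ T, (pts l ∩ pts l').card ≤ ∑ _l' ∈ T, 1 :=
        sum_le_sum fun l' hl' => card_inter_pts_le_one (fun e => hl (e ▸ hl'))
    _ = T.card := by simp

theorem excess_add (B : Finset (Pt F)) (L : Finset (Ln F)) :
    excess B L + B.card = ∑ l ∈ L, (B ∩ pts l).card + (B ∩ unc L).card := by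
  rw [sum_card_inter, excess, card_eq_sum_ones, ← sum_add_distrib]
  have : (B ∩ unc L).card = ∑ p ∈ B, if p ∈ unc L then 1 else 0 := by
    rw [← card_filter, filter_mem_eq_inter]
  rw [this, ← sum_add_distrib]
  refine sum_congr rfl fun p _ => ?_
  by_cases h : p ∈ unc L
  · rw [if_pos h, mult_eq_zero.2 h]
  · rw [if_neg h]
    have : mult L p ≠ 0 := fun e => h (mult_eq_zero.1 e)
    omega

theorem excess_univ (L : Finset (Ln F)) (hL : L.card = Fintype.card F) :
    excess univ L = (unc L).card := by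
  have h := excess_add univ L
  simp only [univ_inter, card_pts, sum_const, smul_eq_mul, card_univ, card_Pt, hL] at h
  nlinarith

theorem sum_mult_sq_le (L : Finset (Ln F)) :
    ∑ p : Pt F, mult L p * (mult L p - 1) ≤ L.card * (L.card - 1) := by
  have h1 : ∑ p : Pt F, mult L p * (mult L p - 1) =
      ∑ l ∈ L, ∑ p ∈ pts l, (mult L p - 1) := by
    simp only [pts, sum_filter]
    rw [sum_comm]
    refine sum_congr rfl fun p _ => ?_
    rw [← sum_filter, sum_const, smul_eq_mul]; rfl
  rw [h1]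
  calc ∑ l ∈ L, ∑ p ∈ pts l, (mult L p - 1) ≤ ∑ _l ∈ L, (L.card - 1) := by
        refine sum_le_sum fun l hl => ?_
        have h2 : ∀ p ∈ pts l, mult L p - 1 = mult (L.erase l) p := by
          intro p hp
          have hp' : On p l := mem_pts.1 hp
          simp only [mult]
          rw [filter_erase, card_erase_of_mem (mem_filter.2 ⟨hl, hp'⟩)]
        rw [sum_congr rfl h2, ← sum_card_inter, ← card_erase_of_mem hl, card_eq_sum_ones]
        exact sum_le_sum fun l' hl' => card_inter_pts_le_one (ne_of_mem_erase hl').symm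
    _ = L.card * (L.card - 1) := by simp

/-- the lower bound for the number of uncovered points -/
theorem erdos_lovasz (L : Finset (Ln F)) (hL : L.card = Fintype.card F) (κ x : ℝ)
    (hx : 1 ≤ x) (h : ∀ z : PPt F, κ ≤ ((L.filter (fun l => ¬ thru z l)).card : ℝ)) :
    (Fintype.card F : ℝ) * (Fintype.card F - 1) ≤ x * ((unc L).card + Fintype.card F) ∨
      κ * (x - 1) ≤ (unc L).card := by
  by_cases hm : ∀ z : PPt F, ((L.filter (fun l => thru z l)).card : ℝ) ≤ x
  · left
    have h1 : ∀ l ∈ L, L.card - 1 ≤ ∑ p ∈ pts l, (mult L p - 1) +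
        (L.filter (fun l' => thru (Sum.inr l.1) l')).card := by
      intro l hl
      have h2 : ∀ p ∈ pts l, mult L p - 1 = mult (L.erase l) p := by
        intro p hp
        have hp' : On p l := mem_pts.1 hp
        simp only [mult]
        rw [filter_erase, card_erase_of_mem (mem_filter.2 ⟨hl, hp'⟩)]
      rw [sum_congr rfl h2, ← card_erase_of_mem hl]
      have h3 : L.erase l ⊆ (pts l).biUnion (fun p => (L.erase l).filter (fun l' => On p l')) ∪
          L.filter (fun l' => thru (Sum.inr l.1) l') := by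
        intro l' hl'
        by_cases hd : l'.1 = l.1
        · exact mem_union_right _ (mem_filter.2 ⟨mem_of_mem_erase hl', hd⟩)
        · exact mem_union_left _ (mem_biUnion.2 ⟨meet l' l, mem_pts.2 (meet_on_right hd),
            mem_filter.2 ⟨hl', meet_on_left hd⟩⟩)
      exact (card_le_card h3).trans ((card_union_le _ _).trans
        (Nat.add_le_add_right card_biUnion_le _))
    have h4 : ∑ l ∈ L, ∑ p ∈ pts l, (mult L p - 1) = ∑ p : Pt F, mult L p * (mult L p - 1) := by
      simp only [pts, sum_filter]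
      rw [sum_comm]
      refine sum_congr rfl fun p _ => ?_
      rw [← sum_filter, sum_const, smul_eq_mul]; rfl
    have h5 : ((∑ p : Pt F, mult L p * (mult L p - 1) : ℕ) : ℝ) ≤ x * (unc L).card := by
      rw [← excess_univ L hL, excess]
      push_cast
      rw [mul_sum]
      refine sum_le_sum fun p _ => mul_le_mul_of_nonneg_right (hm (Sum.inl p)) (Nat.cast_nonneg _)
    have h6 : ((∑ l ∈ L, (L.filter (fun l' => thru (Sum.inr l.1) l')).card : ℕ) : ℝ) ≤
        x * Fintype.card F := by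
      push_cast
      calc ∑ l ∈ L, ((L.filter (fun l' => thru (Sum.inr l.1) l')).card : ℝ) ≤ ∑ _l ∈ L, x :=
            sum_le_sum fun l _ => hm _
        _ = x * Fintype.card F := by rw [sum_const, hL, nsmul_eq_mul, mul_comm]
    have h7 := sum_le_sum h1
    rw [sum_add_distrib, h4, sum_const, smul_eq_mul, hL] at h7
    have hq : 1 ≤ Fintype.card F := Fintype.card_pos
    have h8 : ((Fintype.card F * (Fintype.card F - 1) : ℕ) : ℝ) =
        (Fintype.card F : ℝ) * (Fintype.card F - 1) := by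
      push_cast [Nat.cast_sub hq]; ring
    have h9 : ((Fintype.card F * (Fintype.card F - 1) : ℕ) : ℝ) ≤
        ((∑ p : Pt F, mult L p * (mult L p - 1) : ℕ) : ℝ) +
          ((∑ l ∈ L, (L.filter (fun l' => thru (Sum.inr l.1) l')).card : ℕ) : ℝ) := by
      exact_mod_cast h7
    rw [h8] at h9
    linarith
  · right
    push Not at hm
    obtain ⟨z, hz⟩ := hm
    set m := (L.filter (fun l => thru z l)).card with hm
    set t := (L.filter (fun l => ¬ thru z l)).card with ht
    have hmt : m + t = Fintype.card F := by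
      rw [hm, ht, card_filter_add_card_filter_not, hL]
    have hm1 : 1 ≤ m := by
      have : (1 : ℝ) < m := lt_of_le_of_lt hx hz
      exact_mod_cast this.le
    set M := (univ.filter (fun l : Ln F => thru z l)).filter (fun l => l ∉ L) with hM
    have hMc : t ≤ M.card := by
      have h1 := card_thru_ge z
      have h2 := card_filter_add_card_filter_not (s := univ.filter (fun l : Ln F => thru z l))
        (fun l => l ∈ L)
      have h3 : ((univ.filter (fun l : Ln F => thru z l)).filter (fun l => l ∈ L)).card = m := by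
        rw [hm]; congr 1; ext l; simp [and_comm]
      have h4 : ((univ.filter (fun l : Ln F => thru z l)).filter (fun l => ¬ l ∈ L)).card
          = M.card := by rw [hM]
      omega
    -- each missing line has at least `m - 1` uncovered points
    have hline : ∀ l ∈ M, m - 1 ≤ (unc L ∩ pts l).card := by
      intro l hl
      simp only [hM, mem_filter, mem_univ, true_and] at hl
      have h1 : pts l ⊆ (unc L ∩ pts l) ∪ ((pts l).filter (fun p => z = Sum.inl p) ∪
          (pts l).filter (fun p => ∃ l' ∈ L.filter (fun l => ¬ thru z l), On p l')) := by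
        intro p hp
        by_cases hu : p ∈ unc L
        · exact mem_union_left _ (mem_inter.2 ⟨hu, hp⟩)
        · refine mem_union_right _ ?_
          rw [mem_unc] at hu
          push Not at hu
          obtain ⟨l', hl', hp'⟩ := hu
          by_cases hz' : thru z l'
          · refine mem_union_left _ (mem_filter.2 ⟨hp, ?_⟩)
            exact eq_of_thru (fun e : l = l' => hl.2 (e ▸ hl')) hl.1 hz' (mem_pts.1 hp) hp'
          · exact mem_union_right _ (mem_filter.2 ⟨hp, l', mem_filter.2 ⟨hl', hz'⟩, hp'⟩)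
      have h2 : ((pts l).filter (fun p => z = Sum.inl p)).card ≤ 1 := by
        rw [card_le_one]
        intro a ha b hb
        exact Sum.inl_injective ((mem_filter.1 ha).2.symm.trans (mem_filter.1 hb).2)
      have h3 : ((pts l).filter (fun p => ∃ l' ∈ L.filter (fun l => ¬ thru z l), On p l')).card
          ≤ t := card_covered_le l _ (fun h => hl.2 (mem_filter.1 h).1) _
            (fun p hp => ⟨mem_pts.1 (mem_filter.1 hp).1, (mem_filter.1 hp).2⟩)
      have h4 := (card_le_card h1).trans ((card_union_le _ _).trans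
        (Nat.add_le_add_left ((card_union_le _ _).trans (Nat.add_le_add h2 h3)) _))
      rw [card_pts] at h4
      omega
    have hdisj : (M : Set (Ln F)).PairwiseDisjoint (fun l => unc L ∩ pts l) := by
      intro l hl l' hl' hne
      rw [Function.onFun, disjoint_left]
      intro p hp hp'
      simp only [hM, coe_filter, mem_filter, mem_univ, true_and, Set.mem_ofPred_eq] at hl hl'
      simp only [mem_inter, mem_pts] at hp hp'
      have hzp := eq_of_thru hne hl.1 hl'.1 hp.2 hp'.2
      obtain ⟨l₀, hl₀⟩ := card_pos.1 (show 0 < (L.filter (fun l => thru z l)).card from hm1)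
      have := mem_filter.1 hl₀
      rw [hzp] at this
      exact mem_unc.1 hp.1 l₀ this.1 this.2
    have hsum : M.card * (m - 1) ≤ (unc L).card := by
      calc M.card * (m - 1) = ∑ _l ∈ M, (m - 1) := by simp
        _ ≤ ∑ l ∈ M, (unc L ∩ pts l).card := sum_le_sum hline
        _ = (M.biUnion (fun l => unc L ∩ pts l)).card := (card_biUnion hdisj).symm
        _ ≤ (unc L).card := card_le_card (biUnion_subset.2 fun l _ => inter_subset_left)
    have h1 : (t : ℝ) * (m - 1) ≤ (unc L).card := by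
      have : t * (m - 1) ≤ (unc L).card := (Nat.mul_le_mul_right _ hMc).trans hsum
      have h' : ((t * (m - 1) : ℕ) : ℝ) ≤ (unc L).card := by exact_mod_cast this
      rwa [Nat.cast_mul, Nat.cast_sub hm1, Nat.cast_one] at h'
    have h2 := h z
    calc κ * (x - 1) ≤ t * (m - 1) :=
          mul_le_mul h2 (by linarith) (by linarith) (Nat.cast_nonneg _)
      _ ≤ _ := h1

/-- lines with many points uncovered by `L₁` -/
noncomputable def rich (B : Finset (Pt F)) (a : ℝ) (L₁ : Finset (Ln F)) : Finset (Ln F) := by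
  classical exact univ.filter (fun l => a ≤ ((B ∩ unc L₁ ∩ pts l).card : ℝ))

theorem mem_rich {B : Finset (Pt F)} {a : ℝ} {L₁ : Finset (Ln F)} {l : Ln F} :
    l ∈ rich B a L₁ ↔ a ≤ ((B ∩ unc L₁ ∩ pts l).card : ℝ) := by
  simp [rich]

theorem rstep_one {B : Finset (Pt F)} {a b : ℝ} {L L₁ : Finset (Ln F)}
    (h : ((L \ L₁).card : ℝ) ≤ b) {l : Ln F} (hl : l ∈ rich B a L₁) (hlL : l ∉ L) :
    a - b ≤ ((B ∩ unc L ∩ pts l).card : ℝ) := by
  rw [mem_rich] at hl
  have h1 : B ∩ unc L₁ ∩ pts l ⊆ (B ∩ unc L ∩ pts l) ∪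
      (pts l).filter (fun p => ∃ l' ∈ L \ L₁, On p l') := by
    intro p hp
    simp only [mem_inter, mem_unc, mem_pts] at hp
    by_cases hu : p ∈ unc L
    · exact mem_union_left _ (by simp only [mem_inter, mem_pts]; exact ⟨⟨hp.1.1, hu⟩, hp.2⟩)
    · rw [mem_unc] at hu
      push Not at hu
      obtain ⟨l', hl', hp'⟩ := hu
      exact mem_union_right _ (mem_filter.2 ⟨mem_pts.2 hp.2, l',
        mem_sdiff.2 ⟨hl', fun h' => hp.1.2 l' h' hp'⟩, hp'⟩)
  have h2 : ((pts l).filter (fun p => ∃ l' ∈ L \ L₁, On p l')).card ≤ (L \ L₁).card :=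
    card_covered_le l _ (fun h => hlL (mem_sdiff.1 h).1) _
      (fun p hp => ⟨mem_pts.1 (mem_filter.1 hp).1, (mem_filter.1 hp).2⟩)
  have h3 := (card_le_card h1).trans ((card_union_le _ _).trans (Nat.add_le_add_left h2 _))
  have h4 : ((B ∩ unc L₁ ∩ pts l).card : ℝ) ≤ (B ∩ unc L ∩ pts l).card + (L \ L₁).card := by
    exact_mod_cast h3
  linarith

theorem rstep_two {B : Finset (Pt F)} {a d : ℝ} {L L₁ : Finset (Ln F)}
    (h : ((L₁ \ L).card : ℝ) ≤ a) (hd : ∀ l ∈ L, d ≤ ((B ∩ pts l).card : ℝ)) (had : 4 * a ≤ d) :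
    ((L \ (L₁ ∪ rich B a L₁)).card : ℝ) * (d / 2) ≤ 2 * excess B L := by
  refine card_many_multi B L _ sdiff_subset _ fun l hl => ?_
  obtain ⟨hlL, hl'⟩ := mem_sdiff.1 hl
  rw [mem_union, not_or, mem_rich, not_le] at hl'
  have h1 : B ∩ pts l ⊆ (B ∩ pts l).filter (fun p => 2 ≤ mult L p) ∪ ((B ∩ unc L₁ ∩ pts l) ∪
      (pts l).filter (fun p => ∃ l' ∈ L₁ \ L, On p l')) := by
    intro p hp
    by_cases hm : 2 ≤ mult L p
    · exact mem_union_left _ (mem_filter.2 ⟨hp, hm⟩)
    · refine mem_union_right _ ?_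
      obtain ⟨hpB, hpl⟩ := mem_inter.1 hp
      by_cases hu : p ∈ unc L₁
      · exact mem_union_left _ (mem_inter.2 ⟨mem_inter.2 ⟨hpB, hu⟩, hpl⟩)
      · rw [mem_unc] at hu
        push Not at hu
        obtain ⟨l', hl₁, hp'⟩ := hu
        refine mem_union_right _ (mem_filter.2 ⟨hpl, l', mem_sdiff.2 ⟨hl₁, fun hl'L => hm ?_⟩, hp'⟩)
        refine one_lt_card.2 ⟨l, mem_filter.2 ⟨hlL, mem_pts.1 hpl⟩, l', mem_filter.2 ⟨hl'L, hp'⟩,
          fun e => hl'.1 (e ▸ hl₁)⟩
  have h2 : ((pts l).filter (fun p => ∃ l' ∈ L₁ \ L, On p l')).card ≤ (L₁ \ L).card :=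
    card_covered_le l _ (fun h => (mem_sdiff.1 h).2 hlL) _
      (fun p hp => ⟨mem_pts.1 (mem_filter.1 hp).1, (mem_filter.1 hp).2⟩)
  have h3 := (card_le_card h1).trans ((card_union_le _ _).trans
    (Nat.add_le_add_left ((card_union_le _ _).trans (Nat.add_le_add_left h2 _)) _))
  have h4 : ((B ∩ pts l).card : ℝ) ≤ ((B ∩ pts l).filter (fun p => 2 ≤ mult L p)).card +
      ((B ∩ unc L₁ ∩ pts l).card + (L₁ \ L).card) := by exact_mod_cast h3
  have := hd l hlL
  linarith [hl'.2]

theorem rstep_three {B : Finset (Pt F)} {a : ℝ} {L L₁ L₂ : Finset (Ln F)}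
    (h1 : L₁ ⊆ L₂) (h2 : L ∩ rich B a L₁ ⊆ L₂) :
    (((B ∩ unc L₂) \ unc L).card : ℝ) ≤ (L \ (L₁ ∪ rich B a L₁)).card * a := by
  have h3 : (B ∩ unc L₂) \ unc L ⊆
      (L \ (L₁ ∪ rich B a L₁)).biUnion (fun l => B ∩ unc L₁ ∩ pts l) := by
    intro p hp
    obtain ⟨hp1, hp2⟩ := mem_sdiff.1 hp
    obtain ⟨hpB, hp3⟩ := mem_inter.1 hp1
    rw [mem_unc] at hp2 hp3
    push Not at hp2
    obtain ⟨l, hl, hpl⟩ := hp2
    refine mem_biUnion.2 ⟨l, mem_sdiff.2 ⟨hl, fun h => ?_⟩, ?_⟩
    · rcases mem_union.1 h with h | h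
      · exact hp3 l (h1 h) hpl
      · exact hp3 l (h2 (mem_inter.2 ⟨hl, h⟩)) hpl
    · exact mem_inter.2 ⟨mem_inter.2 ⟨hpB, mem_unc.2 fun l' hl' => hp3 l' (h1 hl')⟩, mem_pts.2 hpl⟩
  have h4 : (((B ∩ unc L₂) \ unc L).card : ℝ) ≤
      ∑ l ∈ L \ (L₁ ∪ rich B a L₁), ((B ∩ unc L₁ ∩ pts l).card : ℝ) := by
    exact_mod_cast (card_le_card h3).trans card_biUnion_le
  refine h4.trans ?_
  calc ∑ l ∈ L \ (L₁ ∪ rich B a L₁), ((B ∩ unc L₁ ∩ pts l).card : ℝ)
      ≤ ∑ _l ∈ L \ (L₁ ∪ rich B a L₁), a := by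
        refine sum_le_sum fun l hl => ?_
        have := (mem_sdiff.1 hl).2
        rw [mem_union, not_or, mem_rich, not_le] at this
        exact this.2.le
    _ = _ := by simp

/-- the number of lines rich in a small set -/
theorem card_rich_le (W : Finset (Pt F)) (c : ℝ) (hc : 0 < c)
    (hW : (W.card : ℝ) ≤ c / 2 * (Fintype.card F : ℝ) ^ 2) (R : Finset (Ln F))
    (hR : ∀ l ∈ R, c * Fintype.card F ≤ ((W ∩ pts l).card : ℝ)) :
    (R.card : ℝ) * (c ^ 2 * Fintype.card F) ≤ 4 * W.card := by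
  have hq : (0 : ℝ) < Fintype.card F := by exact_mod_cast Fintype.card_pos
  have h := rich_card_set W (c / 2 * Fintype.card F) (by positivity) R (fun l hl => by
    have h1 : (W.card : ℝ) / Fintype.card F ≤ c / 2 * Fintype.card F := by
      rw [div_le_iff₀ hq]; nlinarith
    linarith [hR l hl])
  have h2 : (R.card : ℝ) * (c ^ 2 * Fintype.card F) * Fintype.card F ≤
      4 * W.card * Fintype.card F := by nlinarith
  exact le_of_mul_le_mul_right h2 hq

/-- the number of lines with a large excess -/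
theorem card_grich_le (B : Finset (Pt F)) (L : Finset (Ln F)) (hL : L.card = Fintype.card F)
    (c : ℝ) (hc : 0 < c) (hW : (excess B L : ℝ) ≤ c / 2 * (Fintype.card F : ℝ) ^ 2)
    (R : Finset (Ln F))
    (hR : ∀ l ∈ R, c * Fintype.card F ≤ ((∑ p ∈ B ∩ pts l, (mult L p - 1) : ℕ) : ℝ)) :
    (R.card : ℝ) * c ^ 2 ≤ 4 * Fintype.card F := by
  have hq : (0 : ℝ) < Fintype.card F := by exact_mod_cast Fintype.card_pos
  let g : Pt F → ℝ := fun p => if p ∈ B then ((mult L p - 1 : ℕ) : ℝ) else 0
  have h1 : ∑ p, g p = excess B L := by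
    simp only [g, excess]; rw [Fintype.sum_ite_mem]; push_cast; rfl
  have h2 : ∀ l : Ln F, ∑ p ∈ pts l, g p = ((∑ p ∈ B ∩ pts l, (mult L p - 1) : ℕ) : ℝ) := by
    intro l
    simp only [g]; rw [sum_ite_mem, inter_comm]; push_cast; rfl
  have h3 : ∑ p, g p ^ 2 ≤ (Fintype.card F : ℝ) ^ 2 := by
    have h4 : ∑ p, g p ^ 2 ≤ ((∑ p : Pt F, mult L p * (mult L p - 1) : ℕ) : ℝ) := by
      push_cast
      refine sum_le_sum fun p _ => ?_
      simp only [g]
      split_ifs
      · rw [sq]
        exact mul_le_mul_of_nonneg_right (by exact_mod_cast Nat.sub_le _ _) (Nat.cast_nonneg _)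
      · have : (0 : ℝ) ≤ (mult L p : ℝ) * ((mult L p - 1 : ℕ) : ℝ) := by positivity
        simpa using this
    have h5 : ∑ p : Pt F, mult L p * (mult L p - 1) ≤ Fintype.card F ^ 2 := by
      refine (sum_mult_sq_le L).trans ?_
      rw [hL, sq]; exact Nat.mul_le_mul_left _ (Nat.sub_le _ _)
    exact h4.trans (by exact_mod_cast h5)
  have h := rich_card g (c / 2 * Fintype.card F) (by positivity) R (fun l hl => by
    rw [h1, h2]
    have h1 : (excess B L : ℝ) / Fintype.card F ≤ c / 2 * Fintype.card F := by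
      rw [div_le_iff₀ hq]; nlinarith
    linarith [hR l hl])
  have h6 : (R.card : ℝ) * c ^ 2 * (Fintype.card F : ℝ) ^ 2 ≤
      4 * Fintype.card F * (Fintype.card F : ℝ) ^ 2 := by
    have := mul_le_mul_of_nonneg_left h3 hq.le
    nlinarith
  exact le_of_mul_le_mul_right h6 (by positivity)

end Crest.Agent.R34
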