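import Mathlib

/-! Definitions for row 34: the affine plane over a finite field, uniform probability on finite
types, random lines. -/

set_option autoImplicit false

namespace Crest.Agent.R34

open Finset

/-- points of the affine plane -/
abbrev Pt (F : Type) : Type := F × F
/-- directions -/
abbrev Dir (F : Type) : Type := Option F
/-- lines: a direction and an intercept -/
abbrev Ln (F : Type) : Type := Option F × F
/-- points of the projective closure -/
abbrev PPt (F : Type) : Type := (F × F) ⊕ Option F

section Plane

variable {F : Type} [Field F]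

/-- the intercept of the line with direction `d` through `p` -/
def lin : Dir F → Pt F → F
  | none, p => p.1
  | some m, p => p.2 - m * p.1

/-- incidence -/
def On (p : Pt F) (l : Ln F) : Prop := lin l.1 p = l.2

instance [DecidableEq F] (p : Pt F) (l : Ln F) : Decidable (On p l) :=
  inferInstanceAs (Decidable (lin l.1 p = l.2))

/-- incidence with a projective point -/
def thru : PPt F → Ln F → Prop
  | .inl p, l => On p l
  | .inr d, l => l.1 = d

instance [DecidableEq F] (z : PPt F) (l : Ln F) : Decidable (thru z l) :=
  match z with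
  | .inl p => inferInstanceAs (Decidable (On p l))
  | .inr d => inferInstanceAs (Decidable (l.1 = d))

/-- the intersection point of two lines with different directions -/
def meet : Ln F → Ln F → Pt F
  | (none, c), (none, _) => (c, 0)
  | (none, c), (some m, c') => (c, c' + m * c)
  | (some m, c), (none, c') => (c', c + m * c')
  | (some m, c), (some m', c') => ((c' - c) / (m - m'), c + m * ((c' - c) / (m - m')))

variable [Fintype F] [DecidableEq F]

/-- the points of a line -/
def pts (l : Ln F) : Finset (Pt F) := univ.filter (fun p => On p l)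

/-- the number of lines of `L` through `p` -/
def mult (L : Finset (Ln F)) (p : Pt F) : ℕ := (L.filter (fun l => On p l)).card

/-- the points not covered by `L` -/
def unc (L : Finset (Ln F)) : Finset (Pt F) := univ.filter (fun p => ∀ l ∈ L, ¬ On p l)

/-- the total excess multiplicity of `L` on `B` -/
def excess (B : Finset (Pt F)) (L : Finset (Ln F)) : ℕ := ∑ p ∈ B, (mult L p - 1)

/-- the points on none of the random lines with index in `A` -/
def free {ι : Type} (dir : ι → Dir F) (A : Finset ι) (ω : ι → F) : Finset (Pt F) :=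
  univ.filter (fun p => ∀ i ∈ A, ¬ On p (dir i, ω i))

/-- the points of `l` on none of the random lines with index in `A` and direction different from
that of `l` -/
def freeOn {ι : Type} (dir : ι → Dir F) (A : Finset ι) (ω : ι → F) (l : Ln F) : Finset (Pt F) :=
  (pts l).filter (fun p => ∀ i ∈ A, dir i ≠ l.1 → ¬ On p (dir i, ω i))

@[simp] theorem mem_pts {p : Pt F} {l : Ln F} : p ∈ pts l ↔ On p l := by simp [pts]

@[simp] theorem mem_unc {p : Pt F} {L : Finset (Ln F)} : p ∈ unc L ↔ ∀ l ∈ L, ¬ On p l := by
  simp only [unc, mem_filter, mem_univ, true_and]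

@[simp] theorem mem_free {ι : Type} {dir : ι → Dir F} {A : Finset ι} {ω : ι → F} {p : Pt F} :
    p ∈ free dir A ω ↔ ∀ i ∈ A, ¬ On p (dir i, ω i) := by
  simp only [free, mem_filter, mem_univ, true_and]

@[simp] theorem mem_freeOn {ι : Type} {dir : ι → Dir F} {A : Finset ι} {ω : ι → F} {l : Ln F}
    {p : Pt F} :
    p ∈ freeOn dir A ω l ↔ On p l ∧ ∀ i ∈ A, dir i ≠ l.1 → ¬ On p (dir i, ω i) := by
  simp only [freeOn, mem_filter, mem_pts]

end Plane

section Prob

open Classical in
/-- uniform probability -/
noncomputable def pr {Ω : Type} [Fintype Ω] (E : Ω → Prop) : ℝ :=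
  ((univ.filter E).card : ℝ) / Fintype.card Ω

/-- uniform expectation -/
noncomputable def ex {Ω : Type} [Fintype Ω] (f : Ω → ℝ) : ℝ := (∑ ω, f ω) / Fintype.card Ω

end Prob

section Random

variable {F : Type} [Field F] [Fintype F] [DecidableEq F]

/-- every family of at most `q` lines, none of them a random line, covering all free points has
fewer than `κ` lines off some projective point -/
def CoverProp {ι : Type} [Fintype ι] (dir : ι → Dir F) (ω : ι → F) (κ : ℝ) : Prop :=
  ∀ L : Finset (Ln F), L.card ≤ Fintype.card F → (∀ i, (dir i, ω i) ∉ L) →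
    Disjoint (unc L) (free dir univ ω) →
      ∃ z : PPt F, ((L.filter (fun l => ¬ thru z l)).card : ℝ) < κ

/-- every line has at least `κ` points off the random lines of other directions -/
def FreeProp {ι : Type} [Fintype ι] (dir : ι → Dir F) (ω : ι → F) (κ : ℝ) : Prop :=
  ∀ l : Ln F, κ ≤ ((freeOn dir univ ω l).card : ℝ)

/-- labels of the random lines in one direction: the primary line `none` and the pool lines
`some (colour, number)` -/
abbrev Lab : Type := Option (Fin 10 × Fin 1000)

/-- index set of all random lines -/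
abbrev Idx (F : Type) : Type := Option F × Lab

/-- the random line with index `i` -/
def rl (ω : Idx F → F) (i : Idx F) : Ln F := (i.1, ω i)

/-- `x` lies on the primary line of direction `d`, and, among the random lines of other directions,
exactly on one pool line of each colour, these having distinct directions -/
def IsCentre (ω : Idx F → F) (d : Dir F) (x : Pt F) : Prop :=
  On x (rl ω (d, none)) ∧ ∃ (e : Fin 10 → Dir F) (m : Fin 10 → Fin 1000),
    Function.Injective e ∧ (∀ c, e c ≠ d) ∧
      ∀ i : Idx F, i.1 ≠ d → (On x (rl ω i) ↔ ∃ c, i = (e c, some (c, m c)))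

open Classical in
/-- many centres on each primary line, few on each pool line -/
def CentreProp (ω : Idx F → F) : Prop :=
  ∃ Δ : ℕ, 100001 ≤ Δ ∧
    (∀ d : Dir F, 100 * Δ ≤ (univ.filter (fun x : Pt F => IsCentre ω d x)).card) ∧
    ∀ i : Idx F, i.2 ≠ none →
      (univ.filter (fun x : Pt F => On x (rl ω i) ∧ ∃ d, d ≠ i.1 ∧ IsCentre ω d x)).card ≤ Δ

open Classical in
/-- few concurrent quintuples of random lines -/
def MomentProp (ω : Idx F → F) (C : ℝ) : Prop :=
  ((univ.filter (fun u : Pt F × (Fin 5 → Idx F) =>
    Function.Injective u.2 ∧ ∀ a, On u.1 (rl ω (u.2 a)))).card : ℝ) ≤ C * (Fintype.card F : ℝ) ^ 2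

open Classical in
/-- for any base line `r`, any direction pair `e` and target lines `g`, there are many points `y`
of `r` off the random lines other than `r` whose projections along `e i` to the lines `g i j`
are off the random lines other than `g i j` -/
def ValidProp (ω : Idx F → F) (κ : ℝ) : Prop :=
  ∀ (r : Ln F) (e : Fin 2 → Dir F) (g : Fin 2 → Fin 10 → Ln F), (∀ i, e i ≠ r.1) →
    (∀ i j, (g i j).1 ≠ r.1) →
    κ ≤ ((univ.filter (fun y : Pt F => On y r ∧ (∀ k, On y (rl ω k) → rl ω k = r) ∧
      ∀ i j, (g i j).1 ≠ e i → ∀ k, On (meet (g i j) (e i, lin (e i) y)) (rl ω k) →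
        rl ω k = g i j)).card : ℝ)

end Random

section Config

variable {F : Type} [Field F]

/-- the data of the gadgets -/
structure Data (F : Type) : Type where
  /-- intercepts of the primary lines -/
  r : Dir F → F
  /-- centres -/
  x : Dir F → Fin 2 → Pt F
  /-- directions of the auxiliary lines -/
  a : Dir F → Fin 2 → Fin 10 → Dir F
  /-- the free points on the primary lines -/
  y : Dir F → Fin 10 → Pt F

namespace Data

variable (G : Data F)

/-- primary line -/
def prim (d : Dir F) : Ln F := (d, G.r d)
/-- auxiliary line -/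
def aux (d : Dir F) (i : Fin 2) (j : Fin 10) : Ln F := (G.a d i j, lin (G.a d i j) (G.x d i))
/-- pointer line -/
def ptr (d : Dir F) (i : Fin 2) (j : Fin 10) : Ln F := (G.a d i j, lin (G.a d i j) (G.y d j))
/-- special lines -/
def Sp (l : Ln F) : Prop := (∃ d, l = G.prim d) ∨ ∃ d i j, l = G.aux d i j

/-- a slot: gadget, variable, and either the primary line or an auxiliary line -/
abbrev Slot (F : Type) : Type := Option F × Fin 10 × Option (Fin 2 × Fin 10)

/-- admissible slots -/
def Adm (s : Slot F) : Prop := ∀ i j, s.2.2 = some (i, j) → j ≠ s.2.1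

/-- the special line of a slot -/
def sl : Slot F → Ln F
  | (d, _, none) => G.prim d
  | (d, _, some (i, j)) => G.aux d i j

/-- the single point of a slot -/
def sp : Slot F → Pt F
  | (d, j', none) => G.y d j'
  | (d, j', some (i, j)) => meet (G.aux d i j) (G.ptr d i j')

/-- the properties of the gadget data -/
structure Good [Fintype F] : Prop where
  x_on : ∀ d i, On (G.x d i) (G.prim d)
  y_on : ∀ d j, On (G.y d j) (G.prim d)
  a_ne : ∀ d i j, G.a d i j ≠ d
  a_inj : ∀ d i j i' j', G.a d i j = G.a d i' j' → i = i' ∧ j = j'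
  x_ne : ∀ d, G.x d 0 ≠ G.x d 1
  aux_ne_prim : ∀ d i j d', G.aux d i j ≠ G.prim d'
  aux_inj : ∀ d i j d' i' j', G.aux d i j = G.aux d' i' j' → d = d' ∧ i = i' ∧ j = j'
  x_free : ∀ d i l, G.Sp l → On (G.x d i) l → l = G.prim d ∨ ∃ j, l = G.aux d i j
  sp_free : ∀ s, Adm s → ∀ l, G.Sp l → On (G.sp s) l → l = G.sl s
  sp_inj : ∀ d j j' o, Adm (d, j, o) → Adm (d, j', o) → G.sp (d, j, o) = G.sp (d, j', o) → j = j'
  gp : ∀ (z : PPt F) (h : Ln F) (s : Fin 5 → Slot F), ¬ thru z h → (∀ a, Adm (s a)) →
    Function.Injective (fun a => ((s a).1, (s a).2.1)) → Function.Injective (fun a => G.sl (s a)) →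
    (∀ a, thru z (G.sl (s a))) → ¬ ∀ a, On (G.sp (s a)) h
  cover : ∀ T : Finset (Ln F), T.card ≤ Fintype.card F →
    (∀ p : Pt F, (∀ l, G.Sp l → ¬ On p l) → ∃ l ∈ T, On p l) →
      ∃ z : PPt F, ∀ l, thru z l → ¬ G.Sp l → l ∈ T

end Data

end Config

end Crest.Agent.R34
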