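import Crest.Agent.R34.CoverDet

/-! Small families of point sets that approximate the uncovered set. -/

set_option autoImplicit false

namespace Crest.Agent.R34

open Finset

variable {F : Type} [Field F] [Fintype F] [DecidableEq F]

/-- points on a line of `S` and on no other line of `T` -/
def priv (T S : Finset (Ln F)) : Finset (Pt F) :=
  S.biUnion (fun l => (pts l).filter (fun p => ∀ l' ∈ T, On p l' → l' = l))

theorem card_priv_le (T S : Finset (Ln F)) : (priv T S).card ≤ S.card * Fintype.card F := by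
  refine card_biUnion_le.trans ?_
  calc ∑ l ∈ S, ((pts l).filter (fun p => ∀ l' ∈ T, On p l' → l' = l)).card
      ≤ ∑ _l ∈ S, Fintype.card F :=
        sum_le_sum fun l _ => (card_filter_le _ _).trans (card_pts l).le
    _ = _ := by simp

theorem card_priv_inter_le (T S : Finset (Ln F)) (l : Ln F) (hl : l ∉ S) :
    (priv T S ∩ pts l).card ≤ S.card := by
  refine card_covered_le l S hl _ fun p hp => ?_
  obtain ⟨h1, h2⟩ := mem_inter.1 hp
  obtain ⟨l', hl', h3⟩ := mem_biUnion.1 h1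
  exact ⟨mem_pts.1 h2, l', hl', mem_pts.1 (mem_filter.1 h3).1⟩

theorem excess_line_le (L : Finset (Ln F)) (hL : L.card = Fintype.card F) (l : Ln F)
    (hl : l ∉ L) : ∑ p ∈ univ ∩ pts l, (mult L p - 1) ≤ (univ ∩ unc L ∩ pts l).card := by
  have h := excess_add (pts l) L
  have h2 : ∑ l' ∈ L, (pts l ∩ pts l').card ≤ L.card := by
    rw [card_eq_sum_ones L]
    exact sum_le_sum fun l' hl' => card_inter_pts_le_one (fun e => hl (e ▸ hl'))
  rw [card_pts, excess] at h
  rw [univ_inter, univ_inter, inter_comm]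
  omega

theorem famB (J : ℕ) (γ φ c ε : ℝ) (f k : ℕ) (hγ : 0 < γ) (hφ : 0 < φ) (hc : 0 < c) (hε : 0 < ε)
    (hc1 : c ≤ 1) (a1 : 4 * φ ≤ 1) (a2 : φ ≤ 2 * γ) (a3 : 4 * γ ≤ 1) (a4 : 2 ^ J * 8 * γ < 1)
    (a5 : 8 * ε ≤ φ) (a6 : 64 * ε ≤ γ * φ ^ 2) (a7 : 512 * ε ≤ φ ^ 3) (a8 : 2 ^ J * 32 * ε < φ)
    (hf : 32 ≤ γ * f) (hk : 0 < k) (hq4 : 4 ≤ Fintype.card F)
    (h1 : 4 * (Fintype.card (Ln F) : ℝ) * Real.exp (-(φ ^ 2 * k / 64)) < 1) :
    ∃ 𝓛 : Finset (Finset (Ln F)), 𝓛.card ≤ (Fintype.card (Ln F)) ^ (f + k) ∧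
      ∀ L : Finset (Ln F), L.card = Fintype.card F →
        1024 * φ * (unc L).card ≤ γ ^ 2 * Fintype.card F * f →
        ((unc L).card : ℝ) ≤ ε * (Fintype.card F : ℝ) ^ 2 →
        (f : ℝ) * Fintype.card F ≤ c * (unc L).card →
        ∃ T ∈ 𝓛, T.card ≤ 2 * Fintype.card F ∧
          (((f : ℝ) * Fintype.card F / (2 * c) ≤ (unc T).card ∧
              2 ^ J * (unc T \ unc L).card < (unc T).card) ∨
            ∃ E ⊆ T, (f : ℝ) / (2 * c) ≤ E.card ∧ ∀ S ⊆ E, S.Nonempty →
              (S.card : ℝ) * (φ * Fintype.card F / 8) ≤ (priv T S).card ∧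
                2 ^ J * (priv T S \ unc L).card < (priv T S).card) := by
  have hq : (4 : ℝ) ≤ Fintype.card F := by exact_mod_cast hq4
  set q : ℝ := (Fintype.card F : ℝ) with hqd
  have hq0 : 0 < q := by linarith
  obtain ⟨𝓗, h𝓗, hcore⟩ := core (univ : Finset (Pt F)) 1 φ (γ / 2) (γ ^ 2 * q * f / (1024 * φ))
    f k one_pos hφ (by positivity) a1 hk (by linarith) h1
    (by rw [← hqd]; apply le_of_eq; field_simp; ring)
    (by
      rw [← hqd]
      have : 16 * φ * (γ ^ 2 * q * f / (1024 * φ)) = γ * q * (γ * f) / 64 := by field_simp; ring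
      rw [this]
      have : γ * q * 32 ≤ γ * q * (γ * f) := mul_le_mul_of_nonneg_left hf (by positivity)
      linarith)
  refine ⟨𝓗.image (fun H => H ∪ rich univ (γ * q) H), card_image_le.trans h𝓗, ?_⟩
  intro L hL hu1 hu2 hu3
  set u : ℝ := ((unc L).card : ℝ) with hud
  have hex : (excess univ L : ℝ) = u := by rw [excess_univ L hL]
  have hf0 : (0 : ℝ) < f := by
    by_contra h
    have : γ * f ≤ 0 := mul_nonpos_of_nonneg_of_nonpos hγ.le (not_lt.1 h)
    linarith
  have hu0 : 0 < u := by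
    by_contra h
    have : c * u ≤ 0 := mul_nonpos_of_nonneg_of_nonpos hc.le (not_lt.1 h)
    have : 0 < (f : ℝ) * q := by positivity
    linarith
  obtain ⟨H, hH, hLH, hHL⟩ := hcore L hL
    (fun l _ => by rw [univ_inter, card_pts, one_mul])
    (by rw [hex, le_div_iff₀ (by positivity)]; linarith)
  rw [← hqd] at hLH hHL
  have hfq : (f : ℝ) ≤ φ * q / 4 := by
    have h2 : (f : ℝ) * q ≤ (φ * q / 4) * q := by
      have : c * u ≤ 1 * (ε * q ^ 2) := mul_le_mul hc1 hu2 hu0.le zero_le_one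
      nlinarith
    exact le_of_mul_le_mul_right h2 hq0
  have hHrich : ∀ l ∈ H, l ∉ L → φ / 4 * q ≤ ((unc L ∩ pts l).card : ℝ) := by
    intro l hl hlL
    rcases hHL l hl hlL with h | h
    · rw [univ_inter] at h
      nlinarith
    · have h2 : ((∑ p ∈ univ ∩ pts l, (mult L p - 1) : ℕ) : ℝ) ≤ (univ ∩ unc L ∩ pts l).card := by
        exact_mod_cast excess_line_le L hL l hlL
      rw [univ_inter (unc L)] at h2
      linarith
  have hcnt : ∀ R : Finset (Ln F), (∀ l ∈ R, φ / 4 * q ≤ ((unc L ∩ pts l).card : ℝ)) →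
      (R.card : ℝ) * φ ^ 2 ≤ 64 * ε * q := by
    intro R hR
    have h2 := card_rich_le (unc L) (φ / 4) (by positivity) (by rw [← hqd, ← hud]; nlinarith) R hR
    rw [← hqd, ← hud] at h2
    have h3 : (R.card : ℝ) * φ ^ 2 * q ≤ 64 * ε * q * q := by nlinarith
    exact le_of_mul_le_mul_right h3 hq0
  have hφ2 : 0 < φ ^ 2 := by positivity
  have hHLc : ((H \ L).card : ℝ) ≤ γ * q := by
    have h2 := hcnt (H \ L) (fun l hl => hHrich l (mem_sdiff.1 hl).1 (mem_sdiff.1 hl).2)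
    have h3 : ((H \ L).card : ℝ) * φ ^ 2 ≤ γ * q * φ ^ 2 := by nlinarith
    exact le_of_mul_le_mul_right h3 hφ2
  set T := H ∪ rich univ (γ * q) H with hT
  have hTrich : ∀ l ∈ T \ L, φ / 4 * q ≤ ((unc L ∩ pts l).card : ℝ) := by
    intro l hl
    obtain ⟨h2, h3⟩ := mem_sdiff.1 hl
    rcases mem_union.1 h2 with h | h
    · exact hHrich l h h3
    · have := rstep_one hLH h h3
      rw [univ_inter] at this
      nlinarith
  have hE : ((T \ L).card : ℝ) ≤ φ * q / 8 := by
    have h2 := hcnt (T \ L) hTrich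
    have h3 : ((T \ L).card : ℝ) * φ ^ 2 ≤ φ * q / 8 * φ ^ 2 := by nlinarith
    exact le_of_mul_le_mul_right h3 hφ2
  have hLT : ((L \ T).card : ℝ) * q ≤ 4 * u := by
    have := rstep_two (B := univ) (a := γ * q) (d := q) (L := L) (L₁ := H) hHLc
      (fun l _ => by rw [univ_inter, card_pts]) (by nlinarith)
    rw [hex, ← hT] at this
    linarith
  have hLT' : ((L \ T).card : ℝ) ≤ 4 * ε * q := by
    have : ((L \ T).card : ℝ) * q ≤ 4 * ε * q * q := by nlinarith
    exact le_of_mul_le_mul_right this hq0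
  refine ⟨T, mem_image.2 ⟨H, hH, rfl⟩, ?_, ?_⟩
  · have h2 : T.card ≤ (T \ L).card + L.card := card_le_card_sdiff_add_card
    have h3 : ((T \ L).card : ℝ) ≤ q := by nlinarith
    have h4 : (T \ L).card ≤ Fintype.card F := by rw [hqd] at h3; exact_mod_cast h3
    omega
  by_cases hcase : ((T \ L).card : ℝ) * q ≤ u / 2
  · left
    have h2 : unc L ⊆ unc T ∪ (T \ L).biUnion pts := by
      intro p hp
      by_cases h : p ∈ unc T
      · exact mem_union_left _ h
      · rw [mem_unc] at h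
        push Not at h
        obtain ⟨l, hl, hpl⟩ := h
        exact mem_union_right _ (mem_biUnion.2 ⟨l, mem_sdiff.2
          ⟨hl, fun h' => mem_unc.1 hp l h' hpl⟩, mem_pts.2 hpl⟩)
    have h3 : (unc L).card ≤ (unc T).card + (T \ L).card * Fintype.card F := by
      refine (card_le_card h2).trans ((card_union_le _ _).trans (Nat.add_le_add_left ?_ _))
      refine card_biUnion_le.trans ?_
      simp [card_pts]
    have h4 : u ≤ (unc T).card + (T \ L).card * q := by rw [hud, hqd]; exact_mod_cast h3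
    have h5 : u / 2 ≤ (unc T).card := by linarith
    refine ⟨?_, ?_⟩
    · rw [div_le_iff₀ (by positivity)]; nlinarith
    · have h6 := rstep_three (B := univ) (a := γ * q) (L := L) (L₁ := H) (L₂ := T)
        subset_union_left (inter_subset_right.trans subset_union_right)
      rw [univ_inter, ← hT] at h6
      have h7 : ((unc T \ unc L).card : ℝ) ≤ 4 * γ * u := by nlinarith
      have h8 : (2 : ℝ) ^ J * ((unc T \ unc L).card : ℝ) < (unc T).card := by
        have h9 : (2 : ℝ) ^ J * ((unc T \ unc L).card : ℝ) ≤ 2 ^ J * (4 * γ * u) :=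
          mul_le_mul_of_nonneg_left h7 (by positivity)
        nlinarith
      exact_mod_cast h8
  · right
    push Not at hcase
    refine ⟨T \ L, sdiff_subset, ?_, fun S hS hSne => ?_⟩
    · rw [div_le_iff₀ (by positivity)]
      have : (f : ℝ) * q ≤ ((T \ L).card * (2 * c)) * q := by nlinarith
      exact le_of_mul_le_mul_right this hq0
    have hpiece : ∀ l ∈ S, φ * q / 8 ≤
        (((pts l).filter (fun p => ∀ l' ∈ T, On p l' → l' = l)).card : ℝ) := by
      intro l hl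
      have hlE := hS hl
      have h2 : unc L ∩ pts l ⊆ (pts l).filter (fun p => ∀ l' ∈ T, On p l' → l' = l) ∪
          (pts l).filter (fun p => ∃ l' ∈ (T \ L).erase l, On p l') := by
        intro p hp
        obtain ⟨hp1, hp2⟩ := mem_inter.1 hp
        by_cases h : ∀ l' ∈ T, On p l' → l' = l
        · exact mem_union_left _ (mem_filter.2 ⟨hp2, h⟩)
        · push Not at h
          obtain ⟨l', h3, h4, h5⟩ := h
          exact mem_union_right _ (mem_filter.2 ⟨hp2, l', mem_erase.2 ⟨h5, mem_sdiff.2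
            ⟨h3, fun h' => mem_unc.1 hp1 l' h' h4⟩⟩, h4⟩)
      have h3 : ((pts l).filter (fun p => ∃ l' ∈ (T \ L).erase l, On p l')).card ≤ (T \ L).card :=
        (card_covered_le l _ (notMem_erase l _) _
          (fun p hp => ⟨mem_pts.1 (mem_filter.1 hp).1, (mem_filter.1 hp).2⟩)).trans
          (card_erase_le)
      have h4 := (card_le_card h2).trans ((card_union_le _ _).trans (Nat.add_le_add_left h3 _))
      have h5 : ((unc L ∩ pts l).card : ℝ) ≤
          ((pts l).filter (fun p => ∀ l' ∈ T, On p l' → l' = l)).card + (T \ L).card := by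
        exact_mod_cast h4
      have := hTrich l hlE
      linarith
    have hdisj : (S : Set (Ln F)).PairwiseDisjoint
        (fun l => (pts l).filter (fun p => ∀ l' ∈ T, On p l' → l' = l)) := by
      intro l hl l' hl' hne
      rw [Function.onFun, disjoint_left]
      intro p hp hp'
      exact hne ((mem_filter.1 hp').2 l (mem_sdiff.1 (hS hl)).1 (mem_pts.1 (mem_filter.1 hp).1))
    have hlow : (S.card : ℝ) * (φ * q / 8) ≤ (priv T S).card := by
      rw [priv, card_biUnion hdisj]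
      push_cast
      calc (S.card : ℝ) * (φ * q / 8) = ∑ _l ∈ S, φ * q / 8 := by simp
        _ ≤ _ := sum_le_sum hpiece
    refine ⟨hlow, ?_⟩
    have h2 : priv T S \ unc L ⊆
        S.biUnion (fun l => (pts l).filter (fun p => ∃ l' ∈ L \ T, On p l')) := by
      intro p hp
      obtain ⟨hp1, hp2⟩ := mem_sdiff.1 hp
      obtain ⟨l, hl, hp3⟩ := mem_biUnion.1 hp1
      rw [mem_unc] at hp2
      push Not at hp2
      obtain ⟨l', hl', hp4⟩ := hp2
      refine mem_biUnion.2 ⟨l, hl, mem_filter.2 ⟨(mem_filter.1 hp3).1, l',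
        mem_sdiff.2 ⟨hl', fun h => ?_⟩, hp4⟩⟩
      have := (mem_filter.1 hp3).2 l' h hp4
      exact (mem_sdiff.1 (hS hl)).2 (this ▸ hl')
    have h3 : (priv T S \ unc L).card ≤ S.card * (L \ T).card := by
      refine (card_le_card h2).trans (card_biUnion_le.trans ?_)
      calc ∑ l ∈ S, ((pts l).filter (fun p => ∃ l' ∈ L \ T, On p l')).card
          ≤ ∑ _l ∈ S, (L \ T).card := sum_le_sum fun l hl =>
            card_covered_le l _ (fun h => (mem_sdiff.1 (hS hl)).2 (mem_sdiff.1 h).1) _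
              (fun p hp => ⟨mem_pts.1 (mem_filter.1 hp).1, (mem_filter.1 hp).2⟩)
        _ = _ := by simp
    have h4 : ((priv T S \ unc L).card : ℝ) ≤ S.card * (4 * ε * q) := by
      have : ((priv T S \ unc L).card : ℝ) ≤ S.card * (L \ T).card := by exact_mod_cast h3
      exact this.trans (mul_le_mul_of_nonneg_left hLT' (Nat.cast_nonneg _))
    have hS0 : (0 : ℝ) < S.card := by exact_mod_cast card_pos.2 hSne
    have h8 : (2 : ℝ) ^ J * ((priv T S \ unc L).card : ℝ) < (priv T S).card := by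
      have h9 : (2 : ℝ) ^ J * ((priv T S \ unc L).card : ℝ) ≤ 2 ^ J * (S.card * (4 * ε * q)) :=
        mul_le_mul_of_nonneg_left h4 (by positivity)
      have h10 : (2 : ℝ) ^ J * (S.card * (4 * ε * q)) = (S.card * q / 8) * (2 ^ J * 32 * ε) := by
        ring
      have h11 : (S.card * q / 8) * (2 ^ J * 32 * ε) < (S.card * q / 8) * φ :=
        mul_lt_mul_of_pos_left a8 (by positivity)
      nlinarith
    exact_mod_cast h8

theorem famA (B : Finset (Pt F)) (J : ℕ) (δ γ φ ε : ℝ) (f k N : ℕ) (hδ : 0 < δ) (hγ : 0 < γ)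
    (hφ : 0 < φ) (hε : 0 < ε) (a1 : 4 * φ ≤ δ) (a3 : 4 * γ ≤ δ) (a4 : 2 ^ J * 16 * γ < δ)
    (a5 : 16 * ε ≤ φ) (a6 : 16 * ε ≤ φ ^ 2) (a7 : 4 * ε ≤ γ) (a8 : 16 * ε ≤ γ ^ 2)
    (hk : 0 < k) (hq4 : 4 ≤ δ * Fintype.card F)
    (h1 : 4 * (Fintype.card (Ln F) : ℝ) * Real.exp (-(φ ^ 2 * k / 64)) < 1)
    (h2 : 2048 * φ * ε * Fintype.card F ≤ γ ^ 2 * δ ^ 2 * f)
    (h3 : γ * δ ≤ 64 * φ * ε * Fintype.card F) (h4 : (f : ℝ) ≤ φ * Fintype.card F / 4)
    (hN : (2 + 64 / φ ^ 2) * Fintype.card F ≤ N) :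
    ∃ 𝓦 : Finset (Finset (Pt F)),
      𝓦.card ≤ (Fintype.card (Ln F)) ^ (f + k) * 2 ^ N * 2 ^ (2 * Fintype.card F) ∧
      (∀ W ∈ 𝓦, W ⊆ B ∧ ε * (Fintype.card F : ℝ) ^ 2 / 2 ≤ W.card) ∧
      ∀ L : Finset (Ln F), L.card = Fintype.card F →
        (∀ l ∈ L, δ * Fintype.card F ≤ ((B ∩ pts l).card : ℝ)) →
        (excess B L : ℝ) ≤ 2 * ε * (Fintype.card F : ℝ) ^ 2 →
        ε * (Fintype.card F : ℝ) ^ 2 / 2 ≤ (B ∩ unc L).card →
        ((B ∩ unc L).card : ℝ) ≤ ε * (Fintype.card F : ℝ) ^ 2 →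
        ∃ W ∈ 𝓦, 2 ^ J * (W \ unc L).card < W.card := by
  classical
  have hq0 : (0 : ℝ) < Fintype.card F := by exact_mod_cast Fintype.card_pos
  set q : ℝ := (Fintype.card F : ℝ) with hqd
  obtain ⟨𝓗, h𝓗, hcore⟩ := core B δ φ (γ / 2) (2 * ε * q ^ 2)
    f k hδ hφ (by positivity) a1 hk hq4 h1
    (by rw [← hqd]; nlinarith) (by rw [← hqd]; nlinarith)
  let 𝓦₀ : Finset (Finset (Pt F)) := (𝓗.filter (fun H => H.card ≤ N)).biUnion fun H =>
    (H.powerset.filter (fun L₁ => (rich B (γ * q) L₁).card ≤ 2 * Fintype.card F)).biUnion fun L₁ =>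
      (rich B (γ * q) L₁).powerset.image (fun L₂ => B ∩ unc (L₁ ∪ L₂))
  have hcard : 𝓦₀.card ≤ (Fintype.card (Ln F)) ^ (f + k) * 2 ^ N * 2 ^ (2 * Fintype.card F) := by
    rw [mul_assoc]
    refine (card_biUnion_le_card_mul _ _ (2 ^ N * 2 ^ (2 * Fintype.card F)) ?_).trans
      (Nat.mul_le_mul_right _ ((card_filter_le _ _).trans h𝓗))
    intro H hH
    refine (card_biUnion_le_card_mul _ _ (2 ^ (2 * Fintype.card F)) ?_).trans
      (Nat.mul_le_mul_right _ ((card_filter_le _ _).trans ?_))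
    · intro L₁ hL₁
      refine card_image_le.trans ?_
      rw [card_powerset]
      exact Nat.pow_le_pow_right (by norm_num) (mem_filter.1 hL₁).2
    · rw [card_powerset]
      exact Nat.pow_le_pow_right (by norm_num) (mem_filter.1 hH).2
  refine ⟨𝓦₀.filter (fun W => W ⊆ B ∧ ε * q ^ 2 / 2 ≤ W.card),
    (card_filter_le _ _).trans hcard, fun W hW => (mem_filter.1 hW).2, ?_⟩
  intro L hL hb hex hu1 hu2
  obtain ⟨H, hH, hLH, hHL⟩ := hcore L hL hb hex
  rw [← hqd] at hLH hHL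
  have hcnt : ∀ (a : ℝ) (R : Finset (Ln F)), 0 < a → 2 * ε ≤ a → 4 * ε ≤ a ^ 2 →
      (∀ l ∈ R, a * q ≤ ((B ∩ unc L ∩ pts l).card : ℝ)) → R.card ≤ Fintype.card F := by
    intro a R ha ha1 ha2 hR
    have h5 := card_rich_le (B ∩ unc L) a ha (by rw [← hqd]; nlinarith) R hR
    rw [← hqd] at h5
    have h6 : (R.card : ℝ) * (a ^ 2 * q) ≤ q * (a ^ 2 * q) := by nlinarith
    have h7 : (R.card : ℝ) ≤ q := le_of_mul_le_mul_right h6 (by positivity)
    rw [hqd] at h7; exact_mod_cast h7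
  have hHN : H.card ≤ N := by
    let R₁ := univ.filter (fun l : Ln F => φ / 2 * q ≤ ((B ∩ unc L ∩ pts l).card : ℝ))
    let R₂ := univ.filter
      (fun l : Ln F => φ / 4 * q ≤ ((∑ p ∈ B ∩ pts l, (mult L p - 1) : ℕ) : ℝ))
    have h5 : H ⊆ L ∪ (R₁ ∪ R₂) := by
      intro l hl
      by_cases hlL : l ∈ L
      · exact mem_union_left _ hlL
      · refine mem_union_right _ ?_
        rcases hHL l hl hlL with h | h
        · exact mem_union_left _ (mem_filter.2 ⟨mem_univ _, by linarith⟩)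
        · exact mem_union_right _ (mem_filter.2 ⟨mem_univ _, by linarith⟩)
    have h6 : R₁.card ≤ Fintype.card F := hcnt (φ / 2) R₁ (by positivity) (by linarith)
      (by nlinarith) (fun l hl => (mem_filter.1 hl).2)
    have h7 := card_grich_le B L hL (φ / 4) (by positivity) (by rw [← hqd]; nlinarith) R₂
      (fun l hl => (mem_filter.1 hl).2)
    rw [← hqd] at h7
    have h8 : (R₂.card : ℝ) ≤ 64 / φ ^ 2 * q := by
      rw [div_mul_eq_mul_div, le_div_iff₀ (by positivity)]; nlinarith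
    have h9 : H.card ≤ Fintype.card F + (Fintype.card F + R₂.card) :=
      (card_le_card h5).trans ((card_union_le _ _).trans (Nat.add_le_add hL.le
        ((card_union_le _ _).trans (Nat.add_le_add_right h6 _))))
    have h10 : (H.card : ℝ) ≤ q + (q + R₂.card) := by rw [hqd]; exact_mod_cast h9
    have h11 : (H.card : ℝ) ≤ N := by linarith
    exact_mod_cast h11
  set L₁ := L ∩ H with hL₁
  set R := rich B (γ * q) L₁ with hR
  have hLL₁ : ((L \ L₁).card : ℝ) ≤ γ / 2 * q := by rwa [hL₁, sdiff_inter_self_left]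
  have hRc : R.card ≤ 2 * Fintype.card F := by
    have h5 : (R \ L).card ≤ Fintype.card F := hcnt (γ / 2) (R \ L) (by positivity) (by linarith)
      (by nlinarith) (fun l hl => by
        have := rstep_one hLL₁ (mem_sdiff.1 hl).1 (mem_sdiff.1 hl).2
        linarith)
    have h6 : R.card ≤ (R \ L).card + L.card := card_le_card_sdiff_add_card
    omega
  have hsub : B ∩ unc L ⊆ B ∩ unc (L₁ ∪ (L ∩ R)) := by
    intro p hp
    refine mem_inter.2 ⟨(mem_inter.1 hp).1, mem_unc.2 fun l hl => mem_unc.1 (mem_inter.1 hp).2 l ?_⟩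
    rcases mem_union.1 hl with h | h <;> exact (mem_inter.1 h).1
  have hlow : ε * q ^ 2 / 2 ≤ (B ∩ unc (L₁ ∪ (L ∩ R))).card :=
    hu1.trans (by exact_mod_cast card_le_card hsub)
  refine ⟨B ∩ unc (L₁ ∪ (L ∩ R)), mem_filter.2 ⟨?_, inter_subset_left, hlow⟩, ?_⟩
  · refine mem_biUnion.2 ⟨H, mem_filter.2 ⟨hH, hHN⟩, mem_biUnion.2 ⟨L₁, mem_filter.2
      ⟨mem_powerset.2 inter_subset_right, hRc⟩, mem_image.2 ⟨L ∩ R,
        mem_powerset.2 inter_subset_right, rfl⟩⟩⟩
  · have h5 := rstep_three (B := B) (a := γ * q) (L := L) (L₁ := L₁) (L₂ := L₁ ∪ (L ∩ R))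
      subset_union_left subset_union_right
    have h6 := rstep_two (B := B) (a := γ * q) (d := δ * q) (L := L) (L₁ := L₁)
      (by rw [sdiff_eq_empty_iff_subset.2 inter_subset_left]; simp; positivity) hb (by nlinarith)
    set t : ℝ := ((L \ (L₁ ∪ rich B (γ * q) L₁)).card : ℝ) with ht
    have h7 : t * δ ≤ 8 * ε * q := by
      have : t * δ * q ≤ 8 * ε * q * q := by nlinarith
      exact le_of_mul_le_mul_right this hq0
    have ht0 : 0 ≤ t := Nat.cast_nonneg _
    have h8 : (2 : ℝ) ^ J * (((B ∩ unc (L₁ ∪ (L ∩ R))) \ unc L).card : ℝ) <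
        (B ∩ unc (L₁ ∪ (L ∩ R))).card := by
      have h9 : (2 : ℝ) ^ J * (((B ∩ unc (L₁ ∪ (L ∩ R))) \ unc L).card : ℝ) ≤
          2 ^ J * (t * (γ * q)) := mul_le_mul_of_nonneg_left h5 (by positivity)
      have h10 : (2 : ℝ) ^ J * (t * (γ * q)) * δ < ε * q ^ 2 / 2 * δ := by
        have h11 : (2 : ℝ) ^ J * (t * (γ * q)) * δ = (2 ^ J * γ * q) * (t * δ) := by ring
        have h12 : (2 ^ J * γ * q) * (t * δ) ≤ (2 ^ J * γ * q) * (8 * ε * q) :=
          mul_le_mul_of_nonneg_left h7 (by positivity)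
        have h13 : (ε * q ^ 2 / 2) * (2 ^ J * 16 * γ) < (ε * q ^ 2 / 2) * δ :=
          mul_lt_mul_of_pos_left a4 (by positivity)
        nlinarith
      have h11 := lt_of_mul_lt_mul_right h10 hδ.le
      linarith
    exact_mod_cast h8

end Crest.Agent.R34
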