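import Crest.Agent.R34.Plane

/-! From good gadget data to the hypergraph. -/

set_option autoImplicit false

namespace Crest.Agent.R34

open Finset

namespace Data

variable {F : Type} [Field F]

/-- the centre index used by a slot -/
def idx : Slot F → Fin 2
  | (_, _, none) => 0
  | (_, _, some (i, _)) => i

/-- the unmodified pencil at a point -/
def pen (p : Pt F) : Dir F → Option F := fun d => some (lin d p)

open Classical in
/-- the modified pencil at a centre -/
noncomputable def ed (G : Data F) (d : Dir F) (i : Fin 2) : Dir F → Option F := fun d' =>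
  if d' = d then none else
    if h : ∃ j, G.a d i j = d' then some (lin d' (G.y d h.choose)) else some (lin d' (G.x d i))

variable [Fintype F] {G : Data F}

omit [Fintype F] in
theorem sp_prim (d : Dir F) : G.Sp (G.prim d) := Or.inl ⟨d, rfl⟩

omit [Fintype F] in
theorem sp_aux (d : Dir F) (i : Fin 2) (j : Fin 10) : G.Sp (G.aux d i j) := Or.inr ⟨d, i, j, rfl⟩

omit [Fintype F] in
theorem sp_sl (s : Slot F) : G.Sp (G.sl s) := by
  rcases s with ⟨d, j, _ | ⟨i, j'⟩⟩
  · exact sp_prim d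
  · exact sp_aux d i j'

omit [Fintype F] in
theorem x_on_aux (d : Dir F) (i : Fin 2) (j : Fin 10) : On (G.x d i) (G.aux d i j) := rfl

omit [Fintype F] in
theorem y_on_ptr (d : Dir F) (i : Fin 2) (j : Fin 10) : On (G.y d j) (G.ptr d i j) := rfl

omit [Field F] [Fintype F] in
theorem prim_inj {d d' : Dir F} (h : G.prim d = G.prim d') : d = d' := congrArg Prod.fst h

omit [Field F] [Fintype F] in
theorem adm_none (d : Dir F) (j : Fin 10) : Adm ((d, j, none) : Slot F) := by
  intro i j' h; cases h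

omit [Field F] [Fintype F] in
theorem adm_some {d : Dir F} {j' : Fin 10} {i : Fin 2} {j : Fin 10} :
    Adm ((d, j', some (i, j)) : Slot F) ↔ j ≠ j' := by
  constructor
  · intro h; exact h i j rfl
  · intro h i' j'' e
    simp only [Option.some.injEq, Prod.mk.injEq] at e
    rw [← e.2]; exact h

theorem sl_inj (hG : G.Good) {s s' : Slot F} (h : G.sl s = G.sl s') :
    s.1 = s'.1 ∧ s.2.2 = s'.2.2 := by
  rcases s with ⟨d, j, _ | ⟨i, k⟩⟩ <;> rcases s' with ⟨d', j', _ | ⟨i', k'⟩⟩
  · exact ⟨prim_inj h, rfl⟩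
  · exact absurd h.symm (hG.aux_ne_prim _ _ _ _)
  · exact absurd h (hG.aux_ne_prim _ _ _ _)
  · obtain ⟨rfl, rfl, rfl⟩ := hG.aux_inj _ _ _ _ _ _ h
    exact ⟨rfl, rfl⟩

theorem dir_ne (hG : G.Good) {d : Dir F} {i : Fin 2} {j j' : Fin 10} (h : j ≠ j') :
    (G.aux d i j).1 ≠ (G.ptr d i j').1 := fun e => h (hG.a_inj _ _ _ _ _ e).2

theorem sp_on_sl (hG : G.Good) {s : Slot F} (hs : Adm s) : On (G.sp s) (G.sl s) := by
  rcases s with ⟨d, j, _ | ⟨i, k⟩⟩
  · exact hG.y_on d j
  · exact meet_on_left (dir_ne hG (adm_some.1 hs))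

theorem sp_on_ptr (hG : G.Good) {d : Dir F} {j' : Fin 10} {i : Fin 2} {j : Fin 10} (h : j ≠ j') :
    On (G.sp (d, j', some (i, j))) (G.ptr d i j') := meet_on_right (dir_ne hG h)

theorem x_on_sl (hG : G.Good) (s : Slot F) : On (G.x s.1 (idx s)) (G.sl s) := by
  rcases s with ⟨d, j, _ | ⟨i, k⟩⟩
  · exact hG.x_on d 0
  · exact x_on_aux d i k

theorem sp_ne_x (hG : G.Good) {s : Slot F} (hs : Adm s) (d : Dir F) (i : Fin 2) :
    G.sp s ≠ G.x d i := by
  intro e
  have h1 := hG.sp_free s hs _ (sp_prim d) (e ▸ hG.x_on d i)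
  have h2 := hG.sp_free s hs _ (sp_aux d i 0) (e ▸ x_on_aux d i 0)
  exact hG.aux_ne_prim d i 0 d (h2.trans h1.symm)

theorem y_ne_x (hG : G.Good) (d : Dir F) (j : Fin 10) (i : Fin 2) : G.y d j ≠ G.x d i :=
  sp_ne_x hG (adm_none d j) d i

theorem slot_eq (hG : G.Good) {s s' : Slot F} (hs : Adm s) (hs' : Adm s') (h : G.sl s = G.sl s')
    (h' : G.sp s = G.sp s') : s = s' := by
  rcases s with ⟨d, j, o⟩
  rcases s' with ⟨d', j', o'⟩
  obtain ⟨h1, h2⟩ := sl_inj hG h
  simp only at h1 h2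
  subst h1 h2
  rw [hG.sp_inj d j j' o hs hs' h']

omit [Fintype F] in
theorem ed_self (d : Dir F) (i : Fin 2) : G.ed d i d = none := by simp [ed]

theorem ed_a (hG : G.Good) (d : Dir F) (i : Fin 2) (j : Fin 10) :
    G.ed d i (G.a d i j) = some (lin (G.a d i j) (G.y d j)) := by
  have h : ∃ j', G.a d i j' = G.a d i j := ⟨j, rfl⟩
  have h2 : h.choose = j := (hG.a_inj _ _ _ _ _ h.choose_spec).2
  simp only [ed, if_neg (hG.a_ne d i j), dif_pos h, h2]

omit [Fintype F] in
theorem ed_other {d : Dir F} {i : Fin 2} {d' : Dir F} (h1 : d' ≠ d) (h2 : ∀ j, G.a d i j ≠ d') :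
    G.ed d i d' = some (lin d' (G.x d i)) := by
  have h : ¬ ∃ j, G.a d i j = d' := fun ⟨j, e⟩ => h2 j e
  simp only [ed, if_neg h1, dif_neg h]

/-- the base points of the unmodified pencils -/
def Base (G : Data F) (p : Pt F) : Prop :=
  (∀ l, G.Sp l → ¬ On p l) ∨ ∃ s, Adm s ∧ p = G.sp s

theorem ed_pen (hG : G.Good) (d : Dir F) (i : Fin 2) {p : Pt F} (hp : G.Base p) :
    ∃ d', G.ed d i d' = pen p d' := by
  obtain ⟨δ, hδ⟩ := exists_dir p (G.x d i)
  by_cases h1 : δ = d
  · subst h1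
    have hon : On p (G.prim δ) := hδ.trans (hG.x_on δ i)
    rcases hp with hp | ⟨s, hs, rfl⟩
    · exact absurd hon (hp _ (sp_prim δ))
    · have e := hG.sp_free s hs _ (sp_prim δ) hon
      rcases s with ⟨d', j', o⟩
      obtain ⟨e1, e2⟩ := sl_inj hG (s := (δ, j', none)) (s' := (d', j', o)) e
      simp only at e1 e2
      subst e1 e2
      exact ⟨G.a δ i j', ed_a hG δ i j'⟩
  by_cases h2 : ∃ j, G.a d i j = δ
  · obtain ⟨j, rfl⟩ := h2
    have hon : On p (G.aux d i j) := hδ
    rcases hp with hp | ⟨s, hs, rfl⟩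
    · exact absurd hon (hp _ (sp_aux d i j))
    · have e := hG.sp_free s hs _ (sp_aux d i j) hon
      rcases s with ⟨d', j', o⟩
      obtain ⟨e1, e2⟩ := sl_inj hG (s := (d, j', some (i, j))) (s' := (d', j', o)) e
      simp only at e1 e2
      subst e1 e2
      refine ⟨G.a d i j', ?_⟩
      rw [ed_a hG d i j']
      exact congrArg some (sp_on_ptr hG (adm_some.1 hs)).symm
  · refine ⟨δ, ?_⟩
    rw [ed_other h1 (fun j e => h2 ⟨j, e⟩)]
    exact congrArg some hδ.symm

theorem ed_ed_aux (hG : G.Good) {d d' : Dir F} (hd : d ≠ d') {i i' : Fin 2} {δ : Dir F}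
    (hδ : lin δ (G.x d i) = lin δ (G.x d' i')) : δ ≠ d ∧ ∀ j, G.a d i j ≠ δ := by
  constructor
  · rintro rfl
    have hon : On (G.x d' i') (G.prim δ) := hδ.symm.trans (hG.x_on δ i)
    rcases hG.x_free d' i' _ (sp_prim δ) hon with e | ⟨j, e⟩
    · exact hd (prim_inj e)
    · exact hG.aux_ne_prim _ _ _ _ e.symm
  · rintro j rfl
    have hon : On (G.x d' i') (G.aux d i j) := hδ.symm
    rcases hG.x_free d' i' _ (sp_aux d i j) hon with e | ⟨j', e⟩
    · exact hG.aux_ne_prim _ _ _ _ e
    · exact hd (hG.aux_inj _ _ _ _ _ _ e).1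

theorem ed_ed (hG : G.Good) (d d' : Dir F) (i i' : Fin 2) :
    ∃ δ, G.ed d i δ = G.ed d' i' δ := by
  by_cases hd : d = d'
  · subst hd
    exact ⟨d, by rw [ed_self, ed_self]⟩
  · obtain ⟨δ, hδ⟩ := exists_dir (G.x d i) (G.x d' i')
    obtain ⟨a1, a2⟩ := ed_ed_aux hG hd hδ
    obtain ⟨b1, b2⟩ := ed_ed_aux hG (Ne.symm hd) hδ.symm
    exact ⟨δ, by rw [ed_other a1 a2, ed_other b1 b2, hδ]⟩

variable [DecidableEq F]

/-- general position: at most four different variables on one line -/
theorem gp_card (hG : G.Good) {z : PPt F} {h : Ln F} (hz : ¬ thru z h) (A : Finset (Slot F))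
    (h1 : ∀ s ∈ A, Adm s) (h2 : ∀ s ∈ A, thru z (G.sl s)) (h3 : ∀ s ∈ A, On (G.sp s) h) :
    (A.image (fun s => (s.1, s.2.1))).card ≤ 4 := by
  by_contra hc
  have hc' : 5 ≤ (A.image (fun s => (s.1, s.2.1))).card := by omega
  obtain ⟨B, hB, hB5⟩ := exists_subset_card_eq hc'
  have e : B ≃ Fin 5 := Fintype.equivFinOfCardEq (by simpa using hB5)
  have hex : ∀ a : Fin 5, ∃ s ∈ A, (s.1, s.2.1) = ((e.symm a : B) : Option F × Fin 10) :=
    fun a => mem_image.1 (hB (e.symm a).2)
  choose s hsA hs using hex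
  have hinj : Function.Injective (fun a => ((s a).1, (s a).2.1)) := by
    intro a b hab
    simp only [hs] at hab
    exact e.symm.injective (Subtype.ext hab)
  refine hG.gp z h s hz (fun a => h1 _ (hsA a)) hinj ?_ (fun a => h2 _ (hsA a))
    (fun a => h3 _ (hsA a))
  intro a b hab
  simp only at hab
  have hne : G.sl (s a) ≠ h := fun e' => hz (e' ▸ h2 _ (hsA a))
  have hp : G.sp (s a) = G.sp (s b) :=
    pt_eq_of_on hne (sp_on_sl hG (h1 _ (hsA a))) (h3 _ (hsA a))
      (hab ▸ sp_on_sl hG (h1 _ (hsA b))) (h3 _ (hsA b))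
  have := slot_eq hG (h1 _ (hsA a)) (h1 _ (hsA b)) hab hp
  apply hinj
  simp only [this]

omit [DecidableEq F] in
theorem slot_eq_of_on (hG : G.Good) {z : PPt F} {h : Ln F} (hz : ¬ thru z h) {s s' : Slot F}
    (hs : Adm s) (hs' : Adm s') (h2 : thru z (G.sl s)) (h3 : On (G.sp s) h) (h3' : On (G.sp s') h)
    (e : G.sl s = G.sl s') : s = s' := by
  have hne : G.sl s ≠ h := fun e' => hz (e' ▸ h2)
  exact slot_eq hG hs hs' e
    (pt_eq_of_on hne (sp_on_sl hG hs) h3 (e ▸ sp_on_sl hG hs') h3')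

/-- away from the centres a line carries at most eight singles -/
theorem card_le_eight (hG : G.Good) {z : PPt F} {h : Ln F} (hz : ¬ thru z h)
    (hzc : ∀ d i, z ≠ Sum.inl (G.x d i)) (A : Finset (Slot F))
    (h1 : ∀ s ∈ A, Adm s) (h2 : ∀ s ∈ A, thru z (G.sl s)) (h3 : ∀ s ∈ A, On (G.sp s) h) :
    A.card ≤ 8 := by
  have h4 := gp_card hG hz A h1 h2 h3
  have h5 : (A.image (fun s => s.1)).card ≤ 4 := by
    refine le_trans ?_ h4
    have : A.image (fun s => s.1) = (A.image (fun s => (s.1, s.2.1))).image Prod.fst := by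
      rw [image_image]; rfl
    rw [this]
    exact card_image_le
  have h6 : A.card ≤ ((A.image (fun s => s.1)) ×ˢ (univ : Finset (Fin 2))).card := by
    refine card_le_card_of_injOn (fun s => (s.1, idx s)) ?_ ?_
    · intro s hs
      simp only [coe_product, Set.mem_prod, mem_coe, mem_univ, and_true]
      exact mem_image_of_mem _ hs
    · intro s hs s' hs' e
      simp only [Prod.mk.injEq] at e
      refine slot_eq_of_on hG hz (h1 s hs) (h1 s' hs') (h2 s hs) (h3 s hs) (h3 s' hs') ?_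
      by_contra hne
      have a1 := x_on_sl hG s
      have a2 := x_on_sl hG s'
      rw [← e.1, ← e.2] at a2
      exact hzc _ _ (eq_of_thru hne (h2 s hs) (h2 s' hs') a1 a2)
  rw [card_product, card_univ, Fintype.card_fin] at h6
  omega

omit [DecidableEq F] in
theorem slot_at_centre (hG : G.Good) {d : Dir F} {i : Fin 2} {s : Slot F}
    (h : On (G.x d i) (G.sl s)) : s.1 = d ∧ (s.2.2 = none ∨ ∃ j, s.2.2 = some (i, j)) := by
  rcases hG.x_free d i _ (sp_sl s) h with e | ⟨j, e⟩
  · obtain ⟨a, b⟩ := sl_inj hG (s := s) (s' := (d, 0, none)) e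
    exact ⟨a, Or.inl b⟩
  · obtain ⟨a, b⟩ := sl_inj hG (s := s) (s' := (d, 0, some (i, j))) e
    exact ⟨a, Or.inr ⟨j, b⟩⟩

omit [DecidableEq F] in
theorem sp_on_ptr_centre (hG : G.Good) {d : Dir F} {i : Fin 2} {s : Slot F} (hs : Adm s)
    (h : On (G.x d i) (G.sl s)) : On (G.sp s) (G.ptr d i s.2.1) := by
  obtain ⟨a, b⟩ := slot_at_centre hG h
  rcases s with ⟨d', j', o⟩
  simp only at a b
  subst a
  rcases b with rfl | ⟨j, rfl⟩
  · exact y_on_ptr d' i j'
  · exact sp_on_ptr hG (adm_some.1 hs)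

/-- at a centre a non-pointer line carries at most four singles -/
theorem card_le_four (hG : G.Good) {d : Dir F} {i : Fin 2} {h : Ln F} (hz : ¬ On (G.x d i) h)
    (hp : ∀ j, h ≠ G.ptr d i j) (A : Finset (Slot F))
    (h1 : ∀ s ∈ A, Adm s) (h2 : ∀ s ∈ A, On (G.x d i) (G.sl s)) (h3 : ∀ s ∈ A, On (G.sp s) h) :
    A.card ≤ 4 := by
  have h4 := gp_card hG (z := Sum.inl (G.x d i)) hz A h1 h2 h3
  rw [card_image_of_injOn] at h4
  · exact h4
  intro s hs s' hs' e
  simp only [Prod.mk.injEq] at e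
  by_contra hne
  have hsp : G.sp s ≠ G.sp s' := by
    intro e'
    have a1 := hG.sp_free s (h1 s hs) _ (sp_sl s') (e' ▸ sp_on_sl hG (h1 s' hs'))
    exact hne (slot_eq hG (h1 s hs) (h1 s' hs') a1.symm e')
  have b1 := sp_on_ptr_centre hG (h1 s hs) (h2 s hs)
  have b2 := sp_on_ptr_centre hG (h1 s' hs') (h2 s' hs')
  rw [← e.2] at b2
  exact hp _ (line_eq_of_on hsp (h3 s hs) b1 (h3 s' hs') b2)

/-- at a centre a line carries at most nine singles of auxiliary lines -/
theorem card_le_nine (hG : G.Good) {d : Dir F} {i : Fin 2} {h : Ln F} (hz : ¬ On (G.x d i) h)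
    (A : Finset (Slot F)) (h0 : ∀ s ∈ A, s.2.2 ≠ none)
    (h1 : ∀ s ∈ A, Adm s) (h2 : ∀ s ∈ A, On (G.x d i) (G.sl s)) (h3 : ∀ s ∈ A, On (G.sp s) h) :
    A.card ≤ 9 := by
  by_cases hp : ∀ j, h ≠ G.ptr d i j
  · have := card_le_four hG hz hp A h1 h2 h3
    omega
  push Not at hp
  obtain ⟨j₀, rfl⟩ := hp
  have h6 : A.card ≤ (((univ : Finset (Fin 10)).erase j₀).image
      (fun j => (some (i, j) : Option (Fin 2 × Fin 10)))).card := by
    refine card_le_card_of_injOn (fun s => s.2.2) ?_ ?_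
    · intro s hs
      obtain ⟨a, b⟩ := slot_at_centre hG (h2 s hs)
      rcases b with b | ⟨j, b⟩
      · exact absurd b (h0 s hs)
      · simp only [coe_image, Set.mem_image, mem_coe, mem_erase, mem_univ, and_true]
        refine ⟨j, ?_, b.symm⟩
        rintro rfl
        rcases s with ⟨d', j', o⟩
        simp only at a b
        subst a b
        have e : G.aux d' i j = G.ptr d' i j :=
          line_eq_of_dir (sp_on_sl hG (h1 _ hs)) (h3 _ hs) rfl
        exact hz (e ▸ x_on_aux d' i j)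
    · intro s hs s' hs' e
      refine slot_eq_of_on hG (z := Sum.inl (G.x d i)) hz (h1 s hs) (h1 s' hs') (h2 s hs)
        (h3 s hs) (h3 s' hs') ?_
      obtain ⟨a, -⟩ := slot_at_centre hG (h2 s hs)
      obtain ⟨a', -⟩ := slot_at_centre hG (h2 s' hs')
      rcases s with ⟨d1, j1, o1⟩
      rcases s' with ⟨d2, j2, o2⟩
      simp only at a a' e
      subst a a' e
      rcases o1 with _ | ⟨i1, k1⟩ <;> rfl
  refine h6.trans (card_image_le.trans ?_)
  rw [card_erase_of_mem (mem_univ _), card_univ, Fintype.card_fin]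

/-- at a centre a line carries at most ten singles -/
theorem card_le_ten (hG : G.Good) {d : Dir F} {i : Fin 2} {h : Ln F} (hz : ¬ On (G.x d i) h)
    (A : Finset (Slot F))
    (h1 : ∀ s ∈ A, Adm s) (h2 : ∀ s ∈ A, On (G.x d i) (G.sl s)) (h3 : ∀ s ∈ A, On (G.sp s) h) :
    A.card ≤ 10 := by
  have a := card_le_nine hG hz (A.filter (fun s => ¬ s.2.2 = none))
    (fun s hs => (mem_filter.1 hs).2) (fun s hs => h1 s (mem_filter.1 hs).1)
    (fun s hs => h2 s (mem_filter.1 hs).1) (fun s hs => h3 s (mem_filter.1 hs).1)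
  have b : (A.filter (fun s => s.2.2 = none)).card ≤ 1 := by
    rw [card_le_one]
    intro s hs s' hs'
    obtain ⟨hs, e⟩ := mem_filter.1 hs
    obtain ⟨hs', e'⟩ := mem_filter.1 hs'
    refine slot_eq_of_on hG (z := Sum.inl (G.x d i)) hz (h1 s hs) (h1 s' hs') (h2 s hs)
      (h3 s hs) (h3 s' hs') ?_
    obtain ⟨a, -⟩ := slot_at_centre hG (h2 s hs)
    obtain ⟨a', -⟩ := slot_at_centre hG (h2 s' hs')
    rcases s with ⟨d1, j1, o1⟩
    rcases s' with ⟨d2, j2, o2⟩
    simp only at a a' e e'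
    subst a a' e e'
    rfl
  have c := card_filter_add_card_filter_not (s := A) (fun s => s.2.2 = none)
  omega

open Classical in
/-- the admissible slots on a given line -/
noncomputable def slots (G : Data F) (l : Ln F) : Finset (Slot F) :=
  univ.filter (fun s => Adm s ∧ G.sl s = l)

theorem mem_slots {l : Ln F} {s : Slot F} : s ∈ G.slots l ↔ Adm s ∧ G.sl s = l := by
  simp only [slots, mem_filter, mem_univ, true_and]

theorem ten_le_slots (d : Dir F) : 10 ≤ (G.slots (G.prim d)).card := by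
  have := card_le_card_of_injOn (s := (univ : Finset (Fin 10))) (t := G.slots (G.prim d))
    (fun j => ((d, j, none) : Slot F)) (fun j _ => mem_slots.2 ⟨adm_none d j, rfl⟩)
    (fun j _ j' _ e => by simpa using e)
  simpa using this

theorem nine_le_slots {l : Ln F} (hl : G.Sp l) : 9 ≤ (G.slots l).card := by
  rcases hl with ⟨d, rfl⟩ | ⟨d, i, j, rfl⟩
  · have := ten_le_slots (G := G) d
    omega
  · have := card_le_card_of_injOn (s := (univ : Finset (Fin 10)).erase j)
      (t := G.slots (G.aux d i j)) (fun j' => ((d, j', some (i, j)) : Slot F))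
      (fun j' hj => mem_slots.2 ⟨adm_some.2 (ne_of_mem_erase hj).symm, rfl⟩)
      (fun j _ j' _ e => by simpa using e)
    rw [card_erase_of_mem (mem_univ _), card_univ, Fintype.card_fin] at this
    exact this

theorem eight_le_slots (hG : G.Good) {l : Ln F} (hl : G.Sp l) (z : PPt F) :
    8 ≤ ((G.slots l).filter (fun s => ¬ z = Sum.inl (G.sp s))).card := by
  have a := nine_le_slots hl
  have b : ((G.slots l).filter (fun s => z = Sum.inl (G.sp s))).card ≤ 1 := by
    rw [card_le_one]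
    intro s hs s' hs'
    obtain ⟨hs, e⟩ := mem_filter.1 hs
    obtain ⟨hs', e'⟩ := mem_filter.1 hs'
    rw [mem_slots] at hs hs'
    exact slot_eq hG hs.1 hs'.1 (hs.2.trans hs'.2.symm) (Sum.inl.inj (e.symm.trans e'))
  have c := card_filter_add_card_filter_not (s := G.slots l) (fun s => z = Sum.inl (G.sp s))
  omega

/-- the double count -/
theorem count (hG : G.Good) (TL : Finset (Ln F)) (hT : ∀ s, Adm s → ∃ h ∈ TL, On (G.sp s) h)
    (z : PPt F) (w : Ln F → ℕ)
    (hw : ∀ h ∈ TL, ¬ thru z h → ∀ A : Finset (Slot F), (∀ s ∈ A, Adm s) →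
      (∀ s ∈ A, thru z (G.sl s)) → (∀ s ∈ A, G.sl s ∉ TL) → (∀ s ∈ A, On (G.sp s) h) →
        A.card ≤ w h) :
    ∑ l ∈ univ.filter (fun l => thru z l ∧ l ∉ TL),
        ((G.slots l).filter (fun s => ¬ z = Sum.inl (G.sp s))).card ≤
      ∑ h ∈ TL.filter (fun l => ¬ thru z l), w h := by
  classical
  set M := univ.filter (fun l => thru z l ∧ l ∉ TL) with hM
  set S := M.biUnion (fun l => (G.slots l).filter (fun s => ¬ z = Sum.inl (G.sp s))) with hS
  have hmem : ∀ s ∈ S, Adm s ∧ thru z (G.sl s) ∧ G.sl s ∉ TL ∧ ¬ z = Sum.inl (G.sp s) := by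
    intro s hs
    obtain ⟨l, hl, hs⟩ := mem_biUnion.1 hs
    obtain ⟨hs, e⟩ := mem_filter.1 hs
    obtain ⟨hs', e'⟩ := mem_slots.1 hs
    rw [← e'] at hl
    exact ⟨hs', (mem_filter.1 hl).2.1, (mem_filter.1 hl).2.2, e⟩
  have h1 : S.card = ∑ l ∈ M, ((G.slots l).filter (fun s => ¬ z = Sum.inl (G.sp s))).card := by
    refine card_biUnion ?_
    intro l _ l' _ hne
    simp only [Function.onFun]
    rw [disjoint_left]
    intro s hs hs'
    exact hne ((mem_slots.1 (mem_filter.1 hs).1).2.symm.trans (mem_slots.1 (mem_filter.1 hs').1).2)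
  have h2 : S ⊆ (TL.filter (fun l => ¬ thru z l)).biUnion
      (fun h => S.filter (fun s => On (G.sp s) h)) := by
    intro s hs
    obtain ⟨a, b, c, e⟩ := hmem s hs
    obtain ⟨h, hh, hon⟩ := hT s a
    refine mem_biUnion.2 ⟨h, mem_filter.2 ⟨hh, fun hz => ?_⟩, mem_filter.2 ⟨hs, hon⟩⟩
    have hne : G.sl s ≠ h := fun e' => c (e' ▸ hh)
    exact e (eq_of_thru hne b hz (sp_on_sl hG a) hon)
  rw [← h1]
  refine (card_le_card h2).trans (card_biUnion_le.trans (sum_le_sum fun h hh => ?_))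
  obtain ⟨hh, hz⟩ := mem_filter.1 hh
  exact hw h hh hz _ (fun s hs => (hmem s (mem_filter.1 hs).1).1)
    (fun s hs => (hmem s (mem_filter.1 hs).1).2.1) (fun s hs => (hmem s (mem_filter.1 hs).1).2.2.1)
    (fun s hs => (mem_filter.1 hs).2)

omit [DecidableEq F] in
/-- the second modified pencil of a gadget avoids the lines of the exceptional cover -/
theorem ed_avoid (hG : G.Good) {d : Dir F} {i i' : Fin 2} (hi : i ≠ i') {δ : Dir F} {c : F}
    (h : G.ed d i' δ = some c) : ¬ On (G.x d i) (δ, c) ∧ ∀ j, (δ, c) ≠ G.ptr d i j := by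
  have hx : G.x d i ≠ G.x d i' := by
    have := hG.x_ne d
    fin_cases i <;> fin_cases i'
    · exact absurd rfl hi
    · exact this
    · exact this.symm
    · exact absurd rfl hi
  have hd : δ ≠ d := by
    rintro rfl
    rw [ed_self] at h
    cases h
  by_cases h2 : ∃ j, G.a d i' j = δ
  · obtain ⟨j, rfl⟩ := h2
    rw [ed_a hG] at h
    obtain rfl := Option.some.inj h
    constructor
    · intro hon
      have := line_eq_of_on (y_ne_x hG d j i) (on_lin _ _) (hG.y_on d j) hon (hG.x_on d i)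
      exact hd (congrArg Prod.fst this)
    · intro j' e
      exact hi (hG.a_inj _ _ _ _ _ (congrArg Prod.fst e)).1.symm
  · rw [ed_other hd (fun j e => h2 ⟨j, e⟩)] at h
    obtain rfl := Option.some.inj h
    constructor
    · intro hon
      have := line_eq_of_on hx hon (hG.x_on d i) (on_lin _ _) (hG.x_on d i')
      exact hd (congrArg Prod.fst this)
    · intro j' e
      have hon : On (G.y d j') (δ, lin δ (G.x d i')) := e ▸ y_on_ptr d i j'
      have := line_eq_of_on (y_ne_x hG d j' i') hon (hG.y_on d j') (on_lin _ _) (hG.x_on d i')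
      exact hd (congrArg Prod.fst this)

theorem no_small_cover (hG : G.Good) (T : Finset (Dir F × Option F))
    (hp : ∀ p, G.Base p → ∃ d, (d, pen p d) ∈ T) (he : ∀ d i, ∃ δ, (δ, G.ed d i δ) ∈ T) :
    Fintype.card F + 1 ≤ T.card := by
  classical
  by_contra hc
  have hc : T.card ≤ Fintype.card F := by omega
  set TL : Finset (Ln F) := univ.filter (fun l => (l.1, some l.2) ∈ T) with hTL
  have memTL : ∀ l : Ln F, l ∈ TL ↔ (l.1, some l.2) ∈ T := fun l => by simp [hTL]
  have hinj : Function.Injective (fun l : Ln F => ((l.1, some l.2) : Dir F × Option F)) := by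
    intro l l' e
    simp only [Prod.mk.injEq, Option.some.injEq] at e
    exact Prod.ext e.1 e.2
  have hsub : TL.image (fun l : Ln F => ((l.1, some l.2) : Dir F × Option F)) ⊆ T := by
    intro v hv
    obtain ⟨l, hl, rfl⟩ := mem_image.1 hv
    exact (memTL l).1 hl
  have c1 : TL.card ≤ T.card := by
    rw [← card_image_of_injective TL hinj]; exact card_le_card hsub
  have c2 : ∀ δ, (δ, none) ∈ T → TL.card + 1 ≤ T.card := by
    intro δ hδ
    rw [← card_image_of_injective TL hinj]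
    refine card_lt_card ⟨hsub, fun h => ?_⟩
    obtain ⟨l, -, e⟩ := mem_image.1 (h hδ)
    simp at e
  have hcov : ∀ p, G.Base p → ∃ l ∈ TL, On p l := by
    intro p hb
    obtain ⟨d, hd⟩ := hp p hb
    exact ⟨(d, lin d p), (memTL _).2 hd, on_lin d p⟩
  obtain ⟨z, hz⟩ := hG.cover TL (c1.trans hc) (fun p h => hcov p (Or.inl h))
  have hT : ∀ s, Adm s → ∃ h ∈ TL, On (G.sp s) h := fun s hs => hcov _ (Or.inr ⟨s, hs, rfl⟩)
  set M := univ.filter (fun l => thru z l ∧ l ∉ TL) with hM
  set H := TL.filter (fun l => ¬ thru z l) with hH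
  have hMsp : ∀ l ∈ M, G.Sp l := by
    intro l hl
    obtain ⟨a, b⟩ := (mem_filter.1 hl).2
    by_contra h
    exact b (hz l a h)
  have c3 : (TL.filter (fun l => thru z l)).card + H.card = TL.card :=
    card_filter_add_card_filter_not (s := TL) (fun l => thru z l)
  have c4 : (TL.filter (fun l => thru z l)).card + M.card =
      (univ.filter (fun l : Ln F => thru z l)).card := by
    rw [← card_filter_add_card_filter_not (s := univ.filter (fun l : Ln F => thru z l))
      (fun l => l ∈ TL)]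
    congr 2
    · ext l; simp [and_comm]
    · ext l; simp [hM]
  by_cases hzc : ∀ d i, z ≠ Sum.inl (G.x d i)
  · have k := count hG TL hT z (fun _ => 8)
      (fun h _ hz A a b _ c => card_le_eight hG hz hzc A a b c)
    rw [← hM, ← hH, sum_const, smul_eq_mul] at k
    rcases z with p | d
    · have k2 : M.card * 8 ≤ ∑ l ∈ M,
          ((G.slots l).filter (fun s => ¬ (Sum.inl p : PPt F) = Sum.inl (G.sp s))).card := by
        rw [← smul_eq_mul]
        exact card_nsmul_le_sum _ _ _ (fun l hl => eight_le_slots hG (hMsp l hl) _)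
      have k3 := card_lines_on p
      simp only [thru_inl] at c4 c3
      omega
    · have k2 : M.card * 9 ≤ ∑ l ∈ M,
          ((G.slots l).filter (fun s => ¬ (Sum.inr d : PPt F) = Sum.inl (G.sp s))).card := by
        rw [← smul_eq_mul]
        refine card_nsmul_le_sum _ _ _ (fun l hl => ?_)
        rw [filter_true_of_mem (fun s _ => by simp)]
        exact nine_le_slots (hMsp l hl)
      have k3 := card_lines_dir d
      simp only [thru_inr] at c4 c3
      obtain ⟨δ, hδ⟩ := he d 0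
      rcases e : G.ed d 0 δ with _ | c
      · rw [e] at hδ
        have := c2 δ hδ
        omega
      · rw [e] at hδ
        have hne : δ ≠ d := by
          rintro rfl
          rw [ed_self] at e
          cases e
        have : (δ, c) ∈ H := mem_filter.2 ⟨(memTL _).2 hδ, hne⟩
        have := card_pos.2 ⟨_, this⟩
        omega
  · push Not at hzc
    obtain ⟨d, i, rfl⟩ := hzc
    have k3 := card_lines_on (G.x d i)
    simp only [thru_inl] at c4 c3
    have hall : ∀ l, (G.slots l).filter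
        (fun s => ¬ (Sum.inl (G.x d i) : PPt F) = Sum.inl (G.sp s)) = G.slots l := by
      intro l
      refine filter_true_of_mem (fun s hs e => ?_)
      exact sp_ne_x hG (mem_slots.1 hs).1 d i (Sum.inl.inj e).symm
    by_cases hprim : G.prim d ∈ TL
    · have k := count hG TL hT (Sum.inl (G.x d i)) (fun _ => 9)
        (fun h _ hz A a b b' c => card_le_nine hG hz A (fun s hs e => by
          obtain ⟨e', -⟩ := slot_at_centre hG (b s hs)
          rcases s with ⟨d1, j1, o1⟩
          simp only at e e'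
          subst e e'
          exact b' _ hs hprim) a b c)
      rw [← hM, ← hH, sum_const, smul_eq_mul] at k
      simp only [hall] at k
      have k2 : M.card * 9 ≤ ∑ l ∈ M, (G.slots l).card := by
        rw [← smul_eq_mul]
        exact card_nsmul_le_sum _ _ _ (fun l hl => nine_le_slots (hMsp l hl))
      omega
    · have hpM : G.prim d ∈ M := mem_filter.2 ⟨mem_univ _, hG.x_on d i, hprim⟩
      have k := count hG TL hT (Sum.inl (G.x d i))
        (fun h => if ∀ j, h ≠ G.ptr d i j then 4 else 10)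
        (fun h _ hz A a b _ c => by
          split_ifs with hp
          · exact card_le_four hG hz hp A a b c
          · exact card_le_ten hG hz A a b c)
      rw [← hM, ← hH] at k
      simp only [hall] at k
      have k2 : (M.erase (G.prim d)).card * 9 + 10 ≤ ∑ l ∈ M, (G.slots l).card := by
        rw [← sum_erase_add _ _ hpM, ← smul_eq_mul]
        exact add_le_add
          (card_nsmul_le_sum _ _ _ (fun l hl => nine_le_slots (hMsp l (mem_of_mem_erase hl))))
          (ten_le_slots d)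
      have k4 : (M.erase (G.prim d)).card ≤ 10 := by
        have : M.erase (G.prim d) ⊆ univ.image (fun j => G.aux d i j) := by
          intro l hl
          obtain ⟨a, b⟩ := mem_erase.1 hl
          rcases hG.x_free d i l (hMsp l b) (mem_filter.1 b).2.1 with e | ⟨j, e⟩
          · exact absurd e a
          · exact mem_image.2 ⟨j, mem_univ _, e.symm⟩
        refine (card_le_card this).trans (card_image_le.trans ?_)
        simp
      have k5 := card_erase_add_one hpM
      have k6 : ∑ h ∈ H, (if ∀ j, h ≠ G.ptr d i j then 4 else 10) ≤ H.card * 10 := by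
        rw [← smul_eq_mul]
        refine sum_le_card_nsmul _ _ _ (fun h _ => ?_)
        split_ifs <;> omega
      obtain ⟨i', hi⟩ := exists_ne i
      obtain ⟨δ, hδ⟩ := he d i'
      rcases e : G.ed d i' δ with _ | c
      · rw [e] at hδ
        have := c2 δ hδ
        omega
      · rw [e] at hδ
        obtain ⟨a, b⟩ := ed_avoid hG hi.symm e
        have hH' : (δ, c) ∈ H := mem_filter.2 ⟨(memTL _).2 hδ, a⟩
        have k7 : ∑ h ∈ H, (if ∀ j, h ≠ G.ptr d i j then 4 else 10) ≤
            (H.erase (δ, c)).card * 10 + 4 := by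
          rw [← sum_erase_add _ _ hH', if_pos b, ← smul_eq_mul]
          refine add_le_add (sum_le_card_nsmul _ _ _ (fun h _ => ?_)) le_rfl
          split_ifs <;> omega
        have k8 := card_erase_add_one hH'
        omega

end Data

theorem gadget {F : Type} [Field F] [Fintype F] [DecidableEq F] (G : Data F) (hG : G.Good) :
    ∃ E : Finset (Dir F → Option F), E.Nonempty ∧ (∀ w ∈ E, ∀ w' ∈ E, ∃ d, w d = w' d) ∧
      ∀ T : Finset (Dir F × Option F), (∀ w ∈ E, ∃ d, (d, w d) ∈ T) →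
        Fintype.card F + 1 ≤ T.card := by
  classical
  refine ⟨univ.filter (fun w => (∃ p, G.Base p ∧ w = Data.pen p) ∨ ∃ d i, w = G.ed d i),
    ⟨G.ed none 0, mem_filter.2 ⟨mem_univ _, Or.inr ⟨none, 0, rfl⟩⟩⟩, ?_, ?_⟩
  · intro w hw w' hw'
    rcases (mem_filter.1 hw).2 with ⟨p, hp, rfl⟩ | ⟨d, i, rfl⟩ <;>
      rcases (mem_filter.1 hw').2 with ⟨p', hp', rfl⟩ | ⟨d', i', rfl⟩
    · obtain ⟨δ, hδ⟩ := exists_dir p p'
      exact ⟨δ, congrArg some hδ⟩
    · obtain ⟨δ, hδ⟩ := Data.ed_pen hG d' i' hp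
      exact ⟨δ, hδ.symm⟩
    · exact Data.ed_pen hG d i hp'
    · exact Data.ed_ed hG d d' i i'
  · intro T hT
    exact Data.no_small_cover hG T
      (fun p hp => hT _ (mem_filter.2 ⟨mem_univ _, Or.inl ⟨p, hp, rfl⟩⟩))
      (fun d i => hT _ (mem_filter.2 ⟨mem_univ _, Or.inr ⟨d, i, rfl⟩⟩))

/-- conversion to the format of the statements -/
theorem to_fin {D S : Type} [Fintype D] [DecidableEq D] [Fintype S] [DecidableEq S] (q : ℕ)
    (hD : Fintype.card D = q + 1) (hS : Fintype.card S = q + 1) (E : Finset (D → S))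
    (h1 : E.Nonempty) (h2 : ∀ w ∈ E, ∀ w' ∈ E, ∃ d, w d = w' d)
    (h3 : ∀ T : Finset (D × S), (∀ w ∈ E, ∃ d, (d, w d) ∈ T) → q + 1 ≤ T.card) :
    ∃ (N : ℕ) (part : Fin N → Fin (q + 1)) (E : Finset (Finset (Fin N))),
      E.Nonempty ∧
      (∀ e ∈ E, ∀ i : Fin (q + 1), (e.filter (fun v => part v = i)).card = 1) ∧
      (∀ e ∈ E, ∀ f ∈ E, (e ∩ f).Nonempty) ∧
      (∀ i : Fin (q + 1), (Finset.univ.filter (fun v => part v = i)).card = q + 1) ∧
      (∀ v : Fin N, ∃ e ∈ E, v ∈ e) ∧
      (∀ S : Finset (Fin N), (∀ e ∈ E, (e ∩ S).Nonempty) → q + 1 ≤ S.card) := by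
  classical
  let φ : D × S ≃ Fin (Fintype.card (D × S)) := Fintype.equivFin _
  let ψ : D ≃ Fin (q + 1) := Fintype.equivFinOfCardEq hD
  let gr : (D → S) → Finset (Fin (Fintype.card (D × S))) :=
    fun w => univ.image (fun d => φ (d, w d))
  have mem_gr : ∀ w d s, φ (d, s) ∈ gr w ↔ w d = s := by
    intro w d s
    simp only [gr, mem_image, mem_univ, true_and, EmbeddingLike.apply_eq_iff_eq, Prod.mk.injEq]
    constructor
    · rintro ⟨a, rfl, h⟩; exact h
    · intro h; exact ⟨d, rfl, h⟩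
  refine ⟨Fintype.card (D × S), fun v => ψ (φ.symm v).1, E.image gr, h1.image _, ?_, ?_, ?_, ?_, ?_⟩
  · intro e he i
    obtain ⟨w, -, rfl⟩ := mem_image.1 he
    rw [card_eq_one]
    refine ⟨φ (ψ.symm i, w (ψ.symm i)), ?_⟩
    ext v
    obtain ⟨⟨d, s⟩, rfl⟩ := φ.surjective v
    simp only [mem_filter, mem_gr, Equiv.symm_apply_apply, mem_singleton,
      EmbeddingLike.apply_eq_iff_eq, Prod.mk.injEq]
    constructor
    · rintro ⟨rfl, rfl⟩; simp
    · rintro ⟨rfl, rfl⟩; simp
  · intro e he f hf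
    obtain ⟨w, hw, rfl⟩ := mem_image.1 he
    obtain ⟨w', hw', rfl⟩ := mem_image.1 hf
    obtain ⟨d, hd⟩ := h2 w hw w' hw'
    exact ⟨φ (d, w d), mem_inter.2 ⟨(mem_gr _ _ _).2 rfl, (mem_gr _ _ _).2 hd.symm⟩⟩
  · intro i
    have : univ.filter (fun v => ψ (φ.symm v).1 = i) =
        univ.image (fun s : S => φ (ψ.symm i, s)) := by
      ext v
      obtain ⟨⟨d, s⟩, rfl⟩ := φ.surjective v
      simp only [mem_filter, mem_univ, true_and, Equiv.symm_apply_apply, mem_image,
        EmbeddingLike.apply_eq_iff_eq, Prod.mk.injEq]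
      constructor
      · rintro rfl; exact ⟨s, by simp, rfl⟩
      · rintro ⟨_, rfl, -⟩; simp
    rw [this, card_image_of_injective _ (fun a b h => by simpa using h), card_univ, hS]
  · intro v
    obtain ⟨⟨d, s⟩, rfl⟩ := φ.surjective v
    by_contra hv
    have hno : ∀ w ∈ E, w d ≠ s := fun w hw e =>
      hv ⟨gr w, mem_image_of_mem _ hw, (mem_gr _ _ _).2 e⟩
    have := h3 ((univ.erase s).image (fun s' => (d, s'))) (fun w hw =>
      ⟨d, mem_image.2 ⟨w d, mem_erase.2 ⟨hno w hw, mem_univ _⟩, rfl⟩⟩)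
    have h4 := this.trans card_image_le
    rw [card_erase_of_mem (mem_univ _), card_univ, hS] at h4
    omega
  · intro U hU
    have := h3 (U.image φ.symm) (fun w hw => by
      obtain ⟨v, hv⟩ := hU (gr w) (mem_image_of_mem _ hw)
      obtain ⟨⟨d, s⟩, rfl⟩ := φ.surjective v
      obtain ⟨a, b⟩ := mem_inter.1 hv
      rw [mem_gr] at a
      subst a
      exact ⟨d, mem_image.2 ⟨_, b, by simp⟩⟩)
    exact this.trans card_image_le

end Crest.Agent.R34
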