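import Crest.Agent.R34.SelectCentre

/-! The covering property of the gadget data. -/

set_option autoImplicit false

namespace Crest.Agent.R34

open Finset

variable {F : Type} [Field F] [Fintype F] [DecidableEq F]

omit [Fintype F] in
theorem card_le_off (T : Finset (Ln F)) (z : PPt F) (l : Ln F) (hz : thru z l) (hl : l ∉ T)
    (S : Finset (Pt F)) (hS : ∀ p ∈ S, On p l ∧ ∃ l' ∈ T, On p l') :
    S.card ≤ (T.filter (fun l => ¬ thru z l)).card + 1 := by
  classical
  have hc : ∀ p, ∃ l', p ∈ S → l' ∈ T ∧ On p l' := by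
    intro p
    by_cases hp : p ∈ S
    · obtain ⟨l', h1, h2⟩ := (hS p hp).2
      exact ⟨l', fun _ => ⟨h1, h2⟩⟩
    · exact ⟨l, fun h => absurd h hp⟩
  choose cov hcov using hc
  have hne : ∀ p ∈ S, l ≠ cov p := fun p hp h => hl (h ▸ (hcov p hp).1)
  have h1 : (S.filter (fun p => z ≠ Sum.inl p)).card ≤ (T.filter (fun l => ¬ thru z l)).card := by
    refine card_le_card_of_injOn cov ?_ ?_
    · intro p hp
      obtain ⟨hp1, hp2⟩ := mem_filter.1 (mem_coe.1 hp)
      refine mem_coe.2 (mem_filter.2 ⟨(hcov p hp1).1, fun h => hp2 ?_⟩)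
      exact eq_of_thru (hne p hp1) hz h (hS p hp1).1 (hcov p hp1).2
    · intro p hp p' hp' h
      obtain ⟨hp1, -⟩ := mem_filter.1 (mem_coe.1 hp)
      obtain ⟨hp1', -⟩ := mem_filter.1 (mem_coe.1 hp')
      exact pt_eq_of_on (hne p hp1) (hS p hp1).1 (hcov p hp1).2 (hS p' hp1').1
        (h ▸ (hcov p' hp1').2)
  have h2 : (S.filter (fun p => ¬ z ≠ Sum.inl p)).card ≤ 1 := by
    rw [card_le_one]
    intro p hp p' hp'
    have e1 := not_not.1 (mem_filter.1 hp).2
    have e2 := not_not.1 (mem_filter.1 hp').2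
    exact Sum.inl_injective (e1.symm.trans e2)
  have h3 : (S.filter (fun p => z ≠ Sum.inl p)).card +
      (S.filter (fun p => ¬ z ≠ Sum.inl p)).card = S.card := by
    convert card_filter_add_card_filter_not (s := S) (fun p => z ≠ Sum.inl p)
  omega

theorem card_Lab : Fintype.card Lab = 10001 := by simp

theorem few_thru (ω : Idx F → F) (C μ : ℝ) (hM : MomentProp ω C) (h1 : 10001 ≤ μ)
    (h2 : C * (Fintype.card F : ℝ) ^ 2 < (μ - 4) ^ 5) (z : PPt F) :
    ((univ.filter (fun k : Idx F => thru z (rl ω k))).card : ℝ) ≤ μ := by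
  classical
  rcases z with p | d
  · by_contra hlt
    push Not at hlt
    set K := univ.filter (fun k : Idx F => thru (Sum.inl p) (rl ω k)) with hK
    have h3 : Fintype.card (Fin 5 ↪ K) ≤ (univ.filter (fun u : Pt F × (Fin 5 → Idx F) =>
        Function.Injective u.2 ∧ ∀ a, On u.1 (rl ω (u.2 a)))).card := by
      rw [← card_univ]
      refine card_le_card_of_injOn (fun u => (p, fun a => (u a).1)) ?_ ?_
      · intro u _
        refine mem_coe.2 (mem_filter.2 ⟨mem_univ _, ?_, fun a => (mem_filter.1 (u a).2).2⟩)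
        intro a b hab
        exact u.injective (Subtype.ext hab)
      · intro u _ u' _ h
        ext a : 1
        exact Subtype.ext (congrFun (congrArg Prod.snd h) a)
    rw [Fintype.card_embedding_eq, Fintype.card_fin, Fintype.card_coe] at h3
    have h4 := (Nat.pow_sub_le_descFactorial K.card 5).trans h3
    have h5 : (5 : ℝ) ≤ K.card := by linarith
    have h6 : 5 ≤ K.card := by exact_mod_cast h5
    have h7 : ((K.card + 1 - 5 : ℕ) : ℝ) = K.card - 4 := by
      rw [Nat.cast_sub (by omega)]; push_cast; ring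
    have h8 : ((K.card : ℝ) - 4) ^ 5 ≤ C * (Fintype.card F : ℝ) ^ 2 := by
      refine le_trans ?_ hM
      rw [← h7]
      have : (((K.card + 1 - 5 : ℕ) : ℝ)) ^ 5 ≤ ((univ.filter (fun u : Pt F × (Fin 5 → Idx F) =>
        Function.Injective u.2 ∧ ∀ a, On u.1 (rl ω (u.2 a)))).card : ℝ) := by exact_mod_cast h4
      convert this
    have h9 : (μ - 4) ^ 5 ≤ ((K.card : ℝ) - 4) ^ 5 :=
      pow_le_pow_left₀ (by linarith) (by linarith) 5
    linarith
  · have : (univ.filter (fun k : Idx F => thru (Sum.inr d) (rl ω k))).card ≤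
        (univ : Finset Lab).card := by
      refine card_le_card_of_injOn Prod.snd (fun _ _ => mem_coe.2 (mem_univ _)) ?_
      intro k hk k' hk' h
      have e1 : k.1 = d := (mem_filter.1 (mem_coe.1 hk)).2
      have e2 : k'.1 = d := (mem_filter.1 (mem_coe.1 hk')).2
      exact Prod.ext (e1.trans e2.symm) h
    rw [card_univ, card_Lab] at this
    have h3 : ((univ.filter (fun k : Idx F => thru (Sum.inr d) (rl ω k))).card : ℝ) ≤ 10001 := by
      exact_mod_cast this
    linarith

theorem cover_of (ω : Idx F → F) (Sp : Ln F → Prop) (hSp : ∀ l, Sp l → ∃ k, rl ω k = l) (κ : ℝ)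
    (hκ : 2 < κ) (hC : CoverProp Prod.fst ω (κ / 2)) (hF : FreeProp Prod.fst ω κ)
    (hμ : ∀ z : PPt F, ((univ.filter (fun k : Idx F => thru z (rl ω k))).card : ℝ) ≤ κ / 2)
    (T : Finset (Ln F)) (hT : T.card ≤ Fintype.card F)
    (hcov : ∀ p : Pt F, (∀ l, Sp l → ¬ On p l) → ∃ l ∈ T, On p l) :
    ∃ z : PPt F, ∀ l, thru z l → ¬ Sp l → l ∈ T := by
  classical
  let L := T.filter (fun l => ∀ k, rl ω k ≠ l)
  have hfree : ∀ p : Pt F, (∀ k, ¬ On p (rl ω k)) → ∃ l ∈ L, On p l := by
    intro p hp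
    obtain ⟨l, hl, hpl⟩ := hcov p (fun l hl h => by
      obtain ⟨k, rfl⟩ := hSp l hl
      exact hp k h)
    exact ⟨l, mem_filter.2 ⟨hl, fun k h => hp k (h ▸ hpl)⟩, hpl⟩
  obtain ⟨z, hz⟩ := hC L ((card_filter_le _ _).trans hT)
    (fun i hi => (mem_filter.1 hi).2 i rfl)
    (by
      rw [disjoint_left]
      intro p hp hp'
      obtain ⟨l, hl, hpl⟩ := hfree p (fun k => mem_free.1 hp' k (mem_univ _))
      exact mem_unc.1 hp l hl hpl)
  have hA : ∀ l, thru z l → (∀ k, rl ω k ≠ l) → l ∈ T := by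
    intro l hzl hl
    by_contra hlT
    have h1 := card_le_off L z l hzl (fun h => hlT (mem_filter.1 h).1)
      (freeOn Prod.fst univ ω l) (by
        intro p hp
        obtain ⟨hp1, hp2⟩ := mem_freeOn.1 hp
        refine ⟨hp1, hfree p (fun k hk => ?_)⟩
        by_cases hd : k.1 = l.1
        · exact hl k (line_eq_of_dir hk hp1 hd)
        · exact hp2 k (mem_univ _) hd hk)
    have h2 := hF l
    have h3 : ((freeOn Prod.fst univ ω l).card : ℝ) ≤
        (L.filter (fun l => ¬ thru z l)).card + 1 := by exact_mod_cast h1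
    linarith
  have hB : ((T.filter (fun l => ¬ thru z l)).card : ℝ) ≤ κ / 2 := by
    refine le_trans ?_ (hμ z)
    have h1 := card_thru_ge z
    have h2 : univ.filter (fun l : Ln F => thru z l) ⊆ T.filter (fun l => thru z l) ∪
        (univ.filter (fun k : Idx F => thru z (rl ω k))).image (rl ω) := by
      intro l hl
      have hzl := (mem_filter.1 hl).2
      by_cases h : ∀ k, rl ω k ≠ l
      · exact mem_union_left _ (mem_filter.2 ⟨hA l hzl h, hzl⟩)
      · push Not at h
        obtain ⟨k, rfl⟩ := h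
        exact mem_union_right _ (mem_image_of_mem _ (mem_filter.2 ⟨mem_univ _, hzl⟩))
    have h3 := (card_le_card h2).trans (card_union_le _ _)
    have h4 := card_image_le (s := univ.filter (fun k : Idx F => thru z (rl ω k))) (f := rl ω)
    have h5 := card_filter_add_card_filter_not (s := T) (fun l => thru z l)
    have h6 : (T.filter (fun l => ¬ thru z l)).card ≤
        (univ.filter (fun k : Idx F => thru z (rl ω k))).card := by omega
    exact_mod_cast h6
  refine ⟨z, fun l hzl hl => ?_⟩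
  by_contra hlT
  have h1 := card_le_off T z l hzl hlT (freeOn Prod.fst univ ω l) (by
    intro p hp
    obtain ⟨hp1, hp2⟩ := mem_freeOn.1 hp
    refine ⟨hp1, hcov p (fun l' hl' hk => ?_)⟩
    by_cases hd : l'.1 = l.1
    · exact hl (line_eq_of_dir hk hp1 hd ▸ hl')
    · obtain ⟨k, rfl⟩ := hSp l' hl'
      exact hp2 k (mem_univ _) hd hk)
  have h2 := hF l
  have h3 : ((freeOn Prod.fst univ ω l).card : ℝ) ≤
      (T.filter (fun l => ¬ thru z l)).card + 1 := by exact_mod_cast h1
  linarith

end Crest.Agent.R34
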