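import Crest.Agent.R34.SelectCentre

/-! Choosing the free points. -/

set_option autoImplicit false

namespace Crest.Agent.R34

open Finset

variable {F : Type} [Field F]

namespace Data

/-- the single point of a slot as a function of the free point -/
def spAt (G : Data F) : Slot F → Pt F → Pt F
  | (_, _, none), y => y
  | (d, j', some (i, j)), y => meet (G.aux d i j) (G.a d i j', lin (G.a d i j') y)

/-- replacing the free points -/
def withY (G : Data F) (y : Dir F → Fin 10 → Pt F) : Data F := ⟨G.r, G.x, G.a, y⟩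

theorem sp_withY (G : Data F) (y : Dir F → Fin 10 → Pt F) (s : Slot F) :
    (G.withY y).sp s = G.spAt s (y s.1 s.2.1) := by
  rcases s with ⟨d, j', _ | ⟨i, j⟩⟩ <;> rfl

theorem sl_withY (G : Data F) (y : Dir F → Fin 10 → Pt F) (s : Slot F) :
    (G.withY y).sl s = G.sl s := by
  rcases s with ⟨d, j', _ | ⟨i, j⟩⟩ <;> rfl

theorem sp_sl_sel (G : Data F) (s : Slot F) : G.Sp (G.sl s) := by
  rcases s with ⟨d, j', _ | ⟨i, j⟩⟩
  · exact Or.inl ⟨d, rfl⟩
  · exact Or.inr ⟨d, i, j, rfl⟩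

end Data

namespace Pre

variable {G : Data F} {ω : Idx F → F}

theorem dir_ne (hG : Pre G ω) {d : Dir F} {i : Fin 2} {j j' : Fin 10} (h : j ≠ j') :
    G.a d i j ≠ G.a d i j' := fun e => h (hG.a_inj d i j i j' e).2

theorem spAt_on (hG : Pre G ω) {s : Data.Slot F} (hs : Data.Adm s) {y : Pt F}
    (hy : On y (G.prim s.1)) : On (G.spAt s y) (G.sl s) := by
  rcases s with ⟨d, j', _ | ⟨i, j⟩⟩
  · exact hy
  · exact meet_on_left (hG.dir_ne (hs i j rfl))

theorem spAt_inj (hG : Pre G ω) {s : Data.Slot F} (hs : Data.Adm s) {y y' : Pt F}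
    (hy : On y (G.prim s.1)) (hy' : On y' (G.prim s.1)) (h : G.spAt s y = G.spAt s y') :
    y = y' := by
  rcases s with ⟨d, j', _ | ⟨i, j⟩⟩
  · exact h
  · have hd : G.a d i j ≠ G.a d i j' := hG.dir_ne (hs i j rfl)
    have h1 : On (G.spAt (d, j', some (i, j)) y) (G.a d i j', lin (G.a d i j') y) :=
      meet_on_right hd
    have h2 : On (G.spAt (d, j', some (i, j)) y') (G.a d i j', lin (G.a d i j') y') :=
      meet_on_right hd
    rw [h] at h1
    exact eq_of_lin_eq (hG.a_ne d i j') (h1.symm.trans h2) (Eq.trans hy hy'.symm)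

theorem sl_inj (hG : Pre G ω) {s s' : Data.Slot F} (h : G.sl s = G.sl s') :
    s.1 = s'.1 ∧ s.2.2 = s'.2.2 := by
  rcases s with ⟨d, k, _ | ⟨i, j⟩⟩ <;> rcases s' with ⟨d', k', _ | ⟨i', j'⟩⟩
  · have h1 : (G.prim d).1 = (G.prim d').1 := congrArg Prod.fst h
    exact ⟨h1, rfl⟩
  · exact absurd h.symm (hG.aux_ne_prim d' i' j' d)
  · exact absurd h (hG.aux_ne_prim d i j d')
  · obtain ⟨rfl, rfl, rfl⟩ := hG.aux_inj d i j d' i' j' h
    exact ⟨rfl, rfl⟩

end Pre

variable [Fintype F] [DecidableEq F]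

theorem exists_conc (ω : Idx F → F) (C : ℝ) (hM : MomentProp ω C) :
    ∃ M : Finset (PPt F × (Fin 5 → Idx F)),
      (M.card : ℝ) ≤ C * (Fintype.card F : ℝ) ^ 2 + (Fintype.card F + 1) * 10001 ^ 5 ∧
      ∀ z u, Function.Injective u → (∀ a, thru z (rl ω (u a))) → (z, u) ∈ M := by
  classical
  obtain ⟨M1, h1, h1'⟩ : ∃ M1 : Finset (Pt F × (Fin 5 → Idx F)),
      (M1.card : ℝ) ≤ C * (Fintype.card F : ℝ) ^ 2 ∧
      ∀ p u, Function.Injective u → (∀ a, On p (rl ω (u a))) → (p, u) ∈ M1 :=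
    ⟨_, hM, fun p u hu hp => by simp only [mem_filter, mem_univ, true_and]; exact ⟨hu, hp⟩⟩
  obtain ⟨M2, h2, h2'⟩ : ∃ M2 : Finset (Dir F × (Fin 5 → Lab)),
      M2.card = (Fintype.card F + 1) * 10001 ^ 5 ∧ ∀ w, w ∈ M2 := by
    refine ⟨univ, ?_, mem_univ⟩
    have : Fintype.card Lab = 10001 := by simp
    rw [card_univ, Fintype.card_prod, card_Dir, Fintype.card_fun, this, Fintype.card_fin]
  refine ⟨M1.image (fun w => (Sum.inl w.1, w.2)) ∪
    M2.image (fun w => (Sum.inr w.1, fun a => (w.1, w.2 a))), ?_, ?_⟩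
  · have h3 := (card_union_le (M1.image (fun w => ((Sum.inl w.1 : PPt F), w.2)))
      (M2.image (fun w => ((Sum.inr w.1 : PPt F), fun a => (w.1, w.2 a))))).trans
      (add_le_add card_image_le card_image_le)
    have h4 : (M2.card : ℝ) = (Fintype.card F + 1) * 10001 ^ 5 := by
      rw [h2, Nat.cast_mul, Nat.cast_pow, Nat.cast_add]; norm_num
    refine le_trans (Nat.cast_le.2 h3) ?_
    rw [Nat.cast_add, h4]
    linarith
  · rintro (p | d) u hu hz
    · exact mem_union_left _ (mem_image.2 ⟨(p, u), h1' p u hu hz, rfl⟩)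
    · refine mem_union_right _ (mem_image.2 ⟨(d, fun a => (u a).2), h2' _, ?_⟩)
      refine Prod.ext rfl ?_
      funext a
      exact Prod.ext (hz a).symm rfl

theorem exists_cand {G : Data F} {ω : Idx F → F} (hG : Pre G ω) (κ : ℝ) (hV : ValidProp ω κ)
    (N : ℕ) (hN : (N : ℝ) ≤ κ) (d : Dir F) (j' : Fin 10) :
    ∃ f : Fin N → Pt F, Function.Injective f ∧ ∀ t, On (f t) (G.prim d) ∧
      ∀ o, Data.Adm (d, j', o) → ∀ l, G.Sp l → On (G.spAt (d, j', o) (f t)) l →
        l = G.sl (d, j', o) := by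
  classical
  have h1 := hV (G.prim d) (fun i => G.a d i j') (G.aux d) (fun i => hG.a_ne d i j')
    (fun i j => hG.a_ne d i j)
  obtain ⟨f, hf1, hf2⟩ := exists_enum _ N (Nat.cast_le.1 (hN.trans h1))
  refine ⟨f, hf1, fun t => ?_⟩
  have h2 := hf2 t
  simp only [mem_filter, mem_univ, true_and] at h2
  obtain ⟨h3, h4, h5⟩ := h2
  refine ⟨h3, ?_⟩
  rintro (_ | ⟨i, j⟩) ho l hl hon
  · obtain ⟨k, rfl⟩ := hG.sp_rl l hl
    exact h4 k hon
  · obtain ⟨k, rfl⟩ := hG.sp_rl l hl
    exact h5 i j (hG.dir_ne (ho i j rfl)) k hon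

theorem exists_finset_iff {β : Type} [Fintype β] (p : β → Prop) :
    ∃ I : Finset β, ∀ e, e ∈ I ↔ p e := by
  classical
  exact ⟨univ.filter p, fun e => by simp⟩

theorem exists_free {G : Data F} {ω : Idx F → F} (hG : Pre G ω) (κ C : ℝ) (hV : ValidProp ω κ)
    (hM : MomentProp ω C) (N : ℕ) (hN0 : 0 < N) (hN : (N : ℝ) ≤ κ)
    (hnum : 4200 + ((Fintype.card F : ℝ) ^ 2 + Fintype.card F) * (10 ^ 5 *
      (C * (Fintype.card F : ℝ) ^ 2 + (Fintype.card F + 1) * 10001 ^ 5)) / ((N : ℝ) / 2) ^ 4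
        ≤ (N : ℝ) / 2) :
    ∃ y : Dir F → Fin 10 → Pt F, (∀ d j, On (y d j) (G.prim d)) ∧
      (∀ s, Data.Adm s → ∀ l, G.Sp l → On (G.spAt s (y s.1 s.2.1)) l → l = G.sl s) ∧
      (∀ d j j' o, Data.Adm (d, j, o) → Data.Adm (d, j', o) →
        G.spAt (d, j, o) (y d j) = G.spAt (d, j', o) (y d j') → j = j') ∧
      ∀ (z : PPt F) (h : Ln F) (s : Fin 5 → Data.Slot F), ¬ thru z h → (∀ a, Data.Adm (s a)) →
        Function.Injective (fun a => ((s a).1, (s a).2.1)) →
        Function.Injective (fun a => G.sl (s a)) →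
        (∀ a, thru z (G.sl (s a))) → ¬ ∀ a, On (G.spAt (s a) (y (s a).1 (s a).2.1)) h := by
  classical
  choose cand hinj hcand using exists_cand hG κ hV N hN
  obtain ⟨M, hM1, hM2⟩ := exists_conc ω C hM
  have : Inhabited (Fin N) := ⟨⟨0, hN0⟩⟩
  obtain ⟨I, hI⟩ : ∃ I : Finset (Dir F × Fin 10 × Fin 10 × Option (Fin 2 × Fin 10) × Fin N),
      ∀ e, e ∈ I ↔ e.2.1 ≠ e.2.2.1 ∧ Data.Adm (e.1, e.2.1, e.2.2.2.1) ∧
        Data.Adm (e.1, e.2.2.1, e.2.2.2.1) :=
    exists_finset_iff _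
  obtain ⟨J, hJ⟩ : ∃ J : Finset (PPt F × Ln F × (Fin 5 → Data.Slot F)),
      ∀ e, e ∈ J ↔ ¬ thru e.1 e.2.1 ∧ (∀ a, Data.Adm (e.2.2 a)) ∧
        Function.Injective (fun a => ((e.2.2 a).1, (e.2.2 a).2.1)) ∧
        Function.Injective (fun a => G.sl (e.2.2 a)) ∧ ∀ a, thru e.1 (G.sl (e.2.2 a)) :=
    exists_finset_iff _
  have hidx : ∀ s : Data.Slot F, ∃ k, rl ω k = G.sl s := fun s => hG.sp_rl _ (G.sp_sl_sel s)
  choose idx hidx using hidx
  have hN0' : (0 : ℝ) < N := by exact_mod_cast hN0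
  obtain ⟨f, hf1, hf2⟩ := exists_avoid2 (V := Dir F × Fin 10) (α := Fin N) I
    (fun e => {(e.1, e.2.1), (e.1, e.2.2.1)})
    (fun e f => f (e.1, e.2.1) = e.2.2.2.2 ∧
      G.spAt (e.1, e.2.1, e.2.2.2.1) (cand e.1 e.2.1 (f (e.1, e.2.1))) =
        G.spAt (e.1, e.2.2.1, e.2.2.2.1) (cand e.1 e.2.2.1 (f (e.1, e.2.2.1))))
    (by
      intro e _ f g hfg h
      rw [← hfg _ (mem_insert_self _ _), ← hfg _ (mem_insert_of_mem (mem_singleton_self _))]
      exact h)
    (by
      intro e he f g h1 h2 v hv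
      have h3 : f (e.1, e.2.1) = g (e.1, e.2.1) := h1.1.trans h2.1.symm
      rcases mem_insert.1 hv with rfl | hv
      · exact h3
      · rw [mem_singleton.1 hv]
        refine hinj e.1 e.2.2.1 (hG.spAt_inj ((hI e).1 he).2.2 (hcand _ _ _).1 (hcand _ _ _).1 ?_)
        rw [← h1.2, ← h2.2, h3])
    (fun e he => card_pair (fun h => ((hI e).1 he).1 (congrArg Prod.snd h)))
    J (fun e => univ.image (fun a => ((e.2.2 a).1, (e.2.2 a).2.1)))
    (fun e f => ∀ a, On (G.spAt (e.2.2 a)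
      (cand (e.2.2 a).1 (e.2.2 a).2.1 (f ((e.2.2 a).1, (e.2.2 a).2.1)))) e.2.1)
    (by
      intro e _ f g hfg h a
      rw [← hfg _ (mem_image_of_mem _ (mem_univ a))]
      exact h a)
    (by
      intro e he f g h1 h2 v hv
      obtain ⟨a, -, rfl⟩ := mem_image.1 hv
      obtain ⟨h3, h4, -, -, h5⟩ := (hJ e).1 he
      refine hinj (e.2.2 a).1 (e.2.2 a).2.1
        (hG.spAt_inj (h4 a) (hcand _ _ _).1 (hcand _ _ _).1 ?_)
      refine pt_eq_of_on (l := G.sl (e.2.2 a)) (l' := e.2.1) (fun h => h3 (h ▸ h5 a))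
        (hG.spAt_on (h4 a) (hcand _ _ _).1) (h1 a) (hG.spAt_on (h4 a) (hcand _ _ _).1) (h2 a))
    (fun e he => by
      rw [card_image_of_injective _ ((hJ e).1 he).2.2.1, card_univ, Fintype.card_fin])
    (2100 * N)
    (((Fintype.card F : ℝ) ^ 2 + Fintype.card F) * (10 ^ 5 *
      (C * (Fintype.card F : ℝ) ^ 2 + (Fintype.card F + 1) * 10001 ^ 5)))
    (by
      intro v
      have h1 : (I.filter (fun e => v ∈ ({(e.1, e.2.1), (e.1, e.2.2.1)} :
          Finset (Dir F × Fin 10)))).card ≤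
          (univ : Finset (Fin 10 × Fin 10 × Option (Fin 2 × Fin 10) × Fin N)).card := by
        refine card_le_card_of_injOn Prod.snd (fun _ _ => mem_coe.2 (mem_univ _)) ?_
        have key : ∀ e ∈ I.filter (fun e => v ∈ ({(e.1, e.2.1), (e.1, e.2.2.1)} :
          Finset (Dir F × Fin 10))), e.1 = v.1 := by
          intro e he
          rcases mem_insert.1 (mem_filter.1 he).2 with h | h
          · rw [h]
          · rw [mem_singleton.1 h]
        intro e he e' he' h
        exact Prod.ext ((key e he).trans (key e' he').symm) h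
      have h2 : (univ : Finset (Fin 10 × Fin 10 × Option (Fin 2 × Fin 10) × Fin N)).card =
          2100 * N := by
        simp only [card_univ, Fintype.card_prod, Fintype.card_option, Fintype.card_fin]
        ring
      rw [h2] at h1
      exact_mod_cast h1)
    (by
      have h1 : J.card ≤ ((univ : Finset (Ln F)) ×ˢ ((univ : Finset (Fin 5 → Fin 10)) ×ˢ M)).card := by
        refine card_le_card_of_injOn
          (fun e => (e.2.1, fun a => (e.2.2 a).2.1, e.1, fun a => idx (e.2.2 a))) ?_ ?_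
        · intro e he
          obtain ⟨-, -, -, h4, h5⟩ := (hJ e).1 he
          refine mem_coe.2 (mem_product.2 ⟨mem_univ _, mem_product.2 ⟨mem_univ _, hM2 _ _ ?_ ?_⟩⟩)
          · intro a b hab
            refine h4 ?_
            show G.sl (e.2.2 a) = G.sl (e.2.2 b)
            rw [← hidx, ← hidx]
            exact congrArg (rl ω) hab
          · intro a
            rw [hidx]; exact h5 a
        · intro e _ e' _ h
          simp only [Prod.mk.injEq] at h
          obtain ⟨h1, h2, h3, h4⟩ := h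
          refine Prod.ext h3 (Prod.ext h1 (funext fun a => ?_))
          have h5 : G.sl (e.2.2 a) = G.sl (e'.2.2 a) := by
            rw [← hidx, ← hidx]
            exact congrArg (rl ω) (congrFun h4 a)
          obtain ⟨h6, h7⟩ := hG.sl_inj h5
          exact Prod.ext h6 (Prod.ext (congrFun h2 a) h7)
      rw [card_product, card_product, card_univ, card_univ, card_Ln, Fintype.card_fun,
        Fintype.card_fin, Fintype.card_fin] at h1
      refine le_trans (Nat.cast_le.2 h1) ?_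
      rw [Nat.cast_mul, Nat.cast_mul, Nat.cast_add, Nat.cast_pow, Nat.cast_pow]
      refine mul_le_mul_of_nonneg_left (mul_le_mul (by norm_num) hM1 (Nat.cast_nonneg _)
        (by norm_num)) (by positivity))
    ((N : ℝ) / 2) (by positivity)
    (by
      have h1 : (2100 * N : ℝ) / ((N : ℝ) / 2) = 4200 := by field_simp; norm_num
      rw [h1, Fintype.card_fin]
      linarith)
  refine ⟨fun d j => cand d j (f (d, j)), fun d j => (hcand d j _).1, ?_, ?_, ?_⟩
  · rintro ⟨d, j, o⟩ hs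
    exact (hcand d j _).2 o hs
  · intro d j j' o h1 h2 h3
    by_contra hj
    exact hf1 (d, j, j', o, f (d, j)) ((hI _).2 ⟨hj, h1, h2⟩) ⟨rfl, h3⟩
  · intro z h s h1 h2 h3 h4 h5
    exact hf2 (z, h, s) ((hJ _).2 ⟨h1, h2, h3, h4, h5⟩)

end Crest.Agent.R34
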