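import Crest.Agent.R34.Plane
import Crest.Agent.R34.Prob
import Crest.Agent.R34.SelectCover
import Crest.Agent.R34.SelectFree

/-! From a typical family of random lines to good gadget data. -/

set_option autoImplicit false

namespace Crest.Agent.R34

open Finset

theorem select_num1 (c C q : ℝ) (hc : 0 < c) (h1 : 16 ≤ c * q) (h2 : 1 ≤ q)
    (h3 : 1024 * |C| / c ^ 5 < q) : C * q ^ 2 < (c * q / 2 - 4) ^ 5 := by
  have h4 : (c * q / 4) ^ 5 ≤ (c * q / 2 - 4) ^ 5 :=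
    pow_le_pow_left₀ (by positivity) (by linarith) 5
  refine lt_of_lt_of_le ?_ h4
  rw [div_lt_iff₀ (by positivity)] at h3
  have h5 : C ≤ |C| := le_abs_self C
  have h6 : q ≤ q ^ 3 := by
    calc q = q ^ 1 := (pow_one q).symm
      _ ≤ q ^ 3 := pow_le_pow_right₀ h2 (by norm_num)
  have h7 : 1024 * C < q ^ 3 * c ^ 5 := by
    have := mul_le_mul_of_nonneg_right h6 (show 0 ≤ c ^ 5 by positivity)
    linarith
  have h8 := mul_lt_mul_of_pos_right h7 (show 0 < q ^ 2 by positivity)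
  calc C * q ^ 2 = 1024 * C * q ^ 2 / 1024 := by ring
    _ < q ^ 3 * c ^ 5 * q ^ 2 / 1024 := by linarith
    _ = (c * q / 4) ^ 5 := by ring

theorem select_num2 (c C A q n : ℝ) (hc : 0 < c) (hA : 0 ≤ A) (h2 : 1 ≤ q) (hn : c * q / 2 ≤ n)
    (h3 : 4200 + 512 * (10 ^ 5 * (|C| + 2 * A)) / c ^ 4 ≤ c * q / 4) :
    4200 + (q ^ 2 + q) * (10 ^ 5 * (C * q ^ 2 + (q + 1) * A)) / (n / 2) ^ 4 ≤ n / 2 := by
  have h5 : C ≤ |C| := le_abs_self C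
  have h0 : 0 ≤ |C| := abs_nonneg C
  have hq : q ≤ q ^ 2 := by nlinarith
  have hq0 : 0 < q := by linarith
  have h6 : C * q ^ 2 + (q + 1) * A ≤ (|C| + 2 * A) * q ^ 2 := by
    have e1 := mul_le_mul_of_nonneg_right h5 (show 0 ≤ q ^ 2 by positivity)
    have e2 : (q + 1) * A ≤ (2 * q ^ 2) * A := mul_le_mul_of_nonneg_right (by linarith) hA
    linarith
  have h7 : (q ^ 2 + q) * (10 ^ 5 * (C * q ^ 2 + (q + 1) * A)) ≤
      (2 * q ^ 2) * (10 ^ 5 * ((|C| + 2 * A) * q ^ 2)) := by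
    calc (q ^ 2 + q) * (10 ^ 5 * (C * q ^ 2 + (q + 1) * A))
        ≤ (q ^ 2 + q) * (10 ^ 5 * ((|C| + 2 * A) * q ^ 2)) :=
          mul_le_mul_of_nonneg_left (mul_le_mul_of_nonneg_left h6 (by norm_num)) (by positivity)
      _ ≤ _ := mul_le_mul_of_nonneg_right (by linarith) (by positivity)
  have h8 : (c * q / 4) ^ 4 ≤ (n / 2) ^ 4 := pow_le_pow_left₀ (by positivity) (by linarith) 4
  have h9 : (q ^ 2 + q) * (10 ^ 5 * (C * q ^ 2 + (q + 1) * A)) / (n / 2) ^ 4 ≤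
      (2 * q ^ 2) * (10 ^ 5 * ((|C| + 2 * A) * q ^ 2)) / (c * q / 4) ^ 4 :=
    div_le_div₀ (by positivity) h7 (by positivity) h8
  have h10 : (2 * q ^ 2) * (10 ^ 5 * ((|C| + 2 * A) * q ^ 2)) / (c * q / 4) ^ 4 =
      512 * (10 ^ 5 * (|C| + 2 * A)) / c ^ 4 := by
    field_simp
    ring
  linarith

theorem select (c₁ c₂ C : ℝ) (h₁ : 0 < c₁) (h₂ : 0 < c₂) :
    ∃ q₀ : ℕ, ∀ (F : Type) [Field F] [Fintype F] [DecidableEq F], q₀ ≤ Fintype.card F →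
      ∀ ω : Idx F → F, CoverProp Prod.fst ω (c₁ / 2 * Fintype.card F) →
        FreeProp Prod.fst ω (c₁ * Fintype.card F) → CentreProp ω → MomentProp ω C →
        ValidProp ω (c₂ * Fintype.card F) → ∃ G : Data F, G.Good := by
  obtain ⟨q₁, hq₁⟩ := exists_nat_ge (20002 / c₁)
  obtain ⟨q₂, hq₂⟩ := exists_nat_gt (1024 * |C| / c₁ ^ 5)
  obtain ⟨q₃, hq₃⟩ :=
    exists_nat_ge (4 * (4200 + 512 * (10 ^ 5 * (|C| + 2 * 10001 ^ 5)) / c₂ ^ 4) / c₂)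
  refine ⟨q₁ + q₂ + q₃ + 1, fun F _ _ _ hq ω hC hF hCe hM hV => ?_⟩
  set q : ℝ := (Fintype.card F : ℝ) with hqd
  have hq' : (q₁ : ℝ) + q₂ + q₃ + 1 ≤ q := by rw [hqd]; exact_mod_cast hq
  have p₁ : (0 : ℝ) ≤ q₁ := Nat.cast_nonneg _
  have p₂ : (0 : ℝ) ≤ q₂ := Nat.cast_nonneg _
  have p₃ : (0 : ℝ) ≤ q₃ := Nat.cast_nonneg _
  have a₁ : 20002 ≤ c₁ * q := by
    have : 20002 / c₁ ≤ q := by linarith
    rw [div_le_iff₀ h₁] at this
    linarith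
  have a₃ : 4200 + 512 * (10 ^ 5 * (|C| + 2 * 10001 ^ 5)) / c₂ ^ 4 ≤ c₂ * q / 4 := by
    have : 4 * (4200 + 512 * (10 ^ 5 * (|C| + 2 * 10001 ^ 5)) / c₂ ^ 4) / c₂ ≤ q := by linarith
    rw [div_le_iff₀ h₂] at this
    linarith
  have a₄ : 16800 ≤ c₂ * q := by
    have : 0 ≤ 512 * (10 ^ 5 * (|C| + 2 * 10001 ^ 5)) / c₂ ^ 4 := by positivity
    linarith
  obtain ⟨G, hG⟩ := exists_pre ω hCe
  have b₁ : (⌊c₂ * q⌋₊ : ℝ) ≤ c₂ * q := Nat.floor_le (by linarith)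
  have b₂ : c₂ * q / 2 ≤ (⌊c₂ * q⌋₊ : ℝ) := by
    have := Nat.lt_floor_add_one (c₂ * q)
    linarith
  have b₃ : 0 < ⌊c₂ * q⌋₊ := Nat.floor_pos.2 (by linarith)
  obtain ⟨y, y1, y2, y3, y4⟩ := exists_free hG (c₂ * q) C hV hM ⌊c₂ * q⌋₊ b₃ b₁
    (select_num2 c₂ C (10001 ^ 5) q _ h₂ (by positivity) (by linarith) b₂ a₃)
  have hμ := few_thru ω C (c₁ * q / 2) hM (by linarith)
    (select_num1 c₁ C q h₁ (by linarith) (by linarith) (by linarith))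
  refine ⟨G.withY y, hG.x_on, y1, hG.a_ne, hG.a_inj, hG.x_ne, hG.aux_ne_prim, hG.aux_inj,
    hG.x_free, ?_, ?_, ?_, ?_⟩
  · intro s hs l hl hon
    rw [Data.sp_withY] at hon
    rw [Data.sl_withY]
    exact y2 s hs l hl hon
  · intro d j j' o h1 h2 h3
    rw [Data.sp_withY, Data.sp_withY] at h3
    exact y3 d j j' o h1 h2 h3
  · intro z h s h1 h2 h3 h4 h5
    simp only [Data.sl_withY, Data.sp_withY] at h4 h5 ⊢
    exact y4 z h s h1 h2 h3 h4 h5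
  · refine cover_of ω G.Sp hG.sp_rl (c₁ * q) (by linarith) ?_ hF hμ
    rwa [show c₁ * q / 2 = c₁ / 2 * q by ring]

end Crest.Agent.R34
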