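import Crest.Agent.R34.Cover
import Crest.Agent.R34.Centre
import Crest.Agent.R34.Gadget
import Crest.Agent.R34.Select

/-! Assembly. -/

set_option autoImplicit false

namespace Crest.Agent.R34

open Finset

theorem exists_good : ∃ q₀ : ℕ, ∀ (F : Type) [Field F] [Fintype F] [DecidableEq F],
    q₀ ≤ Fintype.card F → ∃ G : Data F, G.Good := by
  obtain ⟨c₁, hc₁, q₁, h₁⟩ := free_prob
  obtain ⟨C, h₂⟩ := moment_prob
  obtain ⟨c₂, hc₂, q₃, h₃⟩ := valid_prob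
  obtain ⟨q₄, h₄⟩ := centre_prob
  obtain ⟨q₅, h₅⟩ := cover_prob (c₁ / 2) (by positivity)
  obtain ⟨q₆, h₆⟩ := select c₁ c₂ C hc₁ hc₂
  refine ⟨q₁ + q₃ + q₄ + q₅ + q₆, fun F _ _ _ hq => ?_⟩
  have a₁ := h₁ F (by omega)
  have a₂ := h₂ F
  have a₃ := h₃ F (by omega)
  have a₄ := h₄ F (by omega)
  have a₅ := h₅ F (by omega)
  have hlt : pr (fun ω : Idx F → F => ¬ FreeProp Prod.fst ω (c₁ * Fintype.card F) ∨
      (¬ MomentProp ω C ∨ (¬ ValidProp ω (c₂ * Fintype.card F) ∨ (¬ CentreProp ω ∨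
        ¬ CoverProp Prod.fst ω (c₁ / 2 * Fintype.card F))))) < 1 := by
    refine lt_of_le_of_lt ((pr_or_le _ _).trans (add_le_add a₁ ((pr_or_le _ _).trans
      (add_le_add a₂ ((pr_or_le _ _).trans (add_le_add a₃ ((pr_or_le _ _).trans
        (add_le_add a₄ a₅)))))))) (by norm_num)
  obtain ⟨ω, hω⟩ := exists_not_of_pr_lt_one hlt
  push Not at hω
  obtain ⟨b₁, b₂, b₃, b₄, b₅⟩ := hω
  exact h₆ F (by omega) ω b₅ b₁ b₄ b₂ b₃

theorem main : ∃ q₀ : ℕ, ∀ (p n : ℕ), p.Prime → n ≠ 0 → q₀ ≤ p ^ n →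
    ∃ (N : ℕ) (part : Fin N → Fin (p ^ n + 1)) (E : Finset (Finset (Fin N))),
      E.Nonempty ∧
      (∀ e ∈ E, ∀ i : Fin (p ^ n + 1), (e.filter (fun v => part v = i)).card = 1) ∧
      (∀ e ∈ E, ∀ f ∈ E, (e ∩ f).Nonempty) ∧
      (∀ i : Fin (p ^ n + 1), (Finset.univ.filter (fun v => part v = i)).card = p ^ n + 1) ∧
      (∀ v : Fin N, ∃ e ∈ E, v ∈ e) ∧
      (∀ S : Finset (Fin N), (∀ e ∈ E, (e ∩ S).Nonempty) → p ^ n + 1 ≤ S.card) := by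
  classical
  obtain ⟨q₀, h⟩ := exists_good
  refine ⟨q₀, fun p n hp hn hq => ?_⟩
  haveI : Fact p.Prime := ⟨hp⟩
  haveI : Fintype (GaloisField p n) := Fintype.ofFinite _
  have hc : Fintype.card (GaloisField p n) = p ^ n := by
    rw [← Nat.card_eq_fintype_card, GaloisField.card p n hn]
  obtain ⟨G, hG⟩ := h (GaloisField p n) (by rw [hc]; exact hq)
  obtain ⟨E, h1, h2, h3⟩ := gadget G hG
  rw [hc] at h3
  exact to_fin (p ^ n) (by rw [card_Dir, hc]) (by rw [Fintype.card_option, hc]) E h1 h2 h3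

end Crest.Agent.R34
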