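import Crest.Agent.R34.Defs

/-! Incidence lemmas of the affine plane and the variance bound for line sums. -/

set_option autoImplicit false

namespace Crest.Agent.R34

open Finset

section

variable {F : Type} [Field F]

theorem on_lin (d : Dir F) (p : Pt F) : On p (d, lin d p) := rfl

theorem on_iff {p : Pt F} {l : Ln F} : On p l ↔ lin l.1 p = l.2 := Iff.rfl

theorem on_mk {p : Pt F} {d : Dir F} {c : F} : On p (d, c) ↔ lin d p = c := Iff.rfl

theorem eq_of_on {p : Pt F} {l : Ln F} (h : On p l) : l = (l.1, lin l.1 p) := by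
  rw [on_iff] at h; rw [h]

@[simp] theorem thru_inl {p : Pt F} {l : Ln F} : thru (Sum.inl p) l ↔ On p l := Iff.rfl
@[simp] theorem thru_inr {d : Dir F} {l : Ln F} : thru (Sum.inr d) l ↔ l.1 = d := Iff.rfl

/-- two lines with the same direction through one point coincide -/
theorem line_eq_of_dir {p : Pt F} {l l' : Ln F} (h : On p l) (h' : On p l') (hd : l.1 = l'.1) :
    l = l' := by
  rw [eq_of_on h, eq_of_on h', hd]

theorem eq_of_lin_eq {d d' : Dir F} (hd : d ≠ d') {p p' : Pt F} (h : lin d p = lin d p')
    (h' : lin d' p = lin d' p') : p = p' := by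
  rcases p with ⟨x, y⟩
  rcases p' with ⟨x', y'⟩
  rcases d with _ | m <;> rcases d' with _ | m'
  · exact absurd rfl hd
  · simp only [lin] at h h'
    subst h
    simp only [Prod.mk.injEq, true_and]
    linear_combination h'
  · simp only [lin] at h h'
    subst h'
    simp only [Prod.mk.injEq, true_and]
    linear_combination h
  · simp only [lin] at h h'
    have hm : m - m' ≠ 0 := sub_ne_zero.2 (fun e => hd (by rw [e]))
    have hx : x = x' := by
      have : (m - m') * (x - x') = 0 := by linear_combination h' - h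
      rcases mul_eq_zero.1 this with e | e
      · exact absurd e hm
      · exact sub_eq_zero.1 e
    subst hx
    simp only [Prod.mk.injEq, true_and]
    linear_combination h

/-- two distinct lines have at most one common point -/
theorem pt_eq_of_on {p p' : Pt F} {l l' : Ln F} (hl : l ≠ l') (h1 : On p l) (h2 : On p l')
    (h3 : On p' l) (h4 : On p' l') : p = p' := by
  have hd : l.1 ≠ l'.1 := fun e => hl (line_eq_of_dir h1 h2 e)
  exact eq_of_lin_eq hd (h1.trans h3.symm) (h2.trans h4.symm)

/-- two distinct points lie on at most one line -/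
theorem line_eq_of_on {p p' : Pt F} {l l' : Ln F} (hp : p ≠ p') (h1 : On p l) (h2 : On p l')
    (h3 : On p' l) (h4 : On p' l') : l = l' := by
  by_contra hl
  exact hp (pt_eq_of_on hl h1 h2 h3 h4)

theorem exists_dir (p p' : Pt F) : ∃ d : Dir F, lin d p = lin d p' := by
  rcases p with ⟨x, y⟩
  rcases p' with ⟨x', y'⟩
  by_cases h : x = x'
  · exact ⟨none, h⟩
  · refine ⟨some ((y - y') / (x - x')), ?_⟩
    have : x - x' ≠ 0 := sub_ne_zero.2 h
    simp only [lin]
    field_simp
    ring

theorem meet_on_left {l l' : Ln F} (h : l.1 ≠ l'.1) : On (meet l l') l := by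
  rcases l with ⟨_ | m, c⟩ <;> rcases l' with ⟨_ | m', c'⟩ <;> simp [On, meet, lin]

theorem meet_on_right {l l' : Ln F} (h : l.1 ≠ l'.1) : On (meet l l') l' := by
  rcases l with ⟨_ | m, c⟩ <;> rcases l' with ⟨_ | m', c'⟩
  · exact absurd rfl h
  · simp [On, meet, lin]
  · simp [On, meet, lin]
  · have hm : m - m' ≠ 0 := sub_ne_zero.2 (fun e => h (by simp [e]))
    simp only [On, meet, lin]
    field_simp
    ring

theorem eq_meet {p : Pt F} {l l' : Ln F} (h : l.1 ≠ l'.1) (h1 : On p l) (h2 : On p l') :
    p = meet l l' :=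
  pt_eq_of_on (fun e => h (by rw [e])) h1 h2 (meet_on_left h) (meet_on_right h)

/-- two distinct lines through a projective point `z` have no affine common point other than `z` -/
theorem eq_of_thru {z : PPt F} {l l' : Ln F} {p : Pt F} (hl : l ≠ l') (h1 : thru z l)
    (h2 : thru z l') (h3 : On p l) (h4 : On p l') : z = Sum.inl p := by
  rcases z with p' | d
  · rw [pt_eq_of_on hl h1 h2 h3 h4]
  · exact absurd (line_eq_of_dir h3 h4 ((thru_inr.1 h1).trans (thru_inr.1 h2).symm)) hl

/-- any two lines pass through a common projective point -/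
theorem exists_thru (l l' : Ln F) : ∃ z : PPt F, thru z l ∧ thru z l' := by
  by_cases h : l.1 = l'.1
  · exact ⟨.inr l.1, rfl, h.symm⟩
  · exact ⟨.inl (meet l l'), meet_on_left h, meet_on_right h⟩

/-- two distinct lines pass through at most one common projective point -/
theorem ppt_eq_of_thru {z z' : PPt F} {l l' : Ln F} (hl : l ≠ l') (h1 : thru z l)
    (h2 : thru z l') (h3 : thru z' l) (h4 : thru z' l') : z = z' := by
  rcases z' with p | d
  · exact eq_of_thru hl h1 h2 h3 h4
  · rcases z with p | d'
    · exact absurd (line_eq_of_dir h1 h2 ((thru_inr.1 h3).trans (thru_inr.1 h4).symm)) hl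
    · rw [← thru_inr.1 h1, ← thru_inr.1 h3]

variable [Fintype F] [DecidableEq F]

omit [Field F] [DecidableEq F] in
theorem card_Pt : Fintype.card (Pt F) = Fintype.card F ^ 2 := by
  simp [Pt, sq]

omit [Field F] [DecidableEq F] in
theorem card_Dir : Fintype.card (Dir F) = Fintype.card F + 1 := by
  simp [Dir]

omit [Field F] [DecidableEq F] in
theorem card_Ln : Fintype.card (Ln F) = Fintype.card F ^ 2 + Fintype.card F := by
  simp [Ln]; ring

theorem card_pts (l : Ln F) : (pts l).card = Fintype.card F := by
  rcases l with ⟨_ | m, c⟩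
  · have : pts ((none, c) : Ln F) = univ.image (fun y : F => ((c, y) : Pt F)) := by
      ext ⟨x, y⟩
      simp [On, lin, eq_comm]
    rw [this, card_image_of_injective _ (fun a b h => by simpa using h), card_univ]
  · have : pts ((some m, c) : Ln F) = univ.image (fun x : F => ((x, c + m * x) : Pt F)) := by
      ext ⟨x, y⟩
      simp only [mem_pts, On, lin, mem_image, mem_univ, true_and, Prod.mk.injEq]
      constructor
      · intro h; exact ⟨x, rfl, by linear_combination -h⟩
      · rintro ⟨a, rfl, h⟩; linear_combination -h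
    rw [this, card_image_of_injective _ (fun a b h => by simpa using (congrArg Prod.fst h)),
      card_univ]

/-- the lines through an affine point -/
theorem card_lines_on (p : Pt F) :
    (univ.filter (fun l : Ln F => On p l)).card = Fintype.card F + 1 := by
  have : univ.filter (fun l : Ln F => On p l) = univ.image (fun d : Dir F => (d, lin d p)) := by
    ext l
    simp only [mem_filter, mem_univ, true_and, mem_image]
    constructor
    · intro h; exact ⟨l.1, (eq_of_on h).symm⟩
    · rintro ⟨d, rfl⟩; rfl
  rw [this, card_image_of_injective _ (fun a b h => by simpa using (congrArg Prod.fst h)),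
    card_univ, card_Dir]

omit [Field F] in
/-- the lines with a given direction -/
theorem card_lines_dir (d : Dir F) :
    (univ.filter (fun l : Ln F => l.1 = d)).card = Fintype.card F := by
  have : univ.filter (fun l : Ln F => l.1 = d) = univ.image (fun c : F => (d, c)) := by
    ext ⟨e, c⟩
    simp [eq_comm]
  rw [this, card_image_of_injective _ (fun a b h => by simpa using h), card_univ]

theorem card_thru_ge (z : PPt F) :
    Fintype.card F ≤ (univ.filter (fun l : Ln F => thru z l)).card := by
  rcases z with p | d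
  · have := card_lines_on p
    simp only [thru_inl]
    omega
  · have := card_lines_dir d
    simp only [thru_inr]
    omega

theorem card_inter_pts_le_one {l l' : Ln F} (h : l ≠ l') : (pts l ∩ pts l').card ≤ 1 := by
  rw [card_le_one]
  intro a ha b hb
  simp only [mem_inter, mem_pts] at ha hb
  exact pt_eq_of_on h ha.1 ha.2 hb.1 hb.2

/-- summing over the lines of one direction gives the total sum -/
theorem sum_dir {M : Type} [AddCommMonoid M] (f : Pt F → M) (d : Dir F) :
    ∑ c : F, ∑ p ∈ pts (d, c), f p = ∑ p, f p := by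
  simp only [pts, on_mk]
  exact sum_fiberwise_of_maps_to (s := univ) (t := univ) (g := fun p => lin d p)
    (fun _ _ => mem_univ _) f

/-- double counting incidences -/
theorem sum_card_inter (B : Finset (Pt F)) (L : Finset (Ln F)) :
    ∑ l ∈ L, (B ∩ pts l).card = ∑ p ∈ B, mult L p := by
  simp only [mult, card_filter]
  rw [sum_comm]
  refine sum_congr rfl fun l _ => ?_
  rw [← card_filter]
  congr 1
  ext p; simp

theorem sum_sq_lines (f : Pt F → ℝ) :
    ∑ l : Ln F, (∑ p ∈ pts l, f p) ^ 2 =
      (∑ p, f p) ^ 2 + (Fintype.card F : ℝ) * ∑ p, f p ^ 2 := by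
  have key : ∀ p p' : Pt F, (∑ l : Ln F, if On p l ∧ On p' l then (1 : ℝ) else 0) =
      1 + if p = p' then (Fintype.card F : ℝ) else 0 := by
    intro p p'
    rw [← Finset.sum_filter, sum_const, nsmul_eq_mul, mul_one]
    split_ifs with h
    · subst h
      simp only [and_self]
      rw [card_lines_on]; push_cast; ring
    · obtain ⟨d, hd⟩ := exists_dir p p'
      have : univ.filter (fun l : Ln F => On p l ∧ On p' l) = {(d, lin d p)} := by
        ext l
        simp only [mem_filter, mem_univ, true_and, mem_singleton]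
        constructor
        · rintro ⟨h1, h2⟩
          exact line_eq_of_on h h1 (on_lin d p) h2 hd.symm
        · rintro rfl
          exact ⟨rfl, hd.symm⟩
      rw [this]; simp
  calc ∑ l : Ln F, (∑ p ∈ pts l, f p) ^ 2
      = ∑ l : Ln F, ∑ p, ∑ p', f p * f p' * (if On p l ∧ On p' l then (1 : ℝ) else 0) := by
        refine sum_congr rfl fun l _ => ?_
        rw [sq, pts, sum_filter, sum_mul_sum]
        refine sum_congr rfl fun p _ => sum_congr rfl fun p' _ => ?_
        by_cases h1 : On p l <;> by_cases h2 : On p' l <;> simp [h1, h2]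
    _ = ∑ p, ∑ p', f p * f p' * (1 + if p = p' then (Fintype.card F : ℝ) else 0) := by
        rw [sum_comm]
        refine sum_congr rfl fun p _ => ?_
        rw [sum_comm]
        refine sum_congr rfl fun p' _ => ?_
        rw [← mul_sum, key]
    _ = (∑ p, f p) ^ 2 + (Fintype.card F : ℝ) * ∑ p, f p ^ 2 := by
        rw [sq, sum_mul_sum, mul_sum, ← sum_add_distrib]
        refine sum_congr rfl fun p _ => ?_
        simp only [mul_add, mul_one, sum_add_distrib, mul_ite, mul_zero, sum_ite_eq, mem_univ,
          if_true]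
        ring

/-- variance of the line sums of a function -/
theorem variance (f : Pt F → ℝ) :
    ∑ l : Ln F, (∑ p ∈ pts l, f p - (∑ p, f p) / Fintype.card F) ^ 2 ≤
      (Fintype.card F : ℝ) * ∑ p, f p ^ 2 := by
  have hq : (0 : ℝ) < Fintype.card F := by exact_mod_cast Fintype.card_pos
  set S := ∑ p, f p with hS
  set q : ℝ := (Fintype.card F : ℝ) with hqd
  have h1 : ∑ l : Ln F, ∑ p ∈ pts l, f p = (q + 1) * S := by
    rw [Fintype.sum_prod_type]
    simp only [sum_dir, sum_const, card_univ, card_Dir, nsmul_eq_mul]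
    push_cast; rfl
  have h2 := sum_sq_lines f
  have h3 : ∑ l : Ln F, (∑ p ∈ pts l, f p - S / q) ^ 2 =
      ∑ l : Ln F, (∑ p ∈ pts l, f p) ^ 2 - 2 * (S / q) * ∑ l : Ln F, ∑ p ∈ pts l, f p +
        (q ^ 2 + q) * (S / q) ^ 2 := by
    have : ∀ l : Ln F, (∑ p ∈ pts l, f p - S / q) ^ 2 =
        (∑ p ∈ pts l, f p) ^ 2 - 2 * (S / q) * ∑ p ∈ pts l, f p + (S / q) ^ 2 := fun l => by ring
    simp only [this, sum_add_distrib, sum_sub_distrib, ← mul_sum, sum_const, card_univ, card_Ln,
      nsmul_eq_mul]
    push_cast; rfl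
  rw [h3, h2, h1]
  have h4 : S ^ 2 - 2 * (S / q) * ((q + 1) * S) + (q ^ 2 + q) * (S / q) ^ 2 = -(S ^ 2 / q) := by
    field_simp; ring
  have h5 : 0 ≤ S ^ 2 / q := by positivity
  linarith

/-- the number of lines whose sum exceeds the mean by `lam` -/
theorem rich_card (f : Pt F → ℝ) (lam : ℝ) (hlam : 0 ≤ lam) (R : Finset (Ln F))
    (hR : ∀ l ∈ R, (∑ p, f p) / Fintype.card F + lam ≤ ∑ p ∈ pts l, f p) :
    (R.card : ℝ) * lam ^ 2 ≤ (Fintype.card F : ℝ) * ∑ p, f p ^ 2 := by
  refine le_trans ?_ (variance f)
  calc (R.card : ℝ) * lam ^ 2 = ∑ _l ∈ R, lam ^ 2 := by simp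
    _ ≤ ∑ l ∈ R, (∑ p ∈ pts l, f p - (∑ p, f p) / Fintype.card F) ^ 2 := by
        refine sum_le_sum fun l hl => ?_
        have := hR l hl
        exact pow_le_pow_left₀ hlam (by linarith) 2
    _ ≤ _ := sum_le_sum_of_subset_of_nonneg (subset_univ _) (fun _ _ _ => sq_nonneg _)

/-- the number of lines meeting `W` in at least `|W|/q + lam` points -/
theorem rich_card_set (W : Finset (Pt F)) (lam : ℝ) (hlam : 0 ≤ lam) (R : Finset (Ln F))
    (hR : ∀ l ∈ R, (W.card : ℝ) / Fintype.card F + lam ≤ (W ∩ pts l).card) :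
    (R.card : ℝ) * lam ^ 2 ≤ (Fintype.card F : ℝ) * W.card := by
  have h1 : ∑ p : Pt F, (if p ∈ W then (1 : ℝ) else 0) = W.card := by simp
  have h2 : ∑ p : Pt F, (if p ∈ W then (1 : ℝ) else 0) ^ 2 = W.card := by simp
  have h3 : ∀ l : Ln F, ∑ p ∈ pts l, (if p ∈ W then (1 : ℝ) else 0) = (W ∩ pts l).card := by
    intro l; simp [inter_comm]
  have := rich_card (fun p => if p ∈ W then (1 : ℝ) else 0) lam hlam R (by
    intro l hl; rw [h1, h3]; exact hR l hl)
  rwa [h2] at this

end

end Crest.Agent.R34
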