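import Crest.Agent.Lib.CountLLL.Basic

/-! Corollaries of the counting local lemma: events that fix the values of their variables. -/

set_option autoImplicit false

namespace Crest.Agent.R34

open Finset

section LLL

variable {V α ι κ : Type} [Fintype V] [DecidableEq V] [Fintype α] [DecidableEq α] [Inhabited α]

theorem exists_avoid (I : Finset ι) (E : ι → Finset V) (bad : ι → (V → α) → Prop)
    (hdep : ∀ e ∈ I, ∀ f g : V → α, (∀ v ∈ E e, f v = g v) → bad e f → bad e g)
    (hne : ∀ e ∈ I, (E e).Nonempty)
    (huniq : ∀ e ∈ I, ∀ f g : V → α, bad e f → bad e g → ∀ v ∈ E e, f v = g v)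
    (β : ℝ) (hβ : 0 < β)
    (hsum : ∀ v, ∑ e ∈ I.filter (fun e => v ∈ E e), β / β ^ (E e).card ≤ Fintype.card α - β) :
    ∃ f : V → α, ∀ e ∈ I, ¬ bad e f := by
  classical
  refine Lib.CountLLL.exists_good I E bad hdep hne (fun _ => 1) ?_ β hβ ?_
  · intro e he
    have : (univ.filter (fun f : V → α =>
        (∀ v, v ∉ E e → f v = default) ∧ bad e f)).card ≤ 1 := by
      rw [card_le_one]
      intro f hf g hg
      obtain ⟨hf1, hf2⟩ := (mem_filter.1 hf).2
      obtain ⟨hg1, hg2⟩ := (mem_filter.1 hg).2
      funext v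
      by_cases hv : v ∈ E e
      · exact huniq e he f g hf2 hg2 v hv
      · rw [hf1 v hv, hg1 v hv]
    have h2 : ((univ.filter (fun f : V → α =>
        (∀ v, v ∉ E e → f v = default) ∧ bad e f)).card : ℝ) ≤ 1 := by exact_mod_cast this
    convert h2
  · intro v
    have := hsum v
    simp only [one_mul]
    convert this

theorem exists_avoid2 (I : Finset ι) (E : ι → Finset V) (bad : ι → (V → α) → Prop)
    (hdep : ∀ e ∈ I, ∀ f g : V → α, (∀ v ∈ E e, f v = g v) → bad e f → bad e g)
    (huniq : ∀ e ∈ I, ∀ f g : V → α, bad e f → bad e g → ∀ v ∈ E e, f v = g v)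
    (hI : ∀ e ∈ I, (E e).card = 2)
    (J : Finset κ) (E' : κ → Finset V) (bad' : κ → (V → α) → Prop)
    (hdep' : ∀ e ∈ J, ∀ f g : V → α, (∀ v ∈ E' e, f v = g v) → bad' e f → bad' e g)
    (huniq' : ∀ e ∈ J, ∀ f g : V → α, bad' e f → bad' e g → ∀ v ∈ E' e, f v = g v)
    (hJ : ∀ e ∈ J, (E' e).card = 5) (P Q : ℝ)
    (hP : ∀ v, ((I.filter (fun e => v ∈ E e)).card : ℝ) ≤ P) (hQ : (J.card : ℝ) ≤ Q)
    (β : ℝ) (hβ : 0 < β) (h : P / β + Q / β ^ 4 ≤ Fintype.card α - β) :
    ∃ f : V → α, (∀ e ∈ I, ¬ bad e f) ∧ ∀ e ∈ J, ¬ bad' e f := by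
  classical
  obtain ⟨f, hf⟩ := exists_avoid (I.disjSum J) (Sum.elim E E') (Sum.elim bad bad')
    (by
      rintro (e | e) he
      · exact hdep e (inl_mem_disjSum.1 he)
      · exact hdep' e (inr_mem_disjSum.1 he))
    (by
      rintro (e | e) he
      · exact card_pos.1 (by rw [Sum.elim_inl, hI e (inl_mem_disjSum.1 he)]; norm_num)
      · exact card_pos.1 (by rw [Sum.elim_inr, hJ e (inr_mem_disjSum.1 he)]; norm_num))
    (by
      rintro (e | e) he
      · exact huniq e (inl_mem_disjSum.1 he)
      · exact huniq' e (inr_mem_disjSum.1 he))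
    β hβ (by
      intro v
      rw [sum_filter, sum_disjSum]
      simp only [Sum.elim_inl, Sum.elim_inr]
      have h1 : ∑ e ∈ I, (if v ∈ E e then β / β ^ (E e).card else 0) ≤ P / β := by
        rw [← sum_filter]
        calc ∑ e ∈ I.filter (fun e => v ∈ E e), β / β ^ (E e).card
            = ∑ _e ∈ I.filter (fun e => v ∈ E e), 1 / β := by
              refine sum_congr rfl fun e he => ?_
              rw [hI e (mem_filter.1 he).1]
              field_simp
          _ = (I.filter (fun e => v ∈ E e)).card / β := by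
              rw [sum_const, nsmul_eq_mul]; ring
          _ ≤ P / β := div_le_div_of_nonneg_right (hP v) hβ.le
      have h2 : ∑ e ∈ J, (if v ∈ E' e then β / β ^ (E' e).card else 0) ≤ Q / β ^ 4 := by
        calc ∑ e ∈ J, (if v ∈ E' e then β / β ^ (E' e).card else 0)
            ≤ ∑ _e ∈ J, 1 / β ^ 4 := by
              refine sum_le_sum fun e he => ?_
              rw [hJ e he]
              split_ifs
              · apply le_of_eq; field_simp
              · positivity
          _ = J.card / β ^ 4 := by rw [sum_const, nsmul_eq_mul]; ring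
          _ ≤ Q / β ^ 4 := div_le_div_of_nonneg_right hQ (by positivity)
      exact (add_le_add h1 h2).trans h)
  exact ⟨f, fun e he => hf (.inl e) (inl_mem_disjSum.2 he),
    fun e he => hf (.inr e) (inr_mem_disjSum.2 he)⟩

/-- independent transversals -/
theorem indep_transversal (R : V → α → V → α → Prop)
    (hsymm : ∀ v a v' a', R v a v' a' → R v' a' v a) (D : ℕ)
    (hD' : ∀ v a (S : Finset (V × α)), (∀ p ∈ S, R v a p.1 p.2) → S.card ≤ D)
    (hN : 4 * D ≤ Fintype.card α) :
    ∃ f : V → α, ∀ v v', v ≠ v' → ¬ R v (f v) v' (f v') := by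
  classical
  have hD : ∀ v a, (univ.filter (fun p : V × α => R v a p.1 p.2)).card ≤ D :=
    fun v a => hD' v a _ (fun p hp => (mem_filter.1 hp).2)
  let ord := Fintype.equivFin V
  let I : Finset ((V × α) × (V × α)) :=
    univ.filter (fun p => ord p.1.1 < ord p.2.1 ∧ R p.1.1 p.1.2 p.2.1 p.2.2)
  have hN0 : (0 : ℝ) < Fintype.card α := by exact_mod_cast Fintype.card_pos
  have hne : ∀ p ∈ I, p.1.1 ≠ p.2.1 := by
    intro p hp h
    have := (mem_filter.1 hp).2.1
    rw [h] at this
    exact lt_irrefl _ this
  obtain ⟨f, hf, -⟩ := exists_avoid2 (V := V) (α := α) (κ := Unit) I (fun p => {p.1.1, p.2.1})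
    (fun p f => f p.1.1 = p.1.2 ∧ f p.2.1 = p.2.2)
    (by
      intro p _ f g hfg h
      exact ⟨(hfg _ (by simp)).symm.trans h.1, (hfg _ (by simp)).symm.trans h.2⟩)
    (by
      intro p _ f g h1 h2 v hv
      rcases mem_insert.1 hv with rfl | hv
      · rw [h1.1, h2.1]
      · rw [mem_singleton.1 hv, h1.2, h2.2])
    (fun p hp => card_pair (hne p hp))
    ∅ (fun _ => ∅) (fun _ _ => False) (by simp) (by simp) (by simp)
    (D * Fintype.card α) 0
    (by
      intro v
      have : (I.filter (fun p => v ∈ ({p.1.1, p.2.1} : Finset V))).card ≤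
          D * (univ : Finset α).card := by
        refine card_le_mul_card_image_of_maps_to
          (f := fun p => if p.1.1 = v then p.1.2 else p.2.2) (fun _ _ => mem_univ _) D ?_
        intro a _
        refine le_trans ?_ (hD v a)
        refine card_le_card_of_injOn (fun p => if p.1.1 = v then p.2 else p.1) ?_ ?_
        · intro p hp
          simp only [coe_filter, mem_filter, mem_univ, true_and, Set.mem_ofPred_eq, I,
            mem_insert, mem_singleton] at hp ⊢
          obtain ⟨⟨⟨-, h2⟩, h3⟩, h4⟩ := hp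
          by_cases h : p.1.1 = v
          · simp only [h, if_true] at h4 ⊢
            rw [← h4, ← h]; exact h2
          · simp only [h, if_false] at h4 ⊢
            have h5 : v = p.2.1 := h3.resolve_left (Ne.symm h)
            rw [← h4, h5]; exact hsymm _ _ _ _ h2
        · intro p hp p' hp' hpp
          simp only [coe_filter, mem_filter, mem_univ, true_and, Set.mem_ofPred_eq, I,
            mem_insert, mem_singleton] at hp hp'
          obtain ⟨⟨⟨h1, -⟩, h3⟩, h4⟩ := hp
          obtain ⟨⟨⟨h1', -⟩, h3'⟩, h4'⟩ := hp'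
          by_cases h : p.1.1 = v <;> by_cases h' : p'.1.1 = v
          · simp only [h, h', if_true] at h4 h4' hpp
            exact Prod.ext (Prod.ext (h.trans h'.symm) (h4.trans h4'.symm)) hpp
          · simp only [h, h', if_true, if_false] at hpp
            have h5 : v = p'.2.1 := h3'.resolve_left (Ne.symm h')
            rw [h, hpp] at h1
            rw [← h5] at h1'
            exact absurd h1 (lt_asymm h1')
          · simp only [h, h', if_true, if_false] at hpp
            have h5 : v = p.2.1 := h3.resolve_left (Ne.symm h)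
            rw [h', ← hpp] at h1'
            rw [← h5] at h1
            exact absurd h1 (lt_asymm h1')
          · simp only [h, h', if_false] at h4 h4' hpp
            have h5 : v = p.2.1 := h3.resolve_left (Ne.symm h)
            have h5' : v = p'.2.1 := h3'.resolve_left (Ne.symm h')
            exact Prod.ext hpp (Prod.ext (h5.symm.trans h5') (h4.trans h4'.symm))
      rw [card_univ] at this
      exact_mod_cast this)
    (by simp) ((Fintype.card α : ℝ) / 2) (by positivity)
    (by
      have h1 : (4 * D : ℝ) ≤ Fintype.card α := by exact_mod_cast hN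
      have h2 : (D : ℝ) * Fintype.card α / ((Fintype.card α : ℝ) / 2) = 2 * D := by
        field_simp
      rw [h2, zero_div]
      linarith)
  refine ⟨f, fun v v' hv hR => ?_⟩
  rcases lt_or_gt_of_ne (fun h => hv (ord.injective h)) with h | h
  · exact hf ((v, f v), (v', f v')) (mem_filter.2 ⟨mem_univ _, h, hR⟩) ⟨rfl, rfl⟩
  · exact hf ((v', f v'), (v, f v)) (mem_filter.2 ⟨mem_univ _, h, hsymm _ _ _ _ hR⟩) ⟨rfl, rfl⟩

end LLL

theorem exists_enum {β : Type} (S : Finset β) (n : ℕ) (h : n ≤ S.card) :
    ∃ f : Fin n → β, Function.Injective f ∧ ∀ t, f t ∈ S := by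
  refine ⟨fun t => (S.equivFin.symm (Fin.castLE h t)).1, ?_, fun t => (S.equivFin.symm _).2⟩
  intro t t' htt
  exact Fin.castLE_injective h (S.equivFin.symm.injective (Subtype.ext htt))

end Crest.Agent.R34
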