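import Crest.Agent.R34.Plane
import Crest.Agent.R34.SelectLLL

/-! Choosing the centres. -/

set_option autoImplicit false

namespace Crest.Agent.R34

open Finset

variable {F : Type} [Field F] [Fintype F] [DecidableEq F]

/-- the properties of the gadget data that do not involve the free points -/
structure Pre (G : Data F) (ω : Idx F → F) : Prop where
  x_on : ∀ d i, On (G.x d i) (G.prim d)
  a_ne : ∀ d i j, G.a d i j ≠ d
  a_inj : ∀ d i j i' j', G.a d i j = G.a d i' j' → i = i' ∧ j = j'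
  x_ne : ∀ d, G.x d 0 ≠ G.x d 1
  aux_ne_prim : ∀ d i j d', G.aux d i j ≠ G.prim d'
  aux_inj : ∀ d i j d' i' j', G.aux d i j = G.aux d' i' j' → d = d' ∧ i = i' ∧ j = j'
  x_free : ∀ d i l, G.Sp l → On (G.x d i) l → l = G.prim d ∨ ∃ j, l = G.aux d i j
  sp_rl : ∀ l, G.Sp l → ∃ k, rl ω k = l

omit [Fintype F] [DecidableEq F] in
theorem IsCentre.unique {ω : Idx F → F} {d d' : Dir F} {x : Pt F} (h : IsCentre ω d x)
    (h' : IsCentre ω d' x) : d = d' := by
  by_contra hd
  obtain ⟨-, e, m, -, -, h3⟩ := h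
  obtain ⟨c, hc⟩ := (h3 (d', none) (Ne.symm hd)).1 h'.1
  simp at hc

theorem exists_pre (ω : Idx F → F) (h : CentreProp ω) : ∃ G : Data F, Pre G ω := by
  classical
  obtain ⟨Δ, hΔ, h1, h2⟩ := h
  have hc : ∀ d : Dir F, ∃ f : Fin (100 * Δ) → Pt F, Function.Injective f ∧
      ∀ t, IsCentre ω d (f t) := by
    intro d
    obtain ⟨f, hf1, hf2⟩ := exists_enum _ _ (h1 d)
    exact ⟨f, hf1, fun t => (mem_filter.1 (hf2 t)).2⟩
  choose cand hinj hcen using hc
  have hc2 := fun d t => (hcen d t).2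
  choose e m he1 he2 he3 using hc2
  have hon : ∀ d t c, On (cand d t) (rl ω (e d t c, some (c, m d t c))) :=
    fun d t c => (he3 d t _ (he2 d t c)).2 ⟨c, rfl⟩
  have : Inhabited (Fin (100 * Δ)) := ⟨⟨0, by omega⟩⟩
  obtain ⟨f, hf⟩ := indep_transversal (V := Dir F × Fin 2) (α := Fin (100 * Δ))
    (fun v t v' t' => ∃ c c', e v.1 t c = e v'.1 t' c' ∧
      (v.1 = v'.1 ∨ (c = c' ∧ m v.1 t c = m v'.1 t' c')))
    (by
      rintro v t v' t' ⟨c, c', h1, h2⟩
      exact ⟨c', c, h1.symm, h2.imp Eq.symm (fun h => ⟨h.1.symm, h.2.symm⟩)⟩)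
    (22 * Δ)
    (by
      rintro ⟨d, i⟩ t S hS
      obtain ⟨A, hA, hA'⟩ : ∃ A : Finset (Pt F), A.card ≤ 100000 ∧
          ∀ x c w, On x (rl ω (d, none)) → On x (rl ω (e d t c, some w)) → x ∈ A := by
        refine ⟨(univ : Finset (Fin 10 × Fin 10 × Fin 1000)).biUnion
          (fun w => pts (rl ω (d, none)) ∩ pts (rl ω (e d t w.1, some w.2))), ?_, ?_⟩
        · refine (card_biUnion_le_card_mul _ _ 1 ?_).trans (by simp)
          intro w _
          refine card_inter_pts_le_one (fun h => he2 d t w.1 ?_)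
          exact (congrArg Prod.fst h).symm
        · intro x c w h3 h4
          rw [mem_biUnion]
          exact ⟨(c, w), mem_univ _, mem_inter.2 ⟨mem_pts.2 h3, mem_pts.2 h4⟩⟩
      obtain ⟨B, hB, hB'⟩ : ∃ B : Finset (Pt F), B.card ≤ 10 * Δ ∧
          ∀ x c d', On x (rl ω (e d t c, some (c, m d t c))) → d' ≠ e d t c →
            IsCentre ω d' x → x ∈ B := by
        refine ⟨(univ : Finset (Fin 10)).biUnion
          (fun c => univ.filter (fun x : Pt F => On x (rl ω (e d t c, some (c, m d t c))) ∧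
            ∃ d', d' ≠ e d t c ∧ IsCentre ω d' x)), ?_, ?_⟩
        · refine (card_biUnion_le_card_mul _ _ Δ ?_).trans (by simp)
          intro c _
          have := h2 (e d t c, some (c, m d t c)) (by simp)
          convert this
        · intro x c d' h3 h4 h5
          exact mem_biUnion.2 ⟨c, mem_univ _, mem_filter.2 ⟨mem_univ _, h3, d', h4, h5⟩⟩
      refine le_trans (card_le_card_of_injOn (t := (univ : Finset (Fin 2)) ×ˢ (A ∪ B))
        (fun p => (p.1.2, cand p.1.1 p.2)) ?_ ?_) ?_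
      · rintro ⟨⟨d', i'⟩, t'⟩ hp
        obtain ⟨c, c', h3, h4⟩ := hS _ hp
        dsimp only at h3 h4
        refine mem_coe.2 (mem_product.2 ⟨mem_univ _, mem_union.2 ?_⟩)
        dsimp only
        rcases h4 with h4 | ⟨h4, h5⟩
        · left
          subst h4
          refine hA' _ c (c', m d t' c') (hcen d t').1 ?_
          rw [h3]; exact hon d t' c'
        · right
          subst h4
          refine hB' _ c d' ?_ ?_ (hcen d' t')
          · rw [h3, h5]; exact hon d' t' c
          · rw [h3]; exact (he2 d' t' c).symm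
      · rintro ⟨⟨d₁, i₁⟩, t₁⟩ - ⟨⟨d₂, i₂⟩, t₂⟩ - hp
        simp only [Prod.mk.injEq] at hp
        obtain ⟨rfl, hp⟩ := hp
        have hd : d₁ = d₂ := (hcen d₁ t₁).unique (hp ▸ hcen d₂ t₂)
        subst hd
        rw [hinj d₁ hp]
      · rw [card_product, card_univ, Fintype.card_fin]
        have := card_union_le A B
        omega)
    (by rw [Fintype.card_fin]; omega)
  let G : Data F := ⟨fun d => ω (d, none), fun d i => cand d (f (d, i)),
    fun d i j => e d (f (d, i)) j, fun _ _ => (0, 0)⟩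
  have hprim : ∀ d, G.prim d = rl ω (d, none) := fun _ => rfl
  have haux : ∀ d i j, G.aux d i j =
      rl ω (e d (f (d, i)) j, some (j, m d (f (d, i)) j)) := by
    intro d i j
    exact (eq_of_on (hon d (f (d, i)) j)).symm
  have hainj : ∀ d i j i' j', G.a d i j = G.a d i' j' → i = i' ∧ j = j' := by
    intro d i j i' j' h
    by_cases hi : i = i'
    · subst hi
      exact ⟨rfl, he1 d _ h⟩
    · exact absurd ⟨j, j', h, Or.inl rfl⟩ (hf (d, i) (d, i') (fun h => hi (congrArg Prod.snd h)))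
  have hxa : ∀ d i j, On (G.x d i) (G.aux d i j) := fun d i j => on_lin _ _
  have hanp : ∀ d i j d', G.aux d i j ≠ G.prim d' := by
    intro d i j d' h
    have hd : d' = e d (f (d, i)) j := (congrArg Prod.fst h).symm
    have h3 : On (cand d (f (d, i))) (rl ω (d', none)) := by
      rw [← hprim, ← h]; exact hxa d i j
    obtain ⟨c, hc⟩ := (he3 d (f (d, i)) (d', none) (by rw [hd]; exact he2 _ _ _)).1 h3
    simp at hc
  refine ⟨G, fun d i => (hcen d _).1, fun d i j => he2 _ _ _, hainj, ?_, hanp, ?_, ?_, ?_⟩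
  · intro d h
    have h3 : f (d, 0) = f (d, 1) := hinj d h
    have := (hainj d 0 0 1 0 (by simp only [G]; rw [h3])).1
    simp at this
  · intro d i j d' i' j' h
    have hdir : e d (f (d, i)) j = e d' (f (d', i')) j' := congrArg Prod.fst h
    have h3 : On (cand d' (f (d', i'))) (rl ω (e d (f (d, i)) j, some (j, m d (f (d, i)) j))) := by
      rw [← haux, h]; exact hxa d' i' j'
    obtain ⟨c, hc⟩ := (he3 d' (f (d', i')) _ (by
      show e d (f (d, i)) j ≠ d'
      rw [hdir]; exact he2 _ _ _)).1 h3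
    simp only [Prod.mk.injEq, Option.some.injEq] at hc
    obtain ⟨hc1, hc2, hc3⟩ := hc
    by_cases hv : (d, i) = (d', i')
    · obtain ⟨rfl, rfl⟩ := Prod.mk.inj hv
      exact ⟨rfl, rfl, he1 _ _ hdir⟩
    · exact absurd ⟨j, c, hc1, Or.inr ⟨hc2, hc3⟩⟩ (hf (d, i) (d', i') hv)
  · intro d i l hl hx
    by_cases hd : l.1 = d
    · exact Or.inl (line_eq_of_dir hx (hcen d _).1 hd)
    · have : ∃ k, rl ω k = l := by
        rcases hl with ⟨d', rfl⟩ | ⟨d', i', j', rfl⟩
        · exact ⟨_, (hprim d').symm⟩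
        · exact ⟨_, (haux d' i' j').symm⟩
      obtain ⟨k, rfl⟩ := this
      obtain ⟨c, rfl⟩ := (he3 d (f (d, i)) k hd).1 hx
      exact Or.inr ⟨c, (haux d i c).symm⟩
  · rintro l (⟨d', rfl⟩ | ⟨d', i', j', rfl⟩)
    · exact ⟨_, (hprim d').symm⟩
    · exact ⟨_, (haux d' i' j').symm⟩

end Crest.Agent.R34
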